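import Vale.Agent.P078.MKS.Interlace

/-!
One exact step of the greedy colouring: some colour does not increase the smoothed root count, and
the replacement of the smoothed indicator by a polynomial costs at most `4 c η`.
-/

noncomputable section

namespace Vale.Agent.P078.MKS

open Finset Filter Topology MeasureTheory

variable {V : Type} [Fintype V] [DecidableEq V] {r : ℕ}

lemma sum_soft_polar {t g : ℝ} (hg : 0 < g) (m : Multiset ℂ) (hm : ∀ l ∈ m, l.im = 0) :
    ∃ R : ℝ, 0 < R ∧ (m.map fun l => (t : ℂ) + (g : ℂ) * Complex.I - l).prod =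
      R * Complex.exp (((Real.pi * (m.map fun l => soft t g l.re).sum : ℝ) : ℂ) * Complex.I) := by
  induction m using Multiset.induction with
  | empty => exact ⟨1, one_pos, by simp⟩
  | cons a m ih =>
    obtain ⟨R, hR, e⟩ := ih fun l hl => hm l (Multiset.mem_cons_of_mem hl)
    set u := (a.re - t) / g with hu
    have hs : 0 < Real.sqrt (1 + u ^ 2) := Real.sqrt_pos.2 (by positivity)
    have hone : (t : ℂ) + (g : ℂ) * Complex.I - a = ((g * Real.sqrt (1 + u ^ 2) : ℝ) : ℂ) *
        Complex.exp (((Real.pi * soft t g a.re : ℝ) : ℂ) * Complex.I) := by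
      have hθ : Real.pi * soft t g a.re = Real.arctan u + Real.pi / 2 := by
        rw [soft, ← hu]; field_simp; ring
      apply Complex.ext
      · rw [Complex.re_ofReal_mul, Complex.exp_ofReal_mul_I_re, hθ, Real.cos_add_pi_div_two,
          Real.sin_arctan]
        simp only [Complex.sub_re, Complex.add_re, Complex.mul_re, Complex.ofReal_re,
          Complex.I_re, Complex.I_im, Complex.ofReal_im, mul_zero, zero_mul, sub_zero, add_zero]
        field_simp
        rw [hu]
        field_simp
        ring
      · rw [Complex.im_ofReal_mul, Complex.exp_ofReal_mul_I_im, hθ, Real.sin_add_pi_div_two,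
          Real.cos_arctan]
        simp only [Complex.sub_im, Complex.add_im, Complex.mul_im, Complex.ofReal_re,
          Complex.I_re, Complex.I_im, Complex.ofReal_im, hm a (Multiset.mem_cons_self a m),
          mul_zero, mul_one, sub_zero, add_zero, zero_add]
        field_simp
    refine ⟨g * Real.sqrt (1 + u ^ 2) * R, mul_pos (mul_pos hg hs) hR, ?_⟩
    rw [Multiset.map_cons, Multiset.prod_cons, Multiset.map_cons, Multiset.sum_cons, e, hone,
      mul_add, Complex.ofReal_add, add_mul, Complex.exp_add]
    push_cast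
    ring

lemma eval_polar {X : Matrix V V ℂ} (hX : X.IsHermitian) {p : V → Fin r → ℝ} (hp : IsProb p)
    (S : Finset V) (t : ℝ) {g : ℝ} (hg : 0 < g) :
    ∃ R : ℝ, 0 < R ∧ (charMix X p S).eval ((t : ℂ) + (g : ℂ) * Complex.I) =
      R * Complex.exp (((Real.pi * rootSum (soft t g) (charMix X p S) : ℝ) : ℂ) * Complex.I) := by
  obtain ⟨R, hR, e⟩ := sum_soft_polar (t := t) hg (charMix X p S).roots fun l hl =>
    charMix_roots_real hX hp hl
  refine ⟨R, hR, ?_⟩
  rw [rootSum, ← e]
  conv_lhs => rw [← Polynomial.prod_multiset_X_sub_C_of_monic_of_roots_card_eq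
    (charMix_monic X hp S).1 IsAlgClosed.card_roots_eq_natDegree]
  simp only [Polynomial.eval_multiset_prod, Multiset.map_map, Function.comp_def,
    Polynomial.eval_sub, Polynomial.eval_X, Polynomial.eval_C]

lemma card_roots_charMix (X : Matrix V V ℂ) {p : V → Fin r → ℝ} (hp : IsProb p) (S : Finset V) :
    (charMix X p S).roots.card = S.card := by
  rw [IsAlgClosed.card_roots_eq_natDegree, (charMix_monic X hp S).2]

/-- The smoothed root counts of `P` and of `P` without a vertex differ by a number in `(0,1)`. -/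
lemma soft_diff_mem {X : Matrix V V ℂ} (hX : X.IsHermitian) {p : V → Fin r → ℝ} (hp : IsProb p)
    (k : V) (t : ℝ) {g : ℝ} (hg : 0 < g) :
    rootSum (soft t g) (charMix X p univ) - rootSum (soft t g) (charMix X p (univ.erase k)) ∈
      Set.Ioo 0 1 := by
  set D : ℝ → ℝ := fun u =>
    rootSum (soft t u) (charMix X p univ) - rootSum (soft t u) (charMix X p (univ.erase k)) with hD
  have hsin : ∀ u, 0 < u → 0 < Real.sin (Real.pi * D u) := fun u hu => by
    obtain ⟨R, hR, e⟩ := eval_polar hX hp univ t hu
    obtain ⟨R', hR', e'⟩ := eval_polar hX hp (univ.erase k) t hu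
    have h := (charMix_ratio hX hp k (w := (t : ℂ) + (u : ℂ) * Complex.I) (by simpa using hu)).2.2
    rw [e, e', mul_div_mul_comm, ← Complex.exp_sub, ← sub_mul, ← Complex.ofReal_sub, ← mul_sub,
      ← Complex.ofReal_div, Complex.im_ofReal_mul, Complex.exp_ofReal_mul_I_im] at h
    exact pos_of_mul_pos_right h (div_pos hR hR').le
  have hsoft : ∀ x : ℝ, ContinuousOn (fun u => soft t u x) (Set.Ioi 0) := fun x => by
    unfold soft
    exact continuousOn_const.add ((Real.continuous_arctan.comp_continuousOn
      (continuousOn_const.div continuousOn_id fun u hu => ne_of_gt hu)).div_const _)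
  have hcont : ContinuousOn D (Set.Ioi 0) :=
    (continuousOn_multiset_sum _ fun z _ => hsoft z.re).sub
      (continuousOn_multiset_sum _ fun z _ => hsoft z.re)
  have hsoft' : ∀ x : ℝ, Tendsto (fun u => soft t u x) atTop (𝓝 (1 / 2)) := fun x => by
    unfold soft
    simpa using ((Real.continuous_arctan.tendsto 0).comp
      ((tendsto_const_nhds (x := x - t)).div_atTop tendsto_id)).div_const Real.pi
        |>.const_add (1 / 2 : ℝ)
  have hlim : Tendsto D atTop (𝓝 (1 / 2)) := by
    have h := (tendsto_multiset_sum (charMix X p univ).roots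
      fun z _ => hsoft' z.re).sub (tendsto_multiset_sum (charMix X p (univ.erase k)).roots
      fun z _ => hsoft' z.re)
    rw [Multiset.map_const', Multiset.map_const', Multiset.sum_replicate,
      Multiset.sum_replicate, card_roots_charMix X hp, card_roots_charMix X hp, nsmul_eq_mul,
      nsmul_eq_mul, ← Finset.card_erase_add_one (Finset.mem_univ k)] at h
    push_cast at h
    rw [add_mul, one_mul, add_sub_cancel_left] at h
    exact h
  obtain ⟨G, hG, hG0⟩ := ((hlim.eventually (Ioo_mem_nhds (by norm_num : (0 : ℝ) < 1 / 2)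
    (by norm_num : (1 / 2 : ℝ) < 1))).and (eventually_gt_atTop 0)).exists
  refine ⟨?_, ?_⟩
  · by_contra h
    obtain ⟨u, hu, h0⟩ := isPreconnected_Ioi.intermediate_value hg hG0 hcont
      (show (0 : ℝ) ∈ Set.Icc (D g) (D G) from ⟨not_lt.1 h, hG.1.le⟩)
    have := hsin u hu
    rw [h0, mul_zero, Real.sin_zero] at this
    exact lt_irrefl _ this
  · by_contra h
    obtain ⟨u, hu, h0⟩ := isPreconnected_Ioi.intermediate_value hG0 hg hcont
      (show (1 : ℝ) ∈ Set.Icc (D G) (D g) from ⟨hG.2.le, not_lt.1 h⟩)
    have := hsin u hu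
    rw [h0, mul_one, Real.sin_pi] at this
    exact lt_irrefl _ this

lemma eval_split (X : Matrix V V ℂ) (p : V → Fin r → ℝ) (k : V) (S : Finset V) (z : ℂ) :
    (charMix X p S).eval z =
      ∑ s, (p k s : ℂ) * (charMix X (setColour p k s) S).eval z := by
  simp only [charMix_eval, cw_setColour]
  exact mixDet_split X (cw p) k S _

lemma charMix_setColour_erase (X : Matrix V V ℂ) {p : V → Fin r → ℝ} (hp : IsProb p) (k : V)
    (s : Fin r) : charMix X (setColour p k s) (univ.erase k) = charMix X p (univ.erase k) := by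
  refine Polynomial.funext fun z => ?_
  simp only [charMix_eval, cw_setColour]
  rw [mixDet_split X (cw p) k]
  simp only [mixDet_point_notMem X (cw p) (Finset.notMem_erase k univ) _ s, ← Finset.sum_mul,
    sum_cw hp, one_mul]

lemma charMix_erase_congr (X : Matrix V V ℂ) {p p' : V → Fin r → ℝ} (hp : IsProb p)
    (hp' : IsProb p') (k : V) (h : ∀ v, v ≠ k → p' v = p v) :
    charMix X p' (univ.erase k) = charMix X p (univ.erase k) := by
  obtain ⟨s, -⟩ : ∃ s : Fin r, True := by
    rcases isEmpty_or_nonempty (Fin r) with h | ⟨⟨s⟩⟩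
    · have := (hp k).2; simp at this
    · exact ⟨s, trivial⟩
  rw [← charMix_setColour_erase X hp' k s, ← charMix_setColour_erase X hp k s]
  congr 1
  funext v
  rcases eq_or_ne v k with rfl | hv
  · simp [setColour]
  · simp [setColour, hv, h v hv]

lemma soft_diff_congr {X : Matrix V V ℂ} (hX : X.IsHermitian) {p p' : V → Fin r → ℝ}
    (hp : IsProb p) (hp' : IsProb p') (k : V) (h : ∀ v, v ≠ k → p' v = p v) (t : ℝ) {g : ℝ}
    (hg : 0 < g) :
    |rootSum (soft t g) (charMix X p' univ) - rootSum (soft t g) (charMix X p univ)| < 1 := by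
  have h1 := soft_diff_mem hX hp k t hg
  have h2 := soft_diff_mem hX hp' k t hg
  rw [charMix_erase_congr X hp hp' k h] at h2
  rw [abs_lt]
  constructor <;> linarith [h1.1, h1.2, h2.1, h2.2]

lemma soft_diff_setColour {X : Matrix V V ℂ} (hX : X.IsHermitian) {p : V → Fin r → ℝ}
    (hp : IsProb p) (k : V) (s : Fin r) (t : ℝ) {g : ℝ} (hg : 0 < g) :
    |rootSum (soft t g) (charMix X (setColour p k s) univ) -
      rootSum (soft t g) (charMix X p univ)| < 1 :=
  soft_diff_congr hX hp (isProb_setColour hp k s) k (fun v hv => by simp [setColour, hv]) t hg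

lemma exists_colour {X : Matrix V V ℂ} (hX : X.IsHermitian) {p : V → Fin r → ℝ} (hp : IsProb p)
    (k : V) (t : ℝ) {g : ℝ} (hg : 0 < g) :
    ∃ s, 0 < p k s ∧ rootSum (soft t g) (charMix X (setColour p k s) univ) ≤
      rootSum (soft t g) (charMix X p univ) := by
  by_contra hno
  push Not at hno
  set z : ℂ := (t : ℂ) + (g : ℂ) * Complex.I
  set Θ := Real.pi * rootSum (soft t g) (charMix X p univ) with hΘ
  have key : ∀ s, ∃ a : ℝ, (0 < p k s → 0 < a) ∧
      ((charMix X (setColour p k s) univ).eval z *
        Complex.exp (((-Θ : ℝ) : ℂ) * Complex.I)).im = a := fun s => by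
    refine ⟨_, fun hs => ?_, rfl⟩
    obtain ⟨R, hR, e⟩ := eval_polar hX (isProb_setColour hp k s) univ t hg
    rw [e, mul_assoc, ← Complex.exp_add, ← add_mul, ← Complex.ofReal_add, Complex.im_ofReal_mul,
      Complex.exp_ofReal_mul_I_im, hΘ, ← sub_eq_add_neg, ← mul_sub]
    refine mul_pos hR (Real.sin_pos_of_pos_of_lt_pi ?_ ?_)
    · exact mul_pos Real.pi_pos (sub_pos.2 (hno s hs))
    · exact mul_lt_of_lt_one_right Real.pi_pos (abs_lt.1 (soft_diff_setColour hX hp k s t hg)).2
  choose a ha hea using key
  obtain ⟨R, hR, e⟩ := eval_polar hX hp univ t hg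
  have h : ((charMix X p univ).eval z * Complex.exp (((-Θ : ℝ) : ℂ) * Complex.I)).im = 0 := by
    rw [e, mul_assoc, ← Complex.exp_add, ← add_mul, ← Complex.ofReal_add, ← hΘ, add_neg_cancel,
      Complex.ofReal_zero, zero_mul, Complex.exp_zero, mul_one, Complex.ofReal_im]
  rw [eval_split X p k univ z, Finset.sum_mul, Complex.im_sum] at h
  simp only [mul_assoc, Complex.im_ofReal_mul, hea] at h
  obtain ⟨s, hs⟩ : ∃ s, 0 < p k s := by
    by_contra hneg
    push Not at hneg
    linarith [(hp k).2, Finset.sum_nonpos fun i (_ : i ∈ Finset.univ) => hneg i]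
  have : 0 < ∑ s, p k s * a s := by
    refine Finset.sum_pos' (fun u _ => ?_) ⟨s, Finset.mem_univ _, mul_pos hs (ha s hs)⟩
    rcases ((hp k).1 u).eq_or_lt with h0 | h0
    · rw [← h0, zero_mul]
    · exact (mul_pos h0 (ha u h0)).le
  linarith

/-- The number of members which are at least `x`. -/
def cnt (m : Multiset ℝ) (x : ℝ) : ℝ :=
  (m.map fun l => if x ≤ l then (1 : ℝ) else 0).sum

lemma cnt_antitone (m : Multiset ℝ) : Antitone (cnt m) := fun x y hxy =>
  Multiset.sum_map_le_sum_map _ _ fun l _ => by
    split_ifs with h1 h2 <;> first | exact le_rfl | exact zero_le_one | exact absurd (hxy.trans h1) h2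

lemma cnt_integrable (m : Multiset ℝ) {f : ℝ → ℝ} (hf : Continuous f) (a b : ℝ) :
    IntervalIntegrable (fun x => cnt m x * f x) volume a b :=
  (cnt_antitone m).intervalIntegrable.mul_continuousOn hf.continuousOn

lemma integral_cnt {c : ℝ} {e e' : ℝ → ℝ} (he : ∀ x, HasDerivAt e (e' x) x)
    (he' : Continuous e') (m : Multiset ℝ) (hm : ∀ l ∈ m, |l| ≤ c) :
    ∫ x in (-c)..c, cnt m x * e' x = (m.map e).sum - m.card * e (-c) := by
  induction m using Multiset.induction with
  | empty => simp [cnt]
  | cons a m ih =>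
    have hone : ∫ x in (-c)..c, cnt {a} x * e' x = e a - e (-c) := by
      obtain ⟨h1, h2⟩ := abs_le.1 (hm a (Multiset.mem_cons_self a m))
      have hi := cnt_integrable {a} he'
      rw [← intervalIntegral.integral_add_adjacent_intervals (hi (-c) a) (hi a c)]
      have e1 : ∫ x in (-c)..a, cnt {a} x * e' x = ∫ x in (-c)..a, e' x :=
        intervalIntegral.integral_congr_ae (Eventually.of_forall fun x hx => by
          rw [Set.uIoc_of_le h1] at hx
          simp [cnt, hx.2])
      have e2 : ∫ x in a..c, cnt {a} x * e' x = 0 :=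
        intervalIntegral.integral_zero_ae (Eventually.of_forall fun x hx => by
          rw [Set.uIoc_of_le h2] at hx
          simp [cnt, not_le.2 hx.1])
      rw [e1, e2, add_zero, intervalIntegral.integral_eq_sub_of_hasDerivAt (fun x _ => he x)
        (he'.intervalIntegrable _ _)]
    have hsum : ∀ x, cnt (a ::ₘ m) x * e' x = cnt {a} x * e' x + cnt m x * e' x := fun x => by
      simp [cnt, add_mul]
    simp only [hsum]
    rw [intervalIntegral.integral_add (cnt_integrable _ he' _ _) (cnt_integrable _ he' _ _),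
      hone, ih fun l hl => hm l (Multiset.mem_cons_of_mem hl), Multiset.map_cons,
      Multiset.sum_cons, Multiset.card_cons]
    push_cast
    ring

lemma tendsto_soft_zero {x l : ℝ} (h : l ≠ x) :
    Tendsto (fun g => soft x g l) (𝓝[>] 0) (𝓝 (if x ≤ l then 1 else 0)) := by
  unfold soft
  simp only [div_eq_mul_inv (l - x)]
  rcases lt_or_gt_of_ne h with h | h
  · rw [if_neg (not_le.2 h)]
    have h1 := ((Real.tendsto_arctan_atBot.mono_right nhdsWithin_le_nhds).comp
      (tendsto_inv_nhdsGT_zero.const_mul_atTop_of_neg (sub_neg.2 h))).div_const Real.pi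
        |>.const_add (1 / 2 : ℝ)
    convert h1 using 2
    · rfl
    · field_simp; ring
  · rw [if_pos h.le]
    have h1 := ((Real.tendsto_arctan_atTop.mono_right nhdsWithin_le_nhds).comp
      (tendsto_inv_nhdsGT_zero.const_mul_atTop (sub_pos.2 h))).div_const Real.pi
        |>.const_add (1 / 2 : ℝ)
    convert h1 using 2
    · rfl
    · field_simp; ring

/-- If the smoothed root count does not go up, a polynomial which is `η`-close to it in `C¹`
goes up by at most `4 c η`. -/
lemma rootSum_poly_le {X : Matrix V V ℂ} (hX : X.IsHermitian) {p p' : V → Fin r → ℝ}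
    (hp : IsProb p) (hp' : IsProb p') (k : V) (hcongr : ∀ v, v ≠ k → p' v = p v) {c : ℝ}
    (hc : 0 ≤ c) (hb : OpBound X c) {t g η : ℝ} {q : Polynomial ℝ}
    (hq : ∀ x ∈ Set.Icc (-c) c, |(Polynomial.derivative q).eval x - deriv (soft t g) x| ≤ η)
    (hle : rootSum (soft t g) (charMix X p' univ) ≤ rootSum (soft t g) (charMix X p univ)) :
    rootSum (fun x => q.eval x) (charMix X p' univ) ≤
      rootSum (fun x => q.eval x) (charMix X p univ) + 4 * c * η := by
  set m := (charMix X p univ).roots.map Complex.re with hm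
  set m' := (charMix X p' univ).roots.map Complex.re with hm'
  set e : ℝ → ℝ := fun x => q.eval x - soft t g x with he
  have hsoftd : ContDiff ℝ 1 (soft t g) := by
    unfold soft
    exact contDiff_const.add
      ((Real.contDiff_arctan.comp ((contDiff_id.sub contDiff_const).div_const g)).div_const _)
  set e' : ℝ → ℝ := fun x => (Polynomial.derivative q).eval x - deriv (soft t g) x with he'
  have hd : ∀ x, HasDerivAt e (e' x) x := fun x =>
    (q.hasDerivAt x).sub ((hsoftd.differentiable one_ne_zero).differentiableAt.hasDerivAt)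
  have hcont : Continuous e' := q.derivative.continuous.sub (hsoftd.continuous_deriv le_rfl)
  have hbd : ∀ {p : V → Fin r → ℝ}, IsProb p →
      ∀ l ∈ (charMix X p univ).roots.map Complex.re, |l| ≤ c := fun hp l hl => by
    obtain ⟨z, hz, rfl⟩ := Multiset.mem_map.1 hl
    exact ((root_ok V r X _ hX hp c hc hb univ).2.2 z hz).2
  have hη : 0 ≤ η :=
    (abs_nonneg _).trans (hq (-c) ⟨le_rfl, by linarith⟩)
  have hae : ∀ᵐ x ∂(volume : Measure ℝ),
      x ∈ Set.uIoc (-c) c → ‖cnt m' x * e' x - cnt m x * e' x‖ ≤ η := by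
    filter_upwards [(m + m').toFinset.finite_toSet.countable.ae_notMem volume] with x hx hxI
    rw [Set.uIoc_of_le (by linarith : -c ≤ c)] at hxI
    have hlim : ∀ {p : V → Fin r → ℝ}, (∀ z ∈ (charMix X p univ).roots, z.re ≠ x) →
        Tendsto (fun u => rootSum (soft x u) (charMix X p univ)) (𝓝[>] 0)
          (𝓝 (cnt ((charMix X p univ).roots.map Complex.re) x)) := fun h => by
      rw [cnt, Multiset.map_map]
      exact tendsto_multiset_sum _ fun z hz => tendsto_soft_zero (h z hz)
    simp only [Finset.mem_coe, Multiset.mem_toFinset, Multiset.mem_add, not_or] at hx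
    have h := ((hlim fun z hz h => hx.2 (h ▸ Multiset.mem_map_of_mem _ hz)).sub
      (hlim fun z hz h => hx.1 (h ▸ Multiset.mem_map_of_mem _ hz))).abs
    have h1 : |cnt m' x - cnt m x| ≤ 1 :=
      le_of_tendsto h (eventually_nhdsWithin_of_forall fun u hu =>
        (soft_diff_congr hX hp hp' k hcongr x hu).le)
    rw [← sub_mul, Real.norm_eq_abs, abs_mul]
    calc |cnt m' x - cnt m x| * |e' x| ≤ 1 * η :=
          mul_le_mul h1 (hq x ⟨hxI.1.le, hxI.2⟩) (abs_nonneg _) zero_le_one
      _ = η := one_mul η
  have hint := intervalIntegral.norm_integral_le_of_norm_le_const_ae hae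
  rw [intervalIntegral.integral_sub (cnt_integrable _ hcont _ _) (cnt_integrable _ hcont _ _),
    integral_cnt hd hcont m' (hbd hp'), integral_cnt hd hcont m (hbd hp), hm', hm,
    Multiset.card_map, Multiset.card_map, card_roots_charMix X hp', card_roots_charMix X hp,
    Multiset.map_map, Multiset.map_map, Real.norm_eq_abs, sub_sub_sub_cancel_right,
    show c - -c = 2 * c by ring, abs_of_nonneg (by linarith : 0 ≤ 2 * c)] at hint
  simp only [Function.comp_def, he, Multiset.sum_map_sub] at hint
  unfold rootSum at hle ⊢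
  nlinarith [(abs_le.1 hint).2, mul_nonneg hc hη]

theorem step_ok : StepStatement := by
  intro V _ _ r X p hX hp c hc hb t g η q hg hq k
  obtain ⟨s, hs, hle⟩ := exists_colour hX hp k t hg
  exact ⟨s, hs, rootSum_poly_le hX hp (isProb_setColour hp k s) k
    (fun v hv => by simp [setColour, hv]) hc hb hq hle⟩

end Vale.Agent.P078.MKS
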