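import Vale.Agent.P078.MKS.OpDefs
import Vale.Agent.P078.Spectral

/-!
Normalising partial isometries over a MASA: the part where such an element acts trivially, a
partition of the rest into moved pieces, and characters of the MASA as points.
-/

namespace Vale.Agent.P078.MKS.Op

open Singular

variable {H : Type} [NormedAddCommGroup H] [InnerProductSpace ℂ H] [CompleteSpace H]
  {M A : VonNeumannAlgebra H}

/-- A character of the algebra. -/
abbrev Pt (A : VonNeumannAlgebra H) : Type := A.toStarSubalgebra →⋆ₐ[ℂ] ℂ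

open scoped Classical in
/-- The value of a character at an operator, zero off the algebra. -/
noncomputable def ev (χ : Pt A) (z : H →L[ℂ] H) : ℂ :=
  if h : z ∈ A then χ ⟨z, h⟩ else 0

lemma ev_eq (χ : Pt A) {z : H →L[ℂ] H} (h : z ∈ A) : ev χ z = χ ⟨z, h⟩ := dif_pos h

lemma ev_one (χ : Pt A) : ev χ 1 = 1 := by
  rw [ev_eq χ (one_mem A)]; exact map_one χ

lemma ev_zero (χ : Pt A) : ev χ 0 = 0 := by
  rw [ev_eq χ (zero_mem A)]; exact map_zero χ

lemma ev_add (χ : Pt A) {a b : H →L[ℂ] H} (ha : a ∈ A) (hb : b ∈ A) :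
    ev χ (a + b) = ev χ a + ev χ b := by
  rw [ev_eq χ ha, ev_eq χ hb, ev_eq χ (add_mem ha hb), ← map_add]; rfl

lemma ev_sub (χ : Pt A) {a b : H →L[ℂ] H} (ha : a ∈ A) (hb : b ∈ A) :
    ev χ (a - b) = ev χ a - ev χ b := by
  rw [ev_eq χ ha, ev_eq χ hb, ev_eq χ (sub_mem ha hb), ← map_sub]; rfl

lemma ev_mul (χ : Pt A) {a b : H →L[ℂ] H} (ha : a ∈ A) (hb : b ∈ A) :
    ev χ (a * b) = ev χ a * ev χ b := by
  rw [ev_eq χ ha, ev_eq χ hb, ev_eq χ (mul_mem ha hb), ← map_mul]; rfl

lemma ev_smul (χ : Pt A) (c : ℂ) {a : H →L[ℂ] H} (ha : a ∈ A) : ev χ (c • a) = c * ev χ a := by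
  rw [ev_eq χ ha, ev_eq χ (show c • a ∈ A from A.toStarSubalgebra.toSubalgebra.smul_mem ha c),
    ← smul_eq_mul, ← map_smul]
  rfl

lemma ev_star (χ : Pt A) {a : H →L[ℂ] H} (ha : a ∈ A) : ev χ (star a) = star (ev χ a) := by
  rw [ev_eq χ ha, ev_eq χ (star_mem ha), ← map_star]; rfl

lemma ev_sum (χ : Pt A) {ι : Type*} (s : Finset ι) (f : ι → H →L[ℂ] H) (hf : ∀ i ∈ s, f i ∈ A) :
    ev χ (∑ i ∈ s, f i) = ∑ i ∈ s, ev χ (f i) := by
  classical
  induction s using Finset.induction_on with
  | empty => simp [ev_zero]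
  | insert i s hi ih =>
    rw [Finset.sum_insert hi, Finset.sum_insert hi,
      ev_add χ (hf i (Finset.mem_insert_self i s))
        (sum_mem fun j hj => hf j (Finset.mem_insert_of_mem hj)),
      ih fun j hj => hf j (Finset.mem_insert_of_mem hj)]

lemma ev_im_eq_zero (χ : Pt A) {a : H →L[ℂ] H} (ha : a ∈ A) (hsa : IsSelfAdjoint a) :
    (ev χ a).im = 0 := by
  have h := ev_star χ ha
  rw [hsa.star_eq] at h
  exact Complex.conj_eq_iff_im.1 h.symm

/-- A projection takes the values zero and one. -/
lemma ev_proj (χ : Pt A) {p : H →L[ℂ] H} (hp : IsPr A p) : ev χ p = 0 ∨ ev χ p = 1 := by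
  have h : ev χ p * ev χ p = ev χ p := by rw [← ev_mul χ hp.1 hp.1, hp.2.isIdempotentElem.eq]
  rcases mul_eq_zero.1 (by linear_combination h : ev χ p * (ev χ p - 1) = 0) with h | h
  · exact Or.inl h
  · exact Or.inr (sub_eq_zero.1 h)

lemma ev_partition (χ : Pt A) {e : H →L[ℂ] H} {n : ℕ} {E : Fin n → (H →L[ℂ] H)}
    (hE : IsPartition A e E) (he : ev χ e = 1) : ∃ i, ev χ (E i) = 1 := by
  by_contra h
  push Not at h
  rw [← hE.2.2, ev_sum χ _ _ fun i _ => (hE.1 i).1,
    Finset.sum_eq_zero fun i _ => (ev_proj χ (hE.1 i)).resolve_right (h i)] at he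
  exact zero_ne_one he

section Nor

lemma nor_star {v : H →L[ℂ] H} (hv : v ∈ normaliser M A) : star v ∈ normaliser M A := by
  refine ⟨star_mem hv.1, ?_, fun a ha => ?_⟩
  · have := congrArg star hv.2.1
    simpa [star_mul, mul_assoc] using this
  · rw [star_star]; exact ⟨(hv.2.2 a ha).2, (hv.2.2 a ha).1⟩

lemma nor_dom {v : H →L[ℂ] H} (hv : v ∈ normaliser M A) : IsPr A (star v * v) := by
  refine ⟨by simpa using (hv.2.2 1 (one_mem A)).2, ?_, IsSelfAdjoint.star_mul_self v⟩
  show star v * v * (star v * v) = star v * v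
  calc star v * v * (star v * v) = star v * (v * star v * v) := by simp only [mul_assoc]
    _ = star v * v := by rw [hv.2.1]

variable (hM : IsMASA M A)
include hM

lemma masa_comm {a b : H →L[ℂ] H} (ha : a ∈ A) (hb : b ∈ A) : a * b = b * a := hM.2.1 a ha b hb

lemma proj_mem_nor {p : H →L[ℂ] H} (hp : IsPr A p) : p ∈ normaliser M A := by
  refine ⟨hM.1 p hp.1, ?_, fun a ha => ?_⟩
  · rw [hp.2.isSelfAdjoint.star_eq, hp.2.isIdempotentElem.eq, hp.2.isIdempotentElem.eq]
  · rw [hp.2.isSelfAdjoint.star_eq]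
    exact ⟨mul_mem (mul_mem hp.1 ha) hp.1, mul_mem (mul_mem hp.1 ha) hp.1⟩

/-- An element of the algebra moves past a normalising element. -/
lemma mul_nor {v a : H →L[ℂ] H} (hv : v ∈ normaliser M A) (ha : a ∈ A) :
    a * v = v * (star v * a * v) := by
  have hr : v * star v ∈ A := by simpa using (hv.2.2 1 (one_mem A)).1
  calc a * v = a * (v * star v) * v := by rw [mul_assoc, hv.2.1]
    _ = v * star v * a * v := by rw [masa_comm hM ha hr]
    _ = v * (star v * a * v) := by simp only [mul_assoc]

/-- An element of the algebra moves past a normalising element from the right. -/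
lemma nor_mul {v a : H →L[ℂ] H} (hv : v ∈ normaliser M A) (ha : a ∈ A) :
    v * a = v * a * star v * v := by
  have hd : star v * v ∈ A := (nor_dom hv).1
  calc v * a = v * (star v * v) * a := by rw [← mul_assoc, hv.2.1]
    _ = v * (a * (star v * v)) := by rw [mul_assoc v, masa_comm hM hd ha]
    _ = v * a * star v * v := by simp only [mul_assoc]

lemma nor_mul_mem {v w : H →L[ℂ] H} (hv : v ∈ normaliser M A) (hw : w ∈ normaliser M A) :
    v * w ∈ normaliser M A := by
  refine ⟨mul_mem hv.1 hw.1, ?_, fun a ha => ?_⟩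
  · have hd : star v * v ∈ A := (nor_dom hv).1
    have hr : w * star w ∈ A := by simpa using (hw.2.2 1 (one_mem A)).1
    calc v * w * star (v * w) * (v * w)
        = v * ((w * star w) * (star v * v)) * w := by rw [star_mul]; simp only [mul_assoc]
      _ = v * ((star v * v) * (w * star w)) * w := by rw [masa_comm hM hr hd]
      _ = (v * star v * v) * (w * star w * w) := by simp only [mul_assoc]
      _ = v * w := by rw [hv.2.1, hw.2.1]
  · rw [star_mul]
    constructor
    · simpa only [mul_assoc] using (hv.2.2 _ (hw.2.2 a ha).1).1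
    · simpa only [mul_assoc] using (hw.2.2 _ (hv.2.2 a ha).2).2

omit hM in
/-- A maximal projection mapped off itself. -/
lemma exists_max_moved (hab : ∀ y ∈ A, ∀ z ∈ A, y * z = z * y) (v d : H →L[ℂ] H)
    (hd : IsPr A d) :
    ∃ Q, IsPr A Q ∧ Q * d = Q ∧ Q * v * Q = 0 ∧
      ∀ s, IsPr A s → s * d = s → s * Q = 0 → s * v * s = 0 → s * v * Q = 0 → Q * v * s = 0 →
        s = 0 := by
  classical
  obtain ⟨S, hS⟩ := zorn_subset {S : Set (H →L[ℂ] H) | (∀ u ∈ S, IsPr A u ∧ u * d = u) ∧
      ∀ u ∈ S, ∀ w ∈ S, u * v * w = 0} fun c hc hchain => by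
    refine ⟨⋃₀ c, ⟨fun u hu => ?_, fun u hu w hw => ?_⟩, fun s hs => Set.subset_sUnion_of_mem hs⟩
    · obtain ⟨s, hs, hus⟩ := hu
      exact (hc hs).1 u hus
    · obtain ⟨s, hs, hus⟩ := hu
      obtain ⟨t, ht, hwt⟩ := hw
      rcases hchain.total hs ht with h | h
      · exact (hc ht).2 u (h hus) w hwt
      · exact (hc hs).2 u hus w (h hwt)
  obtain ⟨hS1, hS2⟩ := hS.1
  let K : Submodule ℂ H :=
    (Submodule.span ℂ {z : H | ∃ u ∈ S, ∃ w, u w = z}).topologicalClosure
  have : K.HasOrthogonalProjection := inferInstance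
  set Q := K.starProjection with hQdef
  have hQ : IsPr A Q := by
    refine ⟨proj_mem A K fun y hy w hw => closure_invariant (fun z hz => ?_) hw,
      isStarProjection_starProjection⟩
    induction hz using Submodule.span_induction with
    | mem z hz =>
      obtain ⟨u, hu, z, rfl⟩ := hz
      refine Submodule.subset_span ⟨u, hu, y z, ?_⟩
      rw [← mul_apply_eq_comp, commutant_commute hy (hS1 u hu).1.1, mul_apply_eq_comp]
    | zero => rw [map_zero]; exact zero_mem _
    | add a b _ _ ha hb => rw [map_add]; exact add_mem ha hb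
    | smul c a _ ha => rw [map_smul]; exact Submodule.smul_mem _ c ha
  have hker : ∀ T : H →L[ℂ] H, (∀ u ∈ S, T * u = 0) → T * Q = 0 := fun T hT => by
    have hle : K ≤ LinearMap.ker T.toLinearMap :=
      Submodule.topologicalClosure_minimal _ (Submodule.span_le.2 (by
        rintro _ ⟨u, hu, z, rfl⟩
        exact DFunLike.congr_fun (hT u hu) z)) T.isClosed_ker
    exact ContinuousLinearMap.ext fun w => hle (K.starProjection_apply_mem w)
  have hQu : ∀ u ∈ S, Q * u = u := fun u hu => ContinuousLinearMap.ext fun w =>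
    Submodule.starProjection_eq_self_iff.2 (Submodule.le_topologicalClosure _
      (Submodule.subset_span ⟨u, hu, w, rfl⟩))
  have hdQ : d * Q = Q := by
    have := hker (1 - d) fun u hu => by
      rw [sub_mul, one_mul, hab d hd.1 u (hS1 u hu).1.1, (hS1 u hu).2, sub_self]
    rwa [sub_mul, one_mul, sub_eq_zero, eq_comm] at this
  have hQd : Q * d = Q := by rw [hab Q hQ.1 d hd.1, hdQ]
  have huQ : ∀ u ∈ S, u * v * Q = 0 := fun u hu => hker _ fun w hw => hS2 u hu w hw
  refine ⟨Q, hQ, hQd, ?_, fun s hs hsd hsQ hsv hsvQ hQvs => ?_⟩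
  · have h : Q * star v * Q = 0 := hker _ fun u hu => by
      simpa [star_mul, (hS1 u hu).1.2.isSelfAdjoint.star_eq, hQ.2.isSelfAdjoint.star_eq, mul_assoc]
        using congrArg star (huQ u hu)
    simpa [star_mul, hQ.2.isSelfAdjoint.star_eq, mul_assoc] using congrArg star h
  · have hins : insert s S ∈ {S : Set (H →L[ℂ] H) | (∀ u ∈ S, IsPr A u ∧ u * d = u) ∧
        ∀ u ∈ S, ∀ w ∈ S, u * v * w = 0} := by
      refine ⟨fun u hu => ?_, fun u hu w hw => ?_⟩
      · rcases hu with rfl | hu
        exacts [⟨hs, hsd⟩, hS1 u hu]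
      · rcases hu with rfl | hu <;> rcases hw with rfl | hw
        · exact hsv
        · rw [← hQu w hw, ← mul_assoc, hsvQ, zero_mul]
        · rw [← hQu u hu, hab Q hQ.1 u (hS1 u hu).1.1, mul_assoc u Q, mul_assoc, mul_assoc,
            ← mul_assoc Q, hQvs, mul_zero]
        · exact hS2 u hu w hw
    have hmem : s ∈ S := hS.2 hins (Set.subset_insert s S) (Set.mem_insert s S)
    rw [← hQu s hmem, hab Q hQ.1 s hs.1, hsQ]

/-- The part where a normalising element acts trivially, and three moved pieces covering the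
rest of its domain. -/
lemma exists_fix {v : H →L[ℂ] H} (hv : v ∈ normaliser M A) :
    ∃ q e f g, IsPr A q ∧ IsPr A e ∧ IsPr A f ∧ IsPr A g ∧ v * q ∈ A ∧ e * v * e = 0 ∧
      f * v * f = 0 ∧ g * v * g = 0 ∧ q = star v * v * (1 - e) * (1 - f) * (1 - g) := by
  have hd := nor_dom hv
  obtain ⟨e, he, hed, heve, hmax⟩ := exists_max_moved hM.2.1 v _ hd
  have hes : star e = e := he.2.isSelfAdjoint.star_eq
  set d := star v * v with hddef
  have hvd : v * d = v := by rw [hddef, ← mul_assoc, hv.2.1]
  have hde : d * e = e := by rw [masa_comm hM hd.1 he.1, hed]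
  have hr : v * star v ∈ A := by simpa using (hv.2.2 1 (one_mem A)).1
  set f := v * e * star v with hfdef
  set g := star v * e * v with hgdef
  have hf : IsPr A f := by
    refine ⟨(hv.2.2 e he.1).1, ?_, ?_⟩
    · show v * e * star v * (v * e * star v) = v * e * star v
      calc v * e * star v * (v * e * star v) = v * (e * d * e) * star v := by
            simp only [hddef, mul_assoc]
        _ = v * e * star v := by rw [hed, he.2.isIdempotentElem.eq]
    · show star (v * e * star v) = v * e * star v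
      simp only [star_mul, star_star, hes, mul_assoc]
  have hve : v * e = f * v := by
    calc v * e = v * (d * e) := by rw [hde]
      _ = v * (e * d) := by rw [masa_comm hM hd.1 he.1]
      _ = f * v := by simp only [hfdef, hddef, mul_assoc]
  have hev : e * v = v * g := mul_nor hM hv he.1
  have hg : IsPr A g := by
    refine ⟨(hv.2.2 e he.1).2, ?_, ?_⟩
    · show star v * e * v * (star v * e * v) = star v * e * v
      calc star v * e * v * (star v * e * v) = star v * (e * (v * star v) * e) * v := by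
            simp only [mul_assoc]
        _ = (star v * v * star v) * (e * e) * v := by
            rw [masa_comm hM he.1 hr, mul_assoc (v * star v)]; simp only [mul_assoc]
        _ = star v * (e * v) := by
            have hvs : star v * v * star v = star v := by simpa using (nor_star hv).2.1
            rw [he.2.isIdempotentElem.eq, hvs, mul_assoc]
        _ = star v * e * v := by rw [mul_assoc]
    · show star (star v * e * v) = star v * e * v
      simp only [star_mul, star_star, hes, mul_assoc]
  have hfv : f * v * f = 0 := by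
    calc f * v * f = v * e * f := by rw [← hve]
      _ = v * (e * v * e) * star v := by simp only [hfdef, mul_assoc]
      _ = 0 := by rw [heve, mul_zero, zero_mul]
  have hgv : g * v * g = 0 := by
    calc g * v * g = g * (e * v) := by rw [mul_assoc, ← hev]
      _ = star v * (e * v * e) * v := by simp only [hgdef, mul_assoc]
      _ = 0 := by rw [heve, mul_zero, zero_mul]
  set q := d * (1 - e) * (1 - f) * (1 - g) with hqdef
  have hq : IsPr A q := isPr_mul hM.2.1 (isPr_mul hM.2.1 (isPr_mul hM.2.1 hd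
    ⟨sub_mem (one_mem A) he.1, he.2.one_sub⟩) ⟨sub_mem (one_mem A) hf.1, hf.2.one_sub⟩)
    ⟨sub_mem (one_mem A) hg.1, hg.2.one_sub⟩
  refine ⟨q, e, f, g, hq, he, hf, hg, ?_, heve, hfv, hgv, rfl⟩
  have hab := hM.2.1
  have qd : q * d = q := by
    calc q * d = d * q := hab q hq.1 d hd.1
      _ = q := by simp only [hqdef, ← mul_assoc, hd.2.isIdempotentElem.eq]
  have qg : q * g = 0 := by
    rw [hqdef, mul_assoc, sub_mul, one_mul, hg.2.isIdempotentElem.eq, sub_self, mul_zero]
  have qf : q * f = 0 := by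
    rw [hqdef, mul_assoc, hab (1 - g) (sub_mem (one_mem A) hg.1) f hf.1, ← mul_assoc,
      mul_assoc _ (1 - f) f, sub_mul, one_mul, hf.2.isIdempotentElem.eq, sub_self, mul_zero,
      zero_mul]
  have qe : q * e = 0 := by
    have h1 : (1 - f) * (1 - g) ∈ A := mul_mem (sub_mem (one_mem A) hf.1) (sub_mem (one_mem A) hg.1)
    calc q * e = d * (1 - e) * (((1 - f) * (1 - g)) * e) := by simp only [hqdef, mul_assoc]
      _ = d * ((1 - e) * e) * ((1 - f) * (1 - g)) := by
          rw [hab _ h1 e he.1]; simp only [mul_assoc]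
      _ = 0 := by rw [sub_mul, one_mul, he.2.isIdempotentElem.eq, sub_self, mul_zero, zero_mul]
  have hzero : ∀ s, IsPr A s → s * q = s → s * v * s = 0 → s = 0 := by
    intro s hs hsq hsv
    have ha : ∀ {x}, q * x = 0 → s * x = 0 := fun {x} h => by
      rw [← hsq, mul_assoc, h, mul_zero]
    refine hmax s hs (by rw [← hsq, mul_assoc, qd]) (ha qe) hsv ?_ ?_
    · rw [mul_assoc, hve, ← mul_assoc, ha qf, zero_mul]
    · rw [hev, mul_assoc, hab g hg.1 s hs.1, ha qg, mul_zero]
  have hkey : ∀ p, IsPr A p → p * q = p → v * p = p * v := by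
    intro p hp hpq
    have hps : star p = p := hp.2.isSelfAdjoint.star_eq
    have hpd : p * d = p := by rw [← hpq, mul_assoc, qd]
    have hdp : d * p = p := by rw [hab d hd.1 p hp.1, hpd]
    set u := v * p * star v with hudef
    set w := star v * p * v with hwdef
    have huA : u ∈ A := (hv.2.2 p hp.1).1
    have hwA : w ∈ A := (hv.2.2 p hp.1).2
    have hu : IsPr A u := ⟨huA, by
      show v * p * star v * (v * p * star v) = v * p * star v
      calc v * p * star v * (v * p * star v) = v * (p * d * p) * star v := by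
            simp only [hddef, mul_assoc]
        _ = v * p * star v := by rw [hpd, hp.2.isIdempotentElem.eq], by
      show star (v * p * star v) = v * p * star v
      simp only [star_mul, star_star, hps, mul_assoc]⟩
    have hpv : p * v = v * w := mul_nor hM hv hp.1
    have hvp : v * p = u * v := by
      calc v * p = v * (p * d) := by rw [hpd]
        _ = u * v := by simp only [hudef, hddef, mul_assoc]
    have hwd : d * w = w := by
      simp only [hwdef, hddef, ← mul_assoc]
      rw [show star v * v * star v = star v * (v * star v) by rw [mul_assoc], mul_assoc (star v),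
        ← hab p hp.1 _ hr]
      simp only [mul_assoc]
      rw [← mul_assoc v (star v) v, hv.2.1]
    have hw : IsPr A w := ⟨hwA, by
      show w * w = w
      calc w * w = star v * (p * (v * w)) := by simp only [hwdef, mul_assoc]
        _ = w := by
            rw [← hpv, ← mul_assoc p, hp.2.isIdempotentElem.eq, hwdef, mul_assoc], by
      show star (star v * p * v) = star v * p * v
      simp only [star_mul, star_star, hps, mul_assoc]⟩
    have h1 : p * (1 - u) = 0 := by
      refine hzero _ (isPr_mul hab hp ⟨sub_mem (one_mem A) huA, hu.2.one_sub⟩) ?_ ?_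
      · rw [mul_assoc, hab (1 - u) (sub_mem (one_mem A) huA) q hq.1, ← mul_assoc, hpq]
      · have e1 : (1 - u) * v * p = 0 := by
          rw [mul_assoc, hvp, ← mul_assoc, sub_mul, one_mul, hu.2.isIdempotentElem.eq, sub_self,
            zero_mul]
        calc p * (1 - u) * v * (p * (1 - u)) = p * ((1 - u) * v * p) * (1 - u) := by
              simp only [mul_assoc]
          _ = 0 := by rw [e1, mul_zero, zero_mul]
    have h2 : p * (1 - w) = 0 := by
      refine hzero _ (isPr_mul hab hp ⟨sub_mem (one_mem A) hwA, hw.2.one_sub⟩) ?_ ?_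
      · rw [mul_assoc, hab (1 - w) (sub_mem (one_mem A) hwA) q hq.1, ← mul_assoc, hpq]
      · have e2 : p * v * (1 - w) = 0 := by
          rw [hpv, mul_assoc, mul_sub, mul_one, hw.2.isIdempotentElem.eq, sub_self, mul_zero]
        calc p * (1 - w) * v * (p * (1 - w)) = (1 - w) * (p * v * (1 - w)) * p := by
              rw [hab p hp.1 (1 - w) (sub_mem (one_mem A) hwA)]
              simp only [mul_assoc]
          _ = 0 := by rw [e2, mul_zero, zero_mul]
    rw [mul_sub, mul_one, sub_eq_zero] at h1 h2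
    calc v * p = v * (w * p) := by rw [hab w hwA p hp.1, ← h2]
      _ = p * v * p := by rw [hpv]; simp only [mul_assoc]
      _ = p * (u * v) := by rw [mul_assoc, hvp]
      _ = p * v := by rw [← mul_assoc, ← h1]
  refine hM.2.2 _ (mul_mem hv.1 (hM.1 q hq.1)) fun z hz => ?_
  refine commute_of_proj hab (fun a ha => ?_) hz
  have hp : IsPr A (a * q) := isPr_mul hab ha hq
  have h3 := hkey q hq hq.2.isIdempotentElem.eq
  have h4 := hkey (a * q) hp (by rw [mul_assoc, hq.2.isIdempotentElem.eq])
  calc a * (v * q) = a * q * v := by rw [h3, ← mul_assoc]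
    _ = v * (a * q) := h4.symm
    _ = v * q * a := by rw [hab a ha.1 q hq.1, mul_assoc v]

/-- A partition of the unit on whose pieces a normalising element is in the algebra. -/
lemma exists_split {v : H →L[ℂ] H} (hv : v ∈ normaliser M A) :
    ∃ P : Fin 4 → (H →L[ℂ] H), IsPartition A 1 P ∧ ∀ i, P i * v * P i ∈ A := by
  obtain ⟨q, e, f, g, hq, he, hf, hg, hvq, hev, hfv, hgv, hqdef⟩ := exists_fix hM hv
  have hab := hM.2.1
  have he' : IsPr A (1 - e) := ⟨sub_mem (one_mem A) he.1, he.2.one_sub⟩
  have hf' : IsPr A (1 - f) := ⟨sub_mem (one_mem A) hf.1, hf.2.one_sub⟩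
  have hg' : IsPr A (1 - g) := ⟨sub_mem (one_mem A) hg.1, hg.2.one_sub⟩
  have e0 : e * (1 - e) = 0 := by rw [mul_sub, mul_one, he.2.isIdempotentElem.eq, sub_self]
  have f0 : f * (1 - f) = 0 := by rw [mul_sub, mul_one, hf.2.isIdempotentElem.eq, sub_self]
  have g0 : g * (1 - g) = 0 := by rw [mul_sub, mul_one, hg.2.isIdempotentElem.eq, sub_self]
  refine ⟨![e, f * (1 - e), g * (1 - e) * (1 - f), (1 - e) * (1 - f) * (1 - g)],
    ⟨fun i => ?_, fun i j hij => ?_, ?_⟩, fun i => ?_⟩
  · fin_cases i
    exacts [he, isPr_mul hab hf he', isPr_mul hab (isPr_mul hab hg he') hf',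
      isPr_mul hab (isPr_mul hab he' hf') hg']
  · have k : ∀ {u z : H →L[ℂ] H}, IsPr A u → z ∈ A → u * (z * (1 - u)) = 0 := fun {u z} hu hz => by
      rw [← mul_assoc, hab u hu.1 z hz, mul_assoc, mul_sub, mul_one, hu.2.isIdempotentElem.eq,
        sub_self, mul_zero]
    have x01 : e * (f * (1 - e)) = 0 := k he hf.1
    have x02 : e * (g * (1 - e) * (1 - f)) = 0 := by rw [← mul_assoc, k he hg.1, zero_mul]
    have x03 : e * ((1 - e) * (1 - f) * (1 - g)) = 0 := by
      rw [← mul_assoc, ← mul_assoc, e0, zero_mul, zero_mul]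
    have x12 : f * (1 - e) * (g * (1 - e) * (1 - f)) = 0 := by
      rw [show f * (1 - e) * (g * (1 - e) * (1 - f)) = f * ((1 - e) * g * (1 - e) * (1 - f)) by
        simp only [mul_assoc]]
      exact k hf (mul_mem (mul_mem he'.1 hg.1) he'.1)
    have x13 : f * (1 - e) * ((1 - e) * (1 - f) * (1 - g)) = 0 := by
      rw [show f * (1 - e) * ((1 - e) * (1 - f) * (1 - g)) =
        f * ((1 - e) * (1 - e) * (1 - f)) * (1 - g) by simp only [mul_assoc],
        k hf (mul_mem he'.1 he'.1), zero_mul]
    have x23 : g * (1 - e) * (1 - f) * ((1 - e) * (1 - f) * (1 - g)) = 0 := by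
      rw [show g * (1 - e) * (1 - f) * ((1 - e) * (1 - f) * (1 - g)) =
        g * ((1 - e) * (1 - f) * ((1 - e) * (1 - f)) * (1 - g)) by simp only [mul_assoc]]
      exact k hg (mul_mem (mul_mem he'.1 hf'.1) (mul_mem he'.1 hf'.1))
    have m1 := mul_mem hf.1 he'.1
    have m2 := mul_mem (mul_mem hg.1 he'.1) hf'.1
    have m3 := mul_mem (mul_mem he'.1 hf'.1) hg'.1
    fin_cases i <;> fin_cases j <;> first
      | exact absurd rfl hij
      | simpa using x01
      | simpa using x02
      | simpa using x03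
      | simpa using x12
      | simpa using x13
      | simpa using x23
      | simpa using (hab _ m1 _ he.1).trans x01
      | simpa using (hab _ m2 _ he.1).trans x02
      | simpa using (hab _ m3 _ he.1).trans x03
      | simpa using (hab _ m2 _ m1).trans x12
      | simpa using (hab _ m3 _ m1).trans x13
      | simpa using (hab _ m3 _ m2).trans x23
  · simp only [Fin.sum_univ_four, Matrix.cons_val]
    noncomm_ring [hab _ hg.1 _ he.1, hab _ hg.1 _ hf.1, hab _ hf.1 _ he.1]
  · have key : ∀ {u z : H →L[ℂ] H}, u * v * u = 0 → IsPr A u → z ∈ A →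
        u * z * v * (u * z) ∈ A := fun {u z} h hu hz => by
      rw [hab u hu.1 z hz, show z * u * v * (z * u) = z * (u * v * (z * u)) by
        simp only [mul_assoc], hab z hz u hu.1, ← mul_assoc (u * v), h, zero_mul, mul_zero]
      exact zero_mem A
    have hrest : v * ((1 - e) * (1 - f) * (1 - g)) = v * q := by
      rw [hqdef]
      simp only [← mul_assoc]
      rw [hv.2.1]
    fin_cases i
    · simpa using (hev.symm ▸ zero_mem A : e * v * e ∈ A)
    · exact key hfv hf he'.1
    · have := key hgv hg (mul_mem he'.1 hf'.1)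
      simpa [mul_assoc] using this
    · show (1 - e) * (1 - f) * (1 - g) * v * ((1 - e) * (1 - f) * (1 - g)) ∈ A
      rw [mul_assoc, hrest]
      exact mul_mem (mul_mem (mul_mem he'.1 hf'.1) hg'.1) hvq

/-- A common partition of a projection for finitely many normalising elements. -/
lemma exists_cells {e : H →L[ℂ] H} (he : IsPr A e) (S : Finset (H →L[ℂ] H))
    (hS : ∀ v ∈ S, v ∈ normaliser M A) :
    ∃ (n : ℕ) (E : Fin n → (H →L[ℂ] H)), IsPartition A e E ∧ ∀ v ∈ S, ∀ i, E i * v * E i ∈ A := by
  classical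
  have hab := hM.2.1
  induction S using Finset.induction_on with
  | empty => exact ⟨1, fun _ => e, ⟨fun _ => he, fun i j h => absurd (Subsingleton.elim i j) h,
      by simp⟩, fun v hv => by simp at hv⟩
  | insert w S hw ih =>
    obtain ⟨n, E, hE, hEv⟩ := ih fun v hv => hS v (Finset.mem_insert_of_mem hv)
    obtain ⟨P, hP, hPw⟩ := exists_split hM (hS w (Finset.mem_insert_self w S))
    have hm : ∀ (a b : Fin n) (c d : Fin 4), E a * P c * (E b * P d) = E a * E b * (P c * P d) :=
      fun a b c d => by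
        simp only [mul_assoc]
        rw [← mul_assoc (P c), hab _ (hP.1 c).1 _ (hE.1 b).1, mul_assoc]
    refine ⟨n * 4, fun k => E (finProdFinEquiv.symm k).1 * P (finProdFinEquiv.symm k).2,
      ⟨fun k => isPr_mul hab (hE.1 _) (hP.1 _), fun k l hkl => ?_, ?_⟩, fun v hv k => ?_⟩
    · rw [hm]
      by_cases h : (finProdFinEquiv.symm k).1 = (finProdFinEquiv.symm l).1
      · rw [hP.2.1 _ _ fun h' => hkl (finProdFinEquiv.symm.injective (Prod.ext h h')), mul_zero]
      · rw [hE.2.1 _ _ h, zero_mul]
    · rw [Fintype.sum_equiv finProdFinEquiv.symm _ (fun p : Fin n × Fin 4 => E p.1 * P p.2)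
        fun _ => rfl, Fintype.sum_prod_type]
      simp only [← Finset.mul_sum, hP.2.2, mul_one, hE.2.2]
    · set a := (finProdFinEquiv.symm k).1
      set c := (finProdFinEquiv.symm k).2
      rcases Finset.mem_insert.1 hv with rfl | hv
      · rw [show E a * P c * v * (E a * P c) = E a * (P c * v * P c) * E a by
          rw [hab _ (hE.1 a).1 _ (hP.1 c).1, hab _ (hP.1 c).1 _ (hE.1 a).1]
          nth_rw 2 [hab _ (hE.1 a).1 _ (hP.1 c).1]
          simp only [mul_assoc]]
        exact mul_mem (mul_mem (hE.1 a).1 (hPw c)) (hE.1 a).1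
      · rw [show E a * P c * v * (E a * P c) = P c * (E a * v * E a) * P c by
          rw [hab _ (hE.1 a).1 _ (hP.1 c).1]
          nth_rw 2 [hab _ (hP.1 c).1 _ (hE.1 a).1]
          simp only [mul_assoc]]
        exact mul_mem (mul_mem (hP.1 c).1 (hEv v hv a)) (hP.1 c).1

omit hM in
/-- An element of the span is in the algebra on small enough projections. -/
lemma exists_finite_support {e y : H →L[ℂ] H} (hy : y ∈ normSpan M A e)
    (hab : ∀ y ∈ A, ∀ z ∈ A, y * z = z * y) :
    ∃ S : Finset (H →L[ℂ] H), (∀ v ∈ S, v ∈ normaliser M A) ∧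
      ∀ p, IsPr A p → (∀ v ∈ S, p * v * p ∈ A) → p * y * p ∈ A := by
  classical
  induction hy using Submodule.span_induction with
  | mem z hz =>
    obtain ⟨-, a, ha, v, hv, rfl⟩ := hz
    refine ⟨{v}, by simp [hv], fun p hp h => ?_⟩
    rw [← mul_assoc p a v, hab p hp.1 a ha, mul_assoc a, mul_assoc a]
    exact mul_mem ha (h v (Finset.mem_singleton_self v))
  | zero => exact ⟨∅, by simp, fun p _ _ => by simp⟩
  | add x z _ _ hx hz =>
    obtain ⟨S, hS, hS'⟩ := hx
    obtain ⟨T, hT, hT'⟩ := hz
    refine ⟨S ∪ T, fun v hv => (Finset.mem_union.1 hv).elim (hS v) (hT v), fun p hp h => ?_⟩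
    rw [mul_add, add_mul]
    exact add_mem (hS' p hp fun v hv => h v (Finset.mem_union_left T hv))
      (hT' p hp fun v hv => h v (Finset.mem_union_right S hv))
  | smul c x _ hx =>
    obtain ⟨S, hS, hS'⟩ := hx
    refine ⟨S, hS, fun p hp h => ?_⟩
    rw [mul_smul_comm, smul_mul_assoc]
    exact A.toStarSubalgebra.toSubalgebra.smul_mem (hS' p hp h) c

end Nor

/-- The module Diagonal. -/
theorem diagonal_ok : DiagonalStatement := by
  intro H _ _ _ M A hM e he hes y hy
  obtain ⟨S, hS, hS'⟩ := exists_finite_support hy hM.2.1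
  obtain ⟨n, E, hE, hEv⟩ := exists_cells hM ⟨he, hes⟩ S hS
  exact ⟨n, E, hE, fun i => hS' (E i) (hE.1 i) fun v hv => hEv v hv i⟩

end Vale.Agent.P078.MKS.Op
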