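import Vale.Agent.P078.MKS.OpDefs
import Vale.Agent.P078.Singular.Cut

/-!
The double commutant theorem for finitely many vectors and the Kaplansky density theorem for
self-adjoint contractions (`kaplansky_ok`).
-/

namespace Vale.Agent.P078.MKS

namespace Kaplansky

open scoped InnerProductSpace

variable {H : Type} [NormedAddCommGroup H] [InnerProductSpace ℂ H] [CompleteSpace H]
variable {ι : Type} [Fintype ι]

/-- The diagonal action on tuples. -/
noncomputable def diag (T : H →L[ℂ] H) :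
    PiLp 2 (fun _ : ι => H) →L[ℂ] PiLp 2 (fun _ : ι => H) :=
  (PiLp.continuousLinearEquiv 2 ℂ (fun _ : ι => H)).symm.toContinuousLinearMap ∘L
    ContinuousLinearMap.pi (fun i => T ∘L PiLp.proj 2 (fun _ : ι => H) i)

omit [CompleteSpace H] [Fintype ι] in
@[simp] theorem diag_apply (T : H →L[ℂ] H) (v : PiLp 2 (fun _ : ι => H)) (i : ι) :
    diag T v i = T (v i) := rfl

theorem star_diag (T : H →L[ℂ] H) :
    star (diag (ι := ι) T) = diag (star T) := by
  rw [ContinuousLinearMap.star_eq_adjoint, eq_comm, ContinuousLinearMap.eq_adjoint_iff]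
  intro v w
  simp only [PiLp.inner_apply, diag_apply]
  exact Finset.sum_congr rfl fun i _ => by
    rw [ContinuousLinearMap.star_eq_adjoint, ContinuousLinearMap.adjoint_inner_left]

/-- Evaluation on a tuple. -/
noncomputable def tup (Ξ : PiLp 2 (fun _ : ι => H)) :
    (H →L[ℂ] H) →ₗ[ℂ] PiLp 2 (fun _ : ι => H) where
  toFun b := diag b Ξ
  map_add' b c := by ext i; simp
  map_smul' c b := by ext i; simp

theorem mem_closure_tup (S : StarSubalgebra ℂ (H →L[ℂ] H)) {z : H →L[ℂ] H}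
    (hz : z ∈ Set.centralizer (Set.centralizer (S : Set (H →L[ℂ] H))))
    (Ξ : PiLp 2 (fun _ : ι => H)) :
    diag z Ξ ∈ (S.toSubalgebra.toSubmodule.map (tup Ξ)).topologicalClosure := by
  classical
  set K := (S.toSubalgebra.toSubmodule.map (tup Ξ)).topologicalClosure with hK
  have hinv : ∀ s ∈ S, ∀ v ∈ K, diag s v ∈ K := by
    intro s hs v hv
    refine closure_invariant ?_ hv
    rintro _ ⟨b, hb, rfl⟩
    have hb' : b ∈ S := hb
    exact ⟨s * b, (mul_mem hs hb' : s * b ∈ S), by ext i; simp [tup]⟩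
  have hcomm : ∀ s ∈ S, K.starProjection * diag s = diag s * K.starProjection := fun s hs =>
    Singular.comm_starProjection K (diag s) (hinv s hs)
      (by rw [star_diag]; exact hinv _ (star_mem hs))
  let emb : ι → (H →L[ℂ] PiLp 2 (fun _ : ι => H)) := fun j =>
    (PiLp.continuousLinearEquiv 2 ℂ (fun _ : ι => H)).symm.toContinuousLinearMap ∘L
      ContinuousLinearMap.single ℂ (fun _ : ι => H) j
  have hemb : ∀ j x i, emb j x i = Pi.single (M := fun _ : ι => H) j x i := fun j x i => rfl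
  let Pij : ι → ι → (H →L[ℂ] H) := fun i j =>
    PiLp.proj 2 (fun _ : ι => H) i ∘L K.starProjection ∘L emb j
  have hP : ∀ i j, ∀ s ∈ S, s * Pij i j = Pij i j * s := by
    intro i j s hs
    ext x
    have h1 : diag s (emb j x) = emb j (s x) := by
      ext l
      rw [diag_apply, hemb, hemb]
      exact Pi.apply_single (fun _ => s) (fun _ => map_zero s) j x l
    have h2 := congrArg (fun u : PiLp 2 (fun _ : ι => H) => u i)
      (DFunLike.congr_fun (hcomm s hs) (emb j x))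
    simp only [mul_apply_eq_comp, h1, diag_apply] at h2
    simp only [Pij, mul_apply_eq_comp, ContinuousLinearMap.comp_apply, PiLp.proj_apply]
    exact h2.symm
  have hzc : ∀ i j, Pij i j * z = z * Pij i j := fun i j =>
    Set.mem_centralizer_iff.1 hz (Pij i j) (Set.mem_centralizer_iff.2 fun s hs => hP i j s hs)
  have hΞ : Ξ ∈ K := Submodule.le_topologicalClosure _ ⟨1, one_mem S, by ext i; simp [tup]⟩
  have hdec : ∀ v : PiLp 2 (fun _ : ι => H), v = ∑ j, emb j (v j) := by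
    intro v; ext i
    rw [WithLp.ofLp_sum, Finset.sum_apply, Finset.sum_eq_single i]
    · rw [hemb, Pi.single_eq_same]
    · intro j _ hji
      rw [hemb, Pi.single_eq_of_ne (Ne.symm hji)]
    · simp
  have hPv : ∀ v i, K.starProjection v i = ∑ j, Pij i j (v j) := by
    intro v i
    conv_lhs => rw [hdec v]
    rw [map_sum, WithLp.ofLp_sum, Finset.sum_apply]
    rfl
  have key : K.starProjection (diag z Ξ) = diag z Ξ := by
    ext i
    rw [hPv, diag_apply]
    conv_rhs => rw [← Submodule.starProjection_eq_self_iff.2 hΞ, hPv, map_sum]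
    refine Finset.sum_congr rfl fun j _ => ?_
    rw [diag_apply]
    exact DFunLike.congr_fun (hzc i j) (Ξ j)
  exact Submodule.starProjection_eq_self_iff.1 key

theorem so_dense (S : StarSubalgebra ℂ (H →L[ℂ] H)) {z : H →L[ℂ] H}
    (hz : z ∈ Set.centralizer (Set.centralizer (S : Set (H →L[ℂ] H)))) {ι : Type} [Fintype ι]
    (ξ : ι → H) {δ : ℝ} (hδ : 0 < δ) : ∃ b ∈ S, ∀ i, ‖(z - b) (ξ i)‖ < δ := by
  have h := mem_closure_tup S hz (WithLp.toLp 2 ξ)
  rw [← SetLike.mem_coe, Submodule.topologicalClosure_coe, Metric.mem_closure_iff] at h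
  obtain ⟨_, ⟨b, hb, rfl⟩, hd⟩ := h δ hδ
  refine ⟨b, hb, fun i => lt_of_le_of_lt ?_ hd⟩
  rw [dist_eq_norm]
  exact le_trans (le_of_eq (by simp [tup]))
    (PiLp.norm_apply_le (diag z (WithLp.toLp 2 ξ) - tup (WithLp.toLp 2 ξ) b) i)

omit [CompleteSpace H] in
theorem re_inner_comm (x y : H) : (⟪x, y⟫_ℂ).re = (⟪y, x⟫_ℂ).re := by
  rw [← inner_conj_symm, Complex.conj_re]

omit [Fintype ι] in
theorem re_inner_sub_le {w : H →L[ℂ] H} (hws : IsSelfAdjoint w) (b : H →L[ℂ] H) (η ξ : H) (ε : ℝ)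
    (h1 : ‖(w - b) ξ‖ ≤ ε) (h2 : ‖(w - b) η‖ ≤ ε) :
    (⟪η, w ξ⟫_ℂ).re - (⟪η, ((2⁻¹ : ℂ) • (b + star b)) ξ⟫_ℂ).re ≤ (‖η‖ + ‖ξ‖) * ε / 2 := by
  have e2 : (⟪η, star b ξ⟫_ℂ).re = (⟪ξ, b η⟫_ℂ).re := by
    rw [ContinuousLinearMap.star_eq_adjoint, ContinuousLinearMap.adjoint_inner_right,
      re_inner_comm]
  have e3 : (⟪η, w ξ⟫_ℂ).re = (⟪ξ, w η⟫_ℂ).re := by
    conv_lhs => rw [← hws.star_eq, ContinuousLinearMap.star_eq_adjoint,
      ContinuousLinearMap.adjoint_inner_right, re_inner_comm]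
  have d1 := (Complex.re_le_norm _).trans ((norm_inner_le_norm (𝕜 := ℂ) η ((w - b) ξ)).trans
    (mul_le_mul_of_nonneg_left h1 (norm_nonneg _)))
  have d2 := (Complex.re_le_norm _).trans ((norm_inner_le_norm (𝕜 := ℂ) ξ ((w - b) η)).trans
    (mul_le_mul_of_nonneg_left h2 (norm_nonneg _)))
  simp only [sub_apply, inner_sub_right, Complex.sub_re] at d1 d2
  have e4 : (⟪η, ((2⁻¹ : ℂ) • (b + star b)) ξ⟫_ℂ).re =
      ((⟪η, b ξ⟫_ℂ).re + (⟪η, star b ξ⟫_ℂ).re) / 2 := by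
    simp
    ring
  rw [e4, e2]
  linarith

theorem isSelfAdjoint_half (b : H →L[ℂ] H) : IsSelfAdjoint ((2⁻¹ : ℂ) • (b + star b)) := by
  rw [isSelfAdjoint_iff, star_smul, star_add, star_star, add_comm]
  simp

theorem exists_separating (S : StarSubalgebra ℂ (H →L[ℂ] H)) (w : H →L[ℂ] H) (Ξ : ι → H) {δ : ℝ}
    (hδ : 0 < δ) (hcon : ∀ a ∈ S, IsSelfAdjoint a → ∃ i, δ ≤ ‖(w - a) (Ξ i)‖) :
    ∃ η : ι → H, (∀ a ∈ S, IsSelfAdjoint a → ∑ i, (⟪η i, a (Ξ i)⟫_ℂ).re = 0) ∧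
      0 < ∑ i, (⟪η i, w (Ξ i)⟫_ℂ).re := by
  let : InnerProductSpace ℝ (PiLp 2 (fun _ : ι => H)) := InnerProductSpace.rclikeToReal ℂ _
  set L : (H →L[ℂ] H) →ₗ[ℂ] PiLp 2 (fun _ : ι => H) := tup (WithLp.toLp 2 Ξ)
  set K : Submodule ℝ (PiLp 2 (fun _ : ι => H)) :=
    ((selfAdjoint.submodule ℝ (H →L[ℂ] H) ⊓ S.toSubalgebra.toSubmodule.restrictScalars ℝ).map
      (L.restrictScalars ℝ)).topologicalClosure with hK
  have hLi : ∀ (b : H →L[ℂ] H) (i : ι), L b i = b (Ξ i) := fun b i => rfl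
  set η := L w - K.starProjection (L w) with hη
  have hu : K.starProjection (L w) ∈ K := Submodule.starProjection_apply_mem _ _
  have horth : ∀ v ∈ K, (⟪η, v⟫_ℂ).re = 0 := fun v hv =>
    (Submodule.starProjection_inner_eq_zero (K := K) (L w) v hv : _)
  have hne : η ≠ 0 := by
    intro h0
    rw [hη, sub_eq_zero] at h0
    rw [← h0] at hu
    have hcl : L w ∈ closure (((selfAdjoint.submodule ℝ (H →L[ℂ] H) ⊓
        S.toSubalgebra.toSubmodule.restrictScalars ℝ).map (L.restrictScalars ℝ) :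
          Submodule ℝ (PiLp 2 (fun _ : ι => H))) : Set (PiLp 2 (fun _ : ι => H))) := by
      rw [← Submodule.topologicalClosure_coe]
      exact hu
    obtain ⟨_, ⟨a, ⟨has, ha⟩, rfl⟩, hd⟩ := Metric.mem_closure_iff.1 hcl δ hδ
    obtain ⟨i, hi⟩ := hcon a ha has
    rw [dist_eq_norm] at hd
    have h1 : (L w - L.restrictScalars ℝ a) i = (w - a) (Ξ i) := rfl
    have h2 := PiLp.norm_apply_le (L w - L.restrictScalars ℝ a) i
    rw [h1] at h2
    linarith
  have hwη : (⟪η, L w⟫_ℂ).re = ‖η‖ ^ 2 := by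
    have : L w = η + K.starProjection (L w) := by rw [hη, sub_add_cancel]
    conv_lhs => rw [this, inner_add_right, Complex.add_re, horth _ hu, add_zero]
    exact (norm_sq_eq_re_inner (𝕜 := ℂ) η).symm
  refine ⟨fun i => η i, fun a ha has => ?_, ?_⟩
  · have := horth (L a) (Submodule.le_topologicalClosure _ ⟨a, ⟨has, ha⟩, rfl⟩)
    simpa [PiLp.inner_apply, hLi] using this
  · have : 0 < (⟪η, L w⟫_ℂ).re := by rw [hwη]; positivity
    simpa [PiLp.inner_apply, hLi] using this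

theorem sa_dense (S : StarSubalgebra ℂ (H →L[ℂ] H)) {w : H →L[ℂ] H} (hws : IsSelfAdjoint w)
    (hw : w ∈ Set.centralizer (Set.centralizer (S : Set (H →L[ℂ] H)))) (Ξ : ι → H) {δ : ℝ}
    (hδ : 0 < δ) : ∃ a ∈ S, IsSelfAdjoint a ∧ ∀ i, ‖(w - a) (Ξ i)‖ < δ := by
  by_contra! hcon
  obtain ⟨η, horth, hpos⟩ := exists_separating S w Ξ hδ hcon
  set W : ℝ := ∑ i, (⟪η i, w (Ξ i)⟫_ℂ).re
  set B : ℝ := ∑ i, (‖η i‖ + ‖Ξ i‖) with hB
  have hB0 : 0 ≤ B := Finset.sum_nonneg fun i _ => by positivity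
  obtain ⟨b, hb, hbd⟩ := so_dense S hw (Sum.elim Ξ η)
    (show (0:ℝ) < W / (B + 1) from by positivity)
  set a := (2⁻¹ : ℂ) • (b + star b) with ha
  have hasa : IsSelfAdjoint a := isSelfAdjoint_half b
  have hz := horth a (S.smul_mem (add_mem hb (star_mem hb)) _) hasa
  have hterm : ∀ i, (⟪η i, w (Ξ i)⟫_ℂ).re - (⟪η i, a (Ξ i)⟫_ℂ).re ≤
      (‖η i‖ + ‖Ξ i‖) * (W / (B + 1)) / 2 := fun i =>
    re_inner_sub_le hws b (η i) (Ξ i) _ (hbd (Sum.inl i)).le (hbd (Sum.inr i)).le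
  have hsum := Finset.sum_le_sum fun i (_ : i ∈ Finset.univ) => hterm i
  rw [Finset.sum_sub_distrib, hz, sub_zero, ← Finset.sum_div, ← Finset.sum_mul, ← hB] at hsum
  have : B * (W / (B + 1)) < W + W := by
    rw [mul_div_assoc', div_lt_iff₀ (by positivity)]
    nlinarith
  change W ≤ _ at hsum
  linarith

/-- `t ↦ 2 t / (1 + t²)`. -/
noncomputable def bend (t : ℝ) : ℝ := 2 * t / (1 + t ^ 2)

theorem continuous_bend : Continuous bend :=
  (by fun_prop : Continuous fun t : ℝ => 2 * t).div (by fun_prop) fun t => by positivity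

theorem continuous_damp : Continuous fun t : ℝ => 1 / (1 + t ^ 2) :=
  continuous_const.div (by fun_prop) fun t => by positivity

theorem abs_bend_le (t : ℝ) : |bend t| ≤ 1 := by
  rw [bend, abs_div, abs_of_pos (by positivity : (0:ℝ) < 1 + t ^ 2), div_le_one (by positivity)]
  rw [abs_mul, abs_two, ← sq_abs t]
  nlinarith [sq_nonneg (|t| - 1)]

/-- A preimage of `t ∈ [-1, 1]` under `bend`. -/
noncomputable def unbend (t : ℝ) : ℝ := t / (1 + Real.sqrt (1 - t ^ 2))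

theorem bend_unbend {t : ℝ} (ht : |t| ≤ 1) : bend (unbend t) = t := by
  have hs : Real.sqrt (1 - t ^ 2) ^ 2 = 1 - t ^ 2 :=
    Real.sq_sqrt (by nlinarith [abs_nonneg t, sq_abs t])
  have h0 := Real.sqrt_nonneg (1 - t ^ 2)
  unfold bend unbend
  field_simp
  linear_combination (-t) * hs

theorem continuous_unbend : Continuous unbend :=
  continuous_id.div (by fun_prop) fun t => by positivity

theorem bend_sub {R : Type} [Ring R] [Algebra ℝ R] (a w A W fa fw : R)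
    (hfa : fa = 2 • (A * a)) (hfw : fw = 2 • (w * W))
    (hA1 : A * (1 + a * a) = 1) (hW1 : (1 + w * w) * W = 1) :
    fa - fw = 2 • (A * ((a - w) * W)) + (2⁻¹ : ℝ) • (fa * ((w - a) * fw)) := by
  have key : A * a - w * W = A * ((a - w) * W) + A * a * ((w - a) * (w * W)) := by
    calc A * a - w * W = A * a * ((1 + w * w) * W) - A * (1 + a * a) * (w * W) := by
          rw [hW1, hA1, mul_one, one_mul]
      _ = _ := by noncomm_ring
  have e : fa * ((w - a) * fw) = (4 : ℝ) • (A * a * ((w - a) * (w * W))) := by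
    rw [hfa, hfw, ← Nat.cast_smul_eq_nsmul ℝ 2 (A * a), ← Nat.cast_smul_eq_nsmul ℝ 2 (w * W)]
    simp only [smul_mul_assoc, mul_smul_comm, smul_smul]
    norm_num
  rw [e, smul_smul, hfa, hfw, ← smul_sub, key, smul_add]
  congr 1
  rw [← Nat.cast_smul_eq_nsmul ℝ 2 (A * a * _)]
  norm_num

theorem norm_cfc_le_one (f : ℝ → ℝ) (hf : ∀ t, |f t| ≤ 1) (a : H →L[ℂ] H) : ‖cfc f a‖ ≤ 1 :=
  norm_cfc_le zero_le_one fun t _ => by simpa [Real.norm_eq_abs] using hf t

theorem cfc_damp (x : H →L[ℂ] H) (hx : IsSelfAdjoint x) :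
    cfc bend x = 2 • (cfc (fun t : ℝ => 1 / (1 + t ^ 2)) x * x) ∧
      cfc bend x = 2 • (x * cfc (fun t : ℝ => 1 / (1 + t ^ 2)) x) ∧
      cfc (fun t : ℝ => 1 / (1 + t ^ 2)) x * (1 + x * x) = 1 ∧
      (1 + x * x) * cfc (fun t : ℝ => 1 / (1 + t ^ 2)) x = 1 := by
  have hd := continuous_damp.continuousOn (s := spectrum ℝ x)
  have hne : ∀ t : ℝ, 1 + t ^ 2 ≠ 0 := fun t => by positivity
  have h1 : cfc (fun t : ℝ => 1 / (1 + t ^ 2)) x * x =
      cfc (fun t : ℝ => 1 / (1 + t ^ 2) * t) x := by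
    rw [cfc_mul _ _ x hd (by fun_prop), cfc_id' ℝ x]
  have h2 : x * cfc (fun t : ℝ => 1 / (1 + t ^ 2)) x =
      cfc (fun t : ℝ => t * (1 / (1 + t ^ 2))) x := by
    rw [cfc_mul _ _ x (by fun_prop) hd, cfc_id' ℝ x]
  have h3 : 1 + x * x = cfc (fun t : ℝ => 1 + t * t) x := by
    rw [cfc_add (a := x) (fun _ : ℝ => (1 : ℝ)) (fun t : ℝ => t * t), cfc_const_one ℝ x,
      cfc_mul (fun t : ℝ => t) (fun t : ℝ => t) x, cfc_id' ℝ x]
  refine ⟨?_, ?_, ?_, ?_⟩
  · rw [h1, ← cfc_smul 2 (fun t : ℝ => 1 / (1 + t ^ 2) * t) x (by exact hd.mul continuousOn_id)]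
    exact cfc_congr fun t _ => by simp only [bend, nsmul_eq_mul]; push_cast; field_simp
  · rw [h2, ← cfc_smul 2 (fun t : ℝ => t * (1 / (1 + t ^ 2))) x (by exact continuousOn_id.mul hd)]
    exact cfc_congr fun t _ => by simp only [bend, nsmul_eq_mul]; push_cast; field_simp
  · rw [h3, ← cfc_mul _ _ x hd (by fun_prop), ← cfc_const_one ℝ x]
    exact cfc_congr fun t _ => by rw [← sq, one_div_mul_cancel (hne t)]
  · rw [h3, ← cfc_mul _ _ x (by fun_prop) hd, ← cfc_const_one ℝ x]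
    exact cfc_congr fun t _ => by rw [← sq, mul_one_div_cancel (hne t)]

theorem bend_cfc_sub {a w : H →L[ℂ] H} (ha : IsSelfAdjoint a) (hw : IsSelfAdjoint w) :
    cfc bend a - cfc bend w =
      2 • (cfc (fun t : ℝ => 1 / (1 + t ^ 2)) a *
        ((a - w) * cfc (fun t : ℝ => 1 / (1 + t ^ 2)) w)) +
      (2⁻¹ : ℝ) • (cfc bend a * ((w - a) * cfc bend w)) := by
  exact bend_sub a w _ _ _ _ (cfc_damp a ha).1 (cfc_damp w hw).2.1 (cfc_damp a ha).2.2.1
    (cfc_damp w hw).2.2.2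

theorem norm_bend_sub_le {a w : H →L[ℂ] H} (ha : IsSelfAdjoint a) (hw : IsSelfAdjoint w) (ξ : H) :
    ‖(cfc bend a - cfc bend w) ξ‖ ≤
      2 * ‖(w - a) (cfc (fun t : ℝ => 1 / (1 + t ^ 2)) w ξ)‖ +
        ‖(w - a) (cfc bend w ξ)‖ := by
  set D := cfc (fun t : ℝ => 1 / (1 + t ^ 2)) a
  set W := cfc (fun t : ℝ => 1 / (1 + t ^ 2)) w
  have hD : ‖D‖ ≤ 1 := norm_cfc_le_one _ (fun t => by
    rw [abs_of_pos (by positivity), div_le_one (by positivity)]; nlinarith [sq_nonneg t]) a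
  have hB : ‖cfc bend a‖ ≤ 1 := norm_cfc_le_one _ abs_bend_le a
  have h1 : ∀ x, ‖D x‖ ≤ ‖x‖ := fun x => by
    simpa using D.le_of_opNorm_le hD x
  have h2 : ∀ x, ‖cfc bend a x‖ ≤ ‖x‖ := fun x => by
    simpa using (cfc bend a).le_of_opNorm_le hB x
  have e : (cfc bend a - cfc bend w) ξ = (2 : ℕ) • (D ((a - w) (W ξ))) +
      (2⁻¹ : ℝ) • (cfc bend a ((w - a) (cfc bend w ξ))) := by
    rw [bend_cfc_sub ha hw]; rfl
  rw [e, two_nsmul]
  refine (norm_add_le _ _).trans (add_le_add ?_ ?_)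
  · refine (norm_add_le _ _).trans ?_
    have := h1 ((a - w) (W ξ))
    have hn : ‖(a - w) (W ξ)‖ = ‖(w - a) (W ξ)‖ := by
      rw [sub_apply, sub_apply, norm_sub_rev]
    linarith
  · rw [norm_smul]
    refine (mul_le_of_le_one_left (norm_nonneg _) (by norm_num)).trans (h2 _)

theorem exists_poly_near {a : H →L[ℂ] H} (ha : IsSelfAdjoint a) (S : StarSubalgebra ℂ (H →L[ℂ] H))
    (haS : a ∈ S) {η : ℝ} (hη : 0 < η) :
    ∃ a' ∈ S, IsSelfAdjoint a' ∧ ‖a'‖ ≤ 1 ∧ ‖a' - cfc bend a‖ ≤ 2 * η := by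
  obtain ⟨R, hR0, hR⟩ : ∃ R : ℝ, 0 ≤ R ∧ spectrum ℝ a ⊆ Set.Icc (-R) R := by
    refine ⟨‖a‖, norm_nonneg _, fun t ht => abs_le.1 ?_⟩
    exact ((Real.norm_eq_abs t).symm.le.trans (spectrum.norm_le_norm_mul_of_mem ht)).trans
      (mul_le_of_le_one_right (norm_nonneg _) ContinuousLinearMap.norm_id_le)
  obtain ⟨q, hq⟩ := exists_polynomial_near_of_continuousOn (-R) R bend
    continuous_bend.continuousOn η hη
  have hpS : cfc q.eval a ∈ S := by
    rw [cfc_polynomial q a, Polynomial.aeval_eq_sum_range]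
    refine sum_mem fun i _ => ?_
    rw [RCLike.real_smul_eq_coe_smul (K := ℂ)]
    exact S.smul_mem (pow_mem haS i) _
  have hb : ∀ t ∈ spectrum ℝ a, |q.eval t - bend t| ≤ η := fun t ht => (hq t (hR ht)).le
  refine ⟨((1 + η)⁻¹ : ℝ) • cfc q.eval a, ?_, ?_, ?_, ?_⟩
  · rw [RCLike.real_smul_eq_coe_smul (K := ℂ)]
    exact S.smul_mem hpS _
  · rw [← cfc_smul (1 + η)⁻¹ q.eval a]
    exact cfc_predicate _ a
  · rw [norm_smul, Real.norm_of_nonneg (by positivity), inv_mul_le_one₀ (by positivity)]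
    refine norm_cfc_le (by positivity) fun t ht => ?_
    rw [Real.norm_eq_abs]
    have := abs_sub_abs_le_abs_sub (q.eval t) (bend t)
    linarith [hb t ht, abs_bend_le t]
  · rw [← cfc_smul (1 + η)⁻¹ q.eval a, ← cfc_sub _ _ a (by fun_prop) continuous_bend.continuousOn]
    refine norm_cfc_le (by positivity) fun t ht => ?_
    have h1 := abs_le.1 (hb t ht)
    have h2 := abs_le.1 (abs_bend_le t)
    rw [Real.norm_eq_abs, smul_eq_mul,
      show (1 + η)⁻¹ * q.eval t - bend t = (q.eval t - bend t - η * bend t) / (1 + η) by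
        field_simp; ring, abs_div, abs_of_pos (by positivity : (0:ℝ) < 1 + η),
      div_le_iff₀ (by positivity), abs_le]
    constructor <;> nlinarith

end Kaplansky

open Kaplansky in
/-- The Kaplansky density theorem for self-adjoint contractions. -/
theorem kaplansky_ok : KaplanskyStatement := by
  intro H _ _ _ S z hz hz1 hzc F δ hδ
  classical
  set w := cfc unbend z with hwdef
  have hws : IsSelfAdjoint w := cfc_predicate _ z
  have hwc : w ∈ Set.centralizer (Set.centralizer (S : Set (H →L[ℂ] H))) := by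
    refine Set.mem_centralizer_iff.2 fun y hy => ?_
    have h : Commute z y := (Set.mem_centralizer_iff.1 hzc y hy).symm
    exact (h.cfc_real unbend).eq.symm
  have hsp : ∀ t ∈ spectrum ℝ z, |t| ≤ 1 := fun t ht =>
    (((Real.norm_eq_abs t).symm.le.trans (spectrum.norm_le_norm_mul_of_mem ht)).trans
      (mul_le_of_le_one_right (norm_nonneg _) ContinuousLinearMap.norm_id_le)).trans hz1
  have hbz : cfc bend w = z := by
    rw [hwdef, ← cfc_comp bend unbend z hz continuous_bend.continuousOn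
      continuous_unbend.continuousOn]
    conv_rhs => rw [← cfc_id' ℝ z]
    exact cfc_congr fun t ht => bend_unbend (hsp t ht)
  obtain ⟨a, haS, has, hd⟩ := sa_dense S hws hwc
    (Sum.elim (fun ξ : F => cfc (fun t : ℝ => 1 / (1 + t ^ 2)) w (ξ : H))
      (fun ξ : F => cfc bend w (ξ : H))) (show (0:ℝ) < δ / 4 from by positivity)
  set B : ℝ := ∑ ξ ∈ F, ‖ξ‖ with hB
  have hB0 : 0 ≤ B := Finset.sum_nonneg fun ξ _ => norm_nonneg _
  obtain ⟨a', ha'S, ha's, ha'1, ha'd⟩ :=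
    exists_poly_near has S haS (show (0:ℝ) < δ / (8 * (B + 1)) from by positivity)
  refine ⟨a', ha'S, ha's, ha'1, fun ξ hξ => ?_⟩
  have e : (z - a') ξ = -((cfc bend a - cfc bend w) ξ) - (a' - cfc bend a) ξ := by
    simp only [sub_apply, hbz]; abel
  have h1 := norm_bend_sub_le has hws ξ
  have h2 := (a' - cfc bend a).le_of_opNorm_le ha'd ξ
  have h3 := hd (Sum.inl ⟨ξ, hξ⟩)
  have h4 := hd (Sum.inr ⟨ξ, hξ⟩)
  simp only [Sum.elim_inl, Sum.elim_inr] at h3 h4
  have h5 : ‖ξ‖ ≤ B := Finset.single_le_sum (f := fun ξ => ‖ξ‖) (fun ξ _ => norm_nonneg _) hξ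
  have h6 : 2 * (δ / (8 * (B + 1))) * ‖ξ‖ < δ / 4 := by
    rw [← sub_pos]
    have h7 : δ / 4 - 2 * (δ / (8 * (B + 1))) * ‖ξ‖ = δ / 4 * ((B + 1 - ‖ξ‖) / (B + 1)) := by
      field_simp; ring
    rw [h7]
    have : 0 < B + 1 - ‖ξ‖ := by linarith
    positivity
  rw [e]
  refine (norm_sub_le _ _).trans_lt ?_
  rw [norm_neg]
  linarith

end Vale.Agent.P078.MKS
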