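import Vale.Agent.P078.MKS.Assembly.L2
import Vale.Agent.P078.Singular.Cut

/-!
Smallness for a faithful normal trace on a corner and smallness in the strong topology control
each other on bounded sets (`trace_ok`).
-/

namespace Vale.Agent.P078.MKS

namespace TraceFacts

open scoped InnerProductSpace Topology
open Filter

variable {H : Type} [NormedAddCommGroup H] [InnerProductSpace ℂ H] [CompleteSpace H]
variable {M : VonNeumannAlgebra H} {e : H →L[ℂ] H} {τ : (H →L[ℂ] H) →ₗ[ℂ] ℂ}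

/-- A square root. -/
theorem exists_sqrt {D : H →L[ℂ] H} (hD : 0 ≤ D) :
    ∃ s : H →L[ℂ] H, star s = s ∧ s * s = D ∧ (∀ y, Commute D y → Commute s y) := by
  refine ⟨cfc Real.sqrt D, (cfc_predicate _ _ : IsSelfAdjoint (cfc Real.sqrt D)).star_eq, ?_,
    fun y hy => hy.cfc_real _⟩
  rw [← cfc_mul _ _ D]
  conv_rhs => rw [← cfc_id' ℝ D]
  exact cfc_congr fun x hx => Real.mul_self_sqrt (spectrum_nonneg_of_nonneg hD hx)

theorem norm_apply_sq_le {D : H →L[ℂ] H} (hD : 0 ≤ D) (v : H) :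
    ‖D v‖ ^ 2 ≤ ‖D‖ * (⟪v, D v⟫_ℂ).re := by
  obtain ⟨s, hs, hss, -⟩ := exists_sqrt hD
  have h1 : ‖s‖ * ‖s‖ = ‖D‖ := by rw [← CStarRing.norm_star_mul_self, hs, hss]
  have h2 : (⟪v, D v⟫_ℂ).re = ‖s v‖ ^ 2 := by
    rw [← hss, mul_apply_eq_comp, ← ContinuousLinearMap.adjoint_inner_left,
      ← ContinuousLinearMap.star_eq_adjoint, hs]
    exact (norm_sq_eq_re_inner (𝕜 := ℂ) (s v)).symm
  have h3 : ‖D v‖ ≤ ‖s‖ * ‖s v‖ := by rw [← hss]; exact s.le_opNorm (s v)
  rw [h2, ← h1]
  nlinarith [norm_nonneg (D v), norm_nonneg (s v), norm_nonneg s]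

/-- Bounded increasing sequences converge strongly. -/
theorem exists_mono_limit (T : ℕ → (H →L[ℂ] H)) (hm : Monotone T) (hb : ∀ n, ‖T n‖ ≤ 1) :
    ∃ L : H →L[ℂ] H, ‖L‖ ≤ 1 ∧ (∀ n, T n ≤ L) ∧
      ∀ v, Tendsto (fun n => T n v) atTop (𝓝 (L v)) := by
  have hc : ∀ v, CauchySeq fun n => T n v := by
    intro v
    set g : ℕ → ℝ := fun n => (⟪v, T n v⟫_ℂ).re with hg
    have hgm : Monotone g := fun m n h => by
      have := Singular.re_inner_nonneg (sub_nonneg.2 (hm h)) v
      simp only [sub_apply, inner_sub_right, Complex.sub_re] at this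
      simp only [hg]; linarith
    have hgb : BddAbove (Set.range g) := ⟨‖v‖ ^ 2, by
      rintro _ ⟨n, rfl⟩
      refine ((Complex.re_le_norm _).trans (norm_inner_le_norm _ _)).trans ?_
      rw [sq]
      exact mul_le_mul_of_nonneg_left (by simpa using (T n).le_of_opNorm_le (hb n) v)
        (norm_nonneg _)⟩
    have hcg : CauchySeq g := (tendsto_atTop_ciSup hgm hgb).cauchySeq
    rw [Metric.cauchySeq_iff'] at hcg ⊢
    intro ε hε
    obtain ⟨N, hN⟩ := hcg (ε ^ 2 / 2) (by positivity)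
    refine ⟨N, fun n hn => ?_⟩
    have h0 : 0 ≤ T n - T N := sub_nonneg.2 (hm hn)
    have h1 := norm_apply_sq_le h0 v
    have h2 : ‖T n - T N‖ ≤ 2 := (norm_sub_le _ _).trans (by linarith [hb n, hb N])
    have h3 := Singular.re_inner_nonneg h0 v
    have h4 := hN n hn
    rw [Real.dist_eq, abs_lt] at h4
    simp only [sub_apply, inner_sub_right, Complex.sub_re] at h1 h3
    rw [dist_eq_norm, ← Real.sqrt_sq (norm_nonneg _)]
    conv_rhs => rw [← Real.sqrt_sq hε.le]
    refine Real.sqrt_lt_sqrt (sq_nonneg _) ?_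
    have h5 := mul_le_mul_of_nonneg_right h2 h3
    simp only [hg] at h4
    linarith
  choose f hf using fun v => cauchySeq_tendsto_of_complete (hc v)
  refine ⟨continuousLinearMapOfTendsto T (tendsto_pi_nhds.2 hf), ?_, fun n => ?_, hf⟩
  · refine ContinuousLinearMap.opNorm_le_bound _ zero_le_one fun v => ?_
    exact le_of_tendsto (hf v).norm (Eventually.of_forall fun n => (T n).le_of_opNorm_le (hb n) v)
  · rw [← sub_nonneg, ContinuousLinearMap.nonneg_iff_isPositive,
      ContinuousLinearMap.isPositive_iff_complex]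
    intro v
    have hlim : Tendsto (fun m => ⟪(T m - T n) v, v⟫_ℂ) atTop
        (𝓝 ⟪(continuousLinearMapOfTendsto T (tendsto_pi_nhds.2 hf) - T n) v, v⟫_ℂ) := by
      exact ((hf v).sub_const (T n v)).inner tendsto_const_nhds
    have hev : ∀ᶠ m in atTop, 0 ≤ (⟪(T m - T n) v, v⟫_ℂ).re ∧ (⟪(T m - T n) v, v⟫_ℂ).im = 0 := by
      filter_upwards [eventually_ge_atTop n] with m hmn
      have h := (ContinuousLinearMap.isPositive_iff_complex _).1
        ((ContinuousLinearMap.nonneg_iff_isPositive _).1 (sub_nonneg.2 (hm hmn))) v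
      exact ⟨h.2, by rw [← h.1]; simp⟩
    have hre := ge_of_tendsto ((Complex.continuous_re.tendsto _).comp hlim)
      (hev.mono fun m h => h.1)
    have him : (⟪(continuousLinearMapOfTendsto T (tendsto_pi_nhds.2 hf) - T n) v, v⟫_ℂ).im = 0 :=
      tendsto_nhds_unique ((Complex.continuous_im.tendsto _).comp hlim)
        (tendsto_const_nhds.congr' (hev.mono fun m h => h.2.symm))
    refine ⟨Complex.ext (by simp) ?_, hre⟩
    rw [him]
    exact Complex.ofReal_im _

theorem cor_limit {T : ℕ → (H →L[ℂ] H)} (hT : ∀ n, Cor M e (T n)) {L : H →L[ℂ] H}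
    (hL : ∀ v, Tendsto (fun n => T n v) atTop (𝓝 (L v))) : Cor M e L := by
  refine ⟨mem_of_forall_commute M fun y hy => ?_, ?_⟩
  · ext v
    refine tendsto_nhds_unique (((y.continuous.tendsto _).comp (hL v))) ((hL (y v)).congr fun n => ?_)
    exact DFunLike.congr_fun (commutant_commute hy (hT n).1) v
  · ext v
    refine tendsto_nhds_unique ((e.continuous.tendsto _).comp (hL (e v))) ((hL v).congr fun n => ?_)
    exact (DFunLike.congr_fun (hT n).2 v).symm

theorem tr_tendsto (hτ : IsTrace M e τ) {T : ℕ → (H →L[ℂ] H)} (hT : ∀ n, Cor M e (T n))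
    (hb : ∀ n, ‖T n‖ ≤ 1) {L : H →L[ℂ] H} (hLb : ‖L‖ ≤ 1)
    (hL : ∀ v, Tendsto (fun n => T n v) atTop (𝓝 (L v))) :
    Tendsto (fun n => (τ (T n)).re) atTop (𝓝 (τ L).re) := by
  refine (Complex.continuous_re.tendsto _).comp (Metric.tendsto_nhds.2 fun ε hε => ?_)
  obtain ⟨F, δ, hδ, h⟩ := hτ.2.2.2 (ε / 2) (by positivity)
  have hev : ∀ᶠ n in atTop, ∀ ξ ∈ F, ‖T n ξ - L ξ‖ < δ :=
    (Finset.eventually_all F).2 fun ξ _ => by
      simpa [dist_eq_norm] using Metric.tendsto_nhds.1 (hL ξ) δ hδ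
  filter_upwards [hev] with n hn
  have hc : Cor M e ((2⁻¹ : ℂ) • (T n - L)) := ((hT n).sub (cor_limit hT hL)).csmul _
  have h1 := h _ hc.1 hc.2
    (by rw [norm_smul, norm_inv, RCLike.norm_ofNat]
        linarith [norm_sub_le (T n) L, hb n, hLb])
    (fun ξ hξ => by
      rw [smul_apply, sub_apply, norm_smul, norm_inv, RCLike.norm_ofNat]
      linarith [hn ξ hξ, norm_nonneg (T n ξ - L ξ)])
  rw [map_smul, map_sub, norm_smul, norm_inv, RCLike.norm_ofNat] at h1
  rw [dist_eq_norm]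
  linarith

/-- `t ↦ t / (1 + t)`. -/
noncomputable def damp (t : ℝ) : ℝ := 1 - (1 + t)⁻¹

theorem damp_props {x : H →L[ℂ] H} (hx : 0 ≤ x) :
    0 ≤ cfc damp x ∧ ‖cfc damp x‖ ≤ 1 ∧ cfc damp x ≤ x ∧
      (IsStarProjection e → Cor M e x → Cor M e (cfc damp x)) := by
  have hsp : ∀ t ∈ spectrum ℝ x, 0 ≤ t := fun t ht => spectrum_nonneg_of_nonneg hx ht
  have hsa : IsSelfAdjoint x := .of_nonneg hx
  have hinv : ContinuousOn (fun t : ℝ => (1 + t)⁻¹) (spectrum ℝ x) :=
    ContinuousOn.inv₀ (by fun_prop) fun t ht => by linarith [hsp t ht]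
  have hcont : ContinuousOn damp (spectrum ℝ x) := continuousOn_const.sub hinv
  have key : ∀ t ∈ spectrum ℝ x, damp t = t * (1 + t)⁻¹ := fun t ht => by
    have : 1 + t ≠ 0 := by linarith [hsp t ht]
    unfold damp; field_simp; ring
  refine ⟨cfc_nonneg fun t ht => ?_, norm_cfc_le zero_le_one fun t ht => ?_, ?_, fun he hc => ?_⟩
  · rw [key t ht]; exact mul_nonneg (hsp t ht) (inv_nonneg.2 (by linarith [hsp t ht]))
  · have h0 := hsp t ht
    have : 0 < (1 + t)⁻¹ := by positivity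
    rw [Real.norm_eq_abs, abs_le, damp]
    constructor
    · linarith [(inv_le_one₀ (by linarith : (0:ℝ) < 1 + t)).2 (by linarith)]
    · linarith
  · conv_rhs => rw [← cfc_id' ℝ x]
    refine cfc_mono (fun t ht => ?_) hcont
    rw [key t ht]
    exact mul_le_of_le_one_right (hsp t ht) (inv_le_one_of_one_le₀ (by linarith [hsp t ht]))
  · have hk : cfc damp x = x * cfc (fun t : ℝ => (1 + t)⁻¹) x := by
      conv_rhs => arg 1; rw [← cfc_id' ℝ x]
      rw [← cfc_mul (fun t : ℝ => t) _ x (by fun_prop) hinv]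
      exact cfc_congr key
    have h1 : e * cfc damp x = cfc damp x := by rw [hk, ← mul_assoc, hc.mul_left he]
    refine Cor.of_abs he (cfc_mem hc.1 _) h1 ?_
    have hds : IsSelfAdjoint (cfc damp x) := cfc_predicate _ _
    simpa [star_mul, he.isSelfAdjoint.star_eq, hds.star_eq] using congrArg star h1

theorem damp_mono {x y : H →L[ℂ] H} (hx : 0 ≤ x) (h : x ≤ y) : cfc damp x ≤ cfc damp y := by
  have hy : 0 ≤ y := hx.trans h
  have hc : ∀ z : H →L[ℂ] H, 0 ≤ z → cfcₙ damp z = cfc damp z := fun z hz =>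
    cfcₙ_eq_cfc (ContinuousOn.mono (continuousOn_const.sub
      (ContinuousOn.inv₀ (by fun_prop) (fun t (ht : t ∈ Set.Ici (0:ℝ)) => by
        simp only [Set.mem_Ici] at ht; linarith)))
      fun t ht => quasispectrum_nonneg_of_nonneg z hz t ht) (by simp [damp])
  rw [← hc x hx, ← hc y hy]
  exact CFC.monotoneOn_one_sub_one_add_inv_real hx hy h

theorem damp_proj {p : H →L[ℂ] H} (hp : IsStarProjection p) :
    cfc damp p = (2⁻¹ : ℝ) • p := by
  conv_rhs => rw [← cfc_id' ℝ p hp.isSelfAdjoint, ← cfc_smul (2⁻¹ : ℝ) (fun t : ℝ => t) p]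
  refine cfc_congr fun t ht => ?_
  rcases hp.isIdempotentElem.spectrum_subset ℝ ht with h | h
  · subst h; norm_num [damp]
  · rw [Set.mem_singleton_iff] at h; subst h; norm_num [damp]

theorem exists_tail (he : IsStarProjection e) (hτ : IsTrace M e τ) (p : ℕ → (H →L[ℂ] H))
    (hp : ∀ n, IsStarProjection (p n) ∧ Cor M e (p n) ∧ (τ (p n)).re ≤ (1 / 2) ^ n) :
    ∃ U : ℕ → (H →L[ℂ] H), Antitone U ∧ (∀ n, Cor M e (U n) ∧ 0 ≤ U n ∧ ‖U n‖ ≤ 1 ∧
      (2⁻¹ : ℝ) • p n ≤ U n ∧ (τ (U n)).re ≤ 2 * (1 / 2) ^ n) := by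
  set x : ℕ → ℕ → (H →L[ℂ] H) := fun n N => ∑ k ∈ Finset.Ico n N, p k with hx
  have hx0 : ∀ n N, 0 ≤ x n N := fun n N => Finset.sum_nonneg fun k _ => (hp k).1.nonneg
  have hxc : ∀ n N, Cor M e (x n N) := fun n N => Cor.sum _ fun k _ => (hp k).2.1
  have hxm : ∀ n n' N N', n' ≤ n → N ≤ N' → x n N ≤ x n' N' := fun n n' N N' h h' =>
    Finset.sum_le_sum_of_subset_of_nonneg (Finset.Ico_subset_Ico h h') fun k _ _ => (hp k).1.nonneg
  have hm : ∀ n, Monotone fun N => cfc damp (x n N) := fun n N N' h =>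
    damp_mono (hx0 _ _) (hxm n n N N' le_rfl h)
  choose U hUb hUle hUlim using fun n =>
    exists_mono_limit _ (hm n) fun N => (damp_props (M := M) (e := e) (hx0 n N)).2.1
  have hU0 : ∀ n, 0 ≤ U n := fun n => ((damp_props (M := M) (e := e) (hx0 n 0)).1).trans (hUle n 0)
  refine ⟨U, fun n' n h => ?_, fun n => ?_⟩
  · rw [← sub_nonneg, ContinuousLinearMap.nonneg_iff_isPositive,
      ContinuousLinearMap.isPositive_iff_complex]
    intro v
    have hsa : IsSelfAdjoint (U n' - U n) := (IsSelfAdjoint.of_nonneg (hU0 n')).sub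
      (IsSelfAdjoint.of_nonneg (hU0 n))
    refine ⟨(hsa.isSymmetric.coe_re_inner_apply_self v), ?_⟩
    have hlim := ((hUlim n' v).sub (hUlim n v)).inner (tendsto_const_nhds (x := v)) (𝕜 := ℂ)
    refine ge_of_tendsto ((Complex.continuous_re.tendsto _).comp hlim) (Eventually.of_forall
      fun N => ?_)
    have h1 := Singular.re_inner_nonneg (sub_nonneg.2 (damp_mono (hx0 n N) (hxm n n' N N h le_rfl))) v
    rw [← inner_conj_symm, Complex.conj_re] at h1
    exact h1
  · have hc := cor_limit (fun N => (damp_props (hx0 n N)).2.2.2 he (hxc n N)) (hUlim n)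
    refine ⟨hc, hU0 n, hUb n, ?_, ?_⟩
    · rw [← damp_proj (hp n).1]
      refine le_trans (le_of_eq ?_) (hUle n (n + 1))
      simp [hx]
    · refine le_of_tendsto (tr_tendsto hτ
        (fun N => (damp_props (hx0 n N)).2.2.2 he (hxc n N))
        (fun N => (damp_props (M := M) (e := e) (hx0 n N)).2.1) (hUb n) (hUlim n))
        (Eventually.of_forall fun N => ?_)
      have h1 := tr_mono hτ he ((damp_props (hx0 n N)).2.2.2 he (hxc n N)) (hxc n N)
        (damp_props (M := M) (e := e) (hx0 n N)).2.2.1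
      refine h1.trans ?_
      simp only [hx, map_sum, Complex.re_sum]
      refine (Finset.sum_le_sum fun k _ => (hp k).2.2).trans ?_
      have hs : ∑ k ∈ Finset.Ico n N, (1 / 2 : ℝ) ^ k =
          (1 / 2) ^ n * ∑ k ∈ Finset.range (N - n), (1 / 2 : ℝ) ^ k := by
        rw [Finset.sum_Ico_eq_sum_range, Finset.mul_sum]
        exact Finset.sum_congr rfl fun k _ => pow_add _ _ _
      rw [hs, mul_comm]
      exact mul_le_mul_of_nonneg_right (sum_geometric_two_le _) (by positivity)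

end TraceFacts

open TraceFacts Filter in
open scoped InnerProductSpace Topology in
/-- Small trace means strongly small, and conversely on bounded sets. -/
theorem trace_ok : TraceStatement := by
  intro H _ _ _ M e τ heM he hτ
  refine ⟨fun F δ hδ => ?_, fun η hη => ?_⟩
  · by_contra! hcon
    choose p hpM hp hpe hpτ ξ hξF hξ using fun n : ℕ => hcon ((1 / 2) ^ n) (by positivity)
    obtain ⟨U, hUa, hU⟩ := exists_tail he hτ p fun n => ⟨hp n, ⟨hpM n, hpe n⟩, (hpτ n).le⟩
    obtain ⟨L, hLb, hLle, hLlim⟩ := exists_mono_limit (fun n => -U n)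
      (fun a b h => neg_le_neg (hUa h)) fun n => by rw [norm_neg]; exact (hU n).2.2.1
    set V := -L with hV
    have hVlim : ∀ v, Tendsto (fun n => U n v) atTop (𝓝 (V v)) := fun v => by
      simpa [hV] using (hLlim v).neg
    have hVc : Cor M e V := cor_limit (fun n => (hU n).1) hVlim
    have hV0 : 0 ≤ V := by
      rw [ContinuousLinearMap.nonneg_iff_isPositive, ContinuousLinearMap.isPositive_iff_complex]
      intro v
      have hlim := (hVlim v).inner (tendsto_const_nhds (x := v)) (𝕜 := ℂ)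
      have hpos : ∀ n, 0 ≤ (⟪U n v, v⟫_ℂ).re ∧ (⟪U n v, v⟫_ℂ).im = 0 := fun n => by
        have h := (ContinuousLinearMap.isPositive_iff_complex _).1
          ((ContinuousLinearMap.nonneg_iff_isPositive _).1 (hU n).2.1) v
        exact ⟨h.2, by rw [← h.1]; simp⟩
      refine ⟨Complex.ext (by simp) ?_, ge_of_tendsto ((Complex.continuous_re.tendsto _).comp hlim)
        (Eventually.of_forall fun n => (hpos n).1)⟩
      have : (⟪V v, v⟫_ℂ).im = 0 := tendsto_nhds_unique
        ((Complex.continuous_im.tendsto _).comp hlim)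
        (tendsto_const_nhds.congr fun n => (hpos n).2.symm)
      simpa using this.symm
    have hτV : (τ V).re ≤ 0 := by
      have h1 := tr_tendsto hτ (fun n => (hU n).1) (fun n => (hU n).2.2.1)
        (by rwa [hV, norm_neg]) hVlim
      have h2 : Tendsto (fun n : ℕ => 2 * (1 / 2 : ℝ) ^ n) atTop (𝓝 0) := by
        simpa using (tendsto_pow_atTop_nhds_zero_of_lt_one (by norm_num : (0:ℝ) ≤ 1 / 2)
          (by norm_num)).const_mul 2
      exact le_of_tendsto_of_tendsto' h1 h2 fun n => (hU n).2.2.2.2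
    have hV00 : V = 0 := by
      obtain ⟨s, hs, hss, hsc⟩ := exists_sqrt hV0
      have hsM : s ∈ M := mem_of_forall_commute M fun y hy =>
        ((hsc y (commutant_commute hy hVc.1)).eq).symm
      have hse : s * (1 - e) = 0 := by
        rw [← CStarRing.star_mul_self_eq_zero_iff, star_mul, hs,
          he.one_sub.isSelfAdjoint.star_eq, mul_assoc, ← mul_assoc s, hss, sub_mul, one_mul,
          ← mul_assoc, hVc.mul_left he, sub_self]
      have h2 : s * e = s := by rw [mul_sub, mul_one, sub_eq_zero] at hse; exact hse.symm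
      have h3 : e * s = s := by
        simpa [star_mul, hs, he.isSelfAdjoint.star_eq] using congrArg star h2
      have hsc' : Cor M e s := Cor.of_abs he hsM h3 h2
      have h4 := hτ.1 s hsc'.1 hsc'.2
      have h5 : τ (star s * s) = 0 := by
        refine Complex.ext (le_antisymm ?_ h4.1) h4.2
        rw [hs, hss]; exact hτV
      rw [← hss, hτ.2.1 s hsc'.1 hsc'.2 h5, zero_mul]
    have hlow : ∀ n, δ ^ 2 / 2 ≤ ∑ v ∈ F, (⟪v, U n v⟫_ℂ).re := by
      intro n
      have h1 := Singular.re_inner_nonneg (sub_nonneg.2 (hU n).2.2.2.1) (ξ n)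
      have h2 := wt_eq (ξ n) (hp n)
      rw [wt] at h2
      simp only [sub_apply, inner_sub_right, Complex.sub_re, smul_apply,
        RCLike.real_smul_eq_coe_smul (K := ℂ), inner_smul_right] at h1
      simp at h1
      have h3 : δ ^ 2 ≤ ‖p n (ξ n)‖ ^ 2 := pow_le_pow_left₀ hδ.le (hξ n) 2
      have h4 := Finset.single_le_sum (f := fun v => (⟪v, U n v⟫_ℂ).re)
        (fun v _ => Singular.re_inner_nonneg (hU n).2.1 v) (hξF n)
      linarith
    have hlim : Tendsto (fun n => ∑ v ∈ F, (⟪v, U n v⟫_ℂ).re) atTop (𝓝 0) := by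
      have : ∀ v ∈ F, Tendsto (fun n => (⟪v, U n v⟫_ℂ).re) atTop (𝓝 0) := fun v _ => by
        have h := (Complex.continuous_re.tendsto _).comp
          ((tendsto_const_nhds (x := v)).inner (hVlim v) (𝕜 := ℂ))
        simpa [hV00, Function.comp_def] using h
      simpa using tendsto_finsetSum F this
    exact absurd (ge_of_tendsto hlim (Eventually.of_forall hlow)) (by nlinarith)
  · obtain ⟨F, δ, hδ, h⟩ := hτ.2.2.2 (η / 4) (by positivity)
    refine ⟨F, δ, hδ, fun y hyM hye hy2 hyF => ?_⟩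
    have hyc : Cor M e y := ⟨hyM, hye⟩
    have hc : Cor M e ((4⁻¹ : ℂ) • (star y * y)) := ((hyc.star' he).mul he hyc).csmul _
    have hn : ‖star y * y‖ ≤ 4 := by
      rw [CStarRing.norm_star_mul_self]; nlinarith [norm_nonneg y]
    have h1 := h _ hc.1 hc.2 (by rw [norm_smul, norm_inv, RCLike.norm_ofNat]; linarith)
      (fun v hv => by
        rw [smul_apply, norm_smul, norm_inv, RCLike.norm_ofNat, mul_apply_eq_comp]
        have h2 : ‖star y (y v)‖ ≤ 2 * ‖y v‖ :=
          (star y).le_of_opNorm_le (by rwa [norm_star]) _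
        linarith [hyF v hv, norm_nonneg (y v)])
    rw [map_smul, norm_smul, norm_inv, RCLike.norm_ofNat] at h1
    linarith [Complex.re_le_norm (τ (star y * y))]

end Vale.Agent.P078.MKS
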