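import Vale.Agent.P078.MKS.Defs
import Vale.Agent.P078.Singular.Defs

/-!
Traces on corners, normalisers and the statements of the operator algebra steps of measurable
paving.
-/

namespace Vale.Agent.P078.MKS

open Singular

variable {H : Type} [NormedAddCommGroup H] [InnerProductSpace ℂ H] [CompleteSpace H]

/-- A MASA of `M`. -/
def IsMASA (M A : VonNeumannAlgebra H) : Prop :=
  (∀ y ∈ A, y ∈ M) ∧ (∀ y ∈ A, ∀ z ∈ A, y * z = z * y) ∧
    ∀ y ∈ M, (∀ z ∈ A, z * y = y * z) → y ∈ A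

/-- A faithful normal positive trace on the corner `e M e` (normal: so-continuous on the unit
ball). -/
def IsTrace (M : VonNeumannAlgebra H) (e : H →L[ℂ] H) (τ : (H →L[ℂ] H) →ₗ[ℂ] ℂ) : Prop :=
  (∀ y ∈ M, e * y * e = y → 0 ≤ (τ (star y * y)).re ∧ (τ (star y * y)).im = 0) ∧
    (∀ y ∈ M, e * y * e = y → τ (star y * y) = 0 → y = 0) ∧
    (∀ y ∈ M, ∀ z ∈ M, e * y * e = y → e * z * e = z → τ (y * z) = τ (z * y)) ∧
    ∀ ε : ℝ, 0 < ε → ∃ (F : Finset H) (δ : ℝ), 0 < δ ∧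
      ∀ y ∈ M, e * y * e = y → ‖y‖ ≤ 1 → (∀ ξ ∈ F, ‖y ξ‖ < δ) → ‖τ y‖ < ε

/-- The partial isometries of `M` normalising `A` (the normalising groupoid). -/
def normaliser (M A : VonNeumannAlgebra H) : Set (H →L[ℂ] H) :=
  {v | v ∈ M ∧ v * star v * v = v ∧ ∀ a ∈ A, v * a * star v ∈ A ∧ star v * a * v ∈ A}

/-- The span of the products `a * v` (`a` in `A`, `v` normalising) which lie in the corner at
`e`. -/
noncomputable def normSpan (M A : VonNeumannAlgebra H) (e : H →L[ℂ] H) :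
    Submodule ℂ (H →L[ℂ] H) :=
  Submodule.span ℂ {z | e * z * e = z ∧ ∃ a ∈ A, ∃ v ∈ normaliser M A, z = a * v}

/-- `A` is a Cartan MASA: a MASA whose normaliser generates `M` as a von Neumann algebra. -/
def IsCartan (M A : VonNeumannAlgebra H) : Prop :=
  IsMASA M A ∧ ∀ y ∈ M, y ∈ Set.centralizer (Set.centralizer
    ((A.toStarSubalgebra : Set (H →L[ℂ] H)) ∪ normaliser M A))

/-- `P` is a partition of the projection `e` inside `A`. -/
def IsPartition (A : VonNeumannAlgebra H) (e : H →L[ℂ] H) {r : ℕ}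
    (P : Fin r → (H →L[ℂ] H)) : Prop :=
  (∀ i, P i ∈ A ∧ IsStarProjection (P i)) ∧ (∀ i j, i ≠ j → P i * P j = 0) ∧ ∑ i, P i = e

/-- The pinching by `P`. -/
def pinch {r : ℕ} (P : Fin r → (H →L[ℂ] H)) (y : H →L[ℂ] H) : H →L[ℂ] H :=
  ∑ i, P i * y * P i

/-- The part of `y` above `u`. -/
noncomputable def excess (u : ℝ) (y : H →L[ℂ] H) : H →L[ℂ] H :=
  cfc (fun x : ℝ => max (x - u) 0) y

/-- The Kaplansky density theorem for self-adjoint contractions. -/
def KaplanskyStatement : Prop :=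
  ∀ (H : Type) [NormedAddCommGroup H] [InnerProductSpace ℂ H] [CompleteSpace H]
    (S : StarSubalgebra ℂ (H →L[ℂ] H)) (z : H →L[ℂ] H), IsSelfAdjoint z → ‖z‖ ≤ 1 →
      z ∈ Set.centralizer (Set.centralizer (S : Set (H →L[ℂ] H))) →
      ∀ (F : Finset H) (δ : ℝ), 0 < δ →
        ∃ a ∈ S, IsSelfAdjoint a ∧ ‖a‖ ≤ 1 ∧ ∀ ξ ∈ F, ‖(z - a) ξ‖ < δ

/-- Smallness in trace and in the strong topology control each other on bounded sets. -/
def TraceStatement : Prop :=
  ∀ (H : Type) [NormedAddCommGroup H] [InnerProductSpace ℂ H] [CompleteSpace H]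
    (M : VonNeumannAlgebra H) (e : H →L[ℂ] H) (τ : (H →L[ℂ] H) →ₗ[ℂ] ℂ),
    e ∈ M → IsStarProjection e → IsTrace M e τ →
    (∀ (F : Finset H) (δ : ℝ), 0 < δ → ∃ η : ℝ, 0 < η ∧
      ∀ p ∈ M, IsStarProjection p → e * p * e = p → (τ p).re < η → ∀ ξ ∈ F, ‖p ξ‖ < δ) ∧
    ∀ η : ℝ, 0 < η → ∃ (F : Finset H) (δ : ℝ), 0 < δ ∧
      ∀ y ∈ M, e * y * e = y → ‖y‖ ≤ 2 → (∀ ξ ∈ F, ‖y ξ‖ < δ) →
        (τ (star y * y)).re < η

/-- Elements of the normaliser span have a diagonal on a finite partition. -/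
def DiagonalStatement : Prop :=
  ∀ (H : Type) [NormedAddCommGroup H] [InnerProductSpace ℂ H] [CompleteSpace H]
    (M A : VonNeumannAlgebra H), IsMASA M A → ∀ e ∈ A, IsStarProjection e →
      ∀ y ∈ normSpan M A e, ∃ (n : ℕ) (E : Fin n → (H →L[ℂ] H)), IsPartition A e E ∧
        ∀ i, E i * y * E i ∈ A

/-- Two-sided paving of a self-adjoint contraction of the normaliser span without diagonal: one
partition leaves both excesses above `3 u` small in the 2-norm when `u > edge (-1) 0 b r`. -/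
def TwoSidedStatement : Prop :=
  ∀ (H : Type) [NormedAddCommGroup H] [InnerProductSpace ℂ H] [CompleteSpace H]
    (M A : VonNeumannAlgebra H) (e : H →L[ℂ] H) (τ : (H →L[ℂ] H) →ₗ[ℂ] ℂ),
    IsMASA M A → e ∈ A → IsStarProjection e → IsTrace M e τ →
    ∀ y ∈ normSpan M A e, IsSelfAdjoint y → (-1 : ℝ) • e ≤ y → y ≤ e →
      ∀ (n : ℕ) (E : Fin n → (H →L[ℂ] H)), IsPartition A e E → (∀ i, E i * y * E i = 0) →
      ∀ (r : ℕ) (b u δ : ℝ), 0 < r → 1 < b → edge (-1) 0 b r < u → 0 < δ →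
        ∃ P : Fin r → (H →L[ℂ] H), IsPartition A e P ∧
          (τ (excess (3 * u) (pinch P y) * excess (3 * u) (pinch P y))).re ≤ δ ∧
          (τ (excess (3 * u) (-pinch P y) * excess (3 * u) (-pinch P y))).re ≤ δ

/-- So-paving with `O(ε⁻²)` pieces, in the corner at a projection `p` of the MASA, of every
self-adjoint operator of the von Neumann algebra generated by the normaliser, whenever traces on smaller corners of the MASA fill up `p`. -/
def CartanPavingSqStatement : Prop :=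
  ∃ C : ℕ, ∀ (H : Type) [NormedAddCommGroup H] [InnerProductSpace ℂ H] [CompleteSpace H]
    (M A : VonNeumannAlgebra H), IsMASA M A → ∀ p ∈ A, IsStarProjection p →
    (∀ (F : Finset H) (δ : ℝ), 0 < δ → ∃ (e : H →L[ℂ] H) (τ : (H →L[ℂ] H) →ₗ[ℂ] ℂ),
      e ∈ A ∧ IsStarProjection e ∧ e * p = e ∧ IsTrace M e τ ∧ ∀ ξ ∈ F, ‖(p - e) ξ‖ < δ) →
    ∀ x ∈ M, IsSelfAdjoint x → x ∈ Set.centralizer (Set.centralizer
      ((A.toStarSubalgebra : Set (H →L[ℂ] H)) ∪ normaliser M A)) →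
    ∀ (ε : ℝ) (r : ℕ), 0 < ε → ε < 1 → (C : ℝ) ≤ ε ^ 2 * r → SoPavable M A p x ε r

end Vale.Agent.P078.MKS
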