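import Vale.Agent.P078.MKS.Root

/-!
The root measure seen from a vertex: partial fractions with nonnegative weights.
-/

noncomputable section

namespace Vale.Agent.P078.MKS

open Finset Filter Topology

variable {V : Type} [Fintype V] [DecidableEq V] {r : ℕ}

/-- A function mapping the upper half-plane to the lower one has at most simple poles, with
positive residues. -/
lemma pole_sign {φ : ℂ → ℂ} {x₀ : ℂ} (hx : x₀.im = 0) (hφ : ContinuousAt φ x₀) (ha : φ x₀ ≠ 0)
    {d : ℕ} (hd : 1 ≤ d) (h : ∀ w : ℂ, 0 < w.im → (φ w / (w - x₀) ^ d).im ≤ 0) :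
    d = 1 ∧ (φ x₀).im = 0 ∧ 0 < (φ x₀).re := by
  have hu : ∀ u : ℂ, 0 < u.im → (φ x₀ / u ^ d).im ≤ 0 := fun u hu => by
    have hlim : Tendsto (fun ε : ℝ => (φ (x₀ + ε * u) / u ^ d).im) (𝓝[>] 0)
        (𝓝 (φ x₀ / u ^ d).im) := by
      have h1 : ContinuousAt (fun ε : ℝ => φ (x₀ + ε * u)) 0 := by
        refine ContinuousAt.comp (x := (0 : ℝ)) ?_ (by fun_prop)
        simpa using hφ
      have h2 : ContinuousAt (fun ε : ℝ => (φ (x₀ + ε * u) / u ^ d).im) 0 :=
        Complex.continuous_im.continuousAt.comp (h1.div_const _)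
      simpa using h2.tendsto.mono_left nhdsWithin_le_nhds
    refine le_of_tendsto hlim (eventually_nhdsWithin_of_forall fun ε (hε : 0 < ε) => ?_)
    have h1 := h (x₀ + ε * u) (by
      simp only [Complex.add_im, hx, Complex.im_ofReal_mul, zero_add]; positivity)
    rw [add_sub_cancel_left, mul_pow, mul_comm ((ε : ℂ) ^ d), ← div_div, ← Complex.ofReal_pow,
      Complex.div_ofReal_im] at h1
    simpa using (div_le_iff₀ (pow_pos hε d)).1 h1
  have hd1 : d = 1 := by
    by_contra hne
    have hd2 : 2 ≤ d := by omega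
    have key : ∀ θ : ℝ, 0 < θ → θ < 2 * Real.pi →
        (φ x₀ * Complex.exp (((-θ : ℝ) : ℂ) * Complex.I)).im ≤ 0 := fun θ h0 h1 => by
      have him : 0 < (Complex.exp (((θ / d : ℝ) : ℂ) * Complex.I)).im := by
        rw [Complex.exp_ofReal_mul_I_im]
        refine Real.sin_pos_of_pos_of_lt_pi (by positivity) ?_
        have : (2 : ℝ) ≤ d := by exact_mod_cast hd2
        rw [div_lt_iff₀ (by linarith)]
        nlinarith [Real.pi_pos]
      have h2 := hu _ him
      have hd0 : (d : ℂ) ≠ 0 := Nat.cast_ne_zero.2 (by omega)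
      rwa [← Complex.exp_nat_mul, show (d : ℂ) * (((θ / d : ℝ) : ℂ) * Complex.I) =
        (θ : ℂ) * Complex.I by
          push_cast
          rw [← mul_assoc, mul_div_cancel₀ _ hd0],
        div_eq_mul_inv, ← Complex.exp_neg,
        show -((θ : ℂ) * Complex.I) = ((-θ : ℝ) : ℂ) * Complex.I by push_cast; ring] at h2
    have k1 := key (Real.pi / 2) (by positivity) (by linarith [Real.pi_pos])
    have k2 := key Real.pi Real.pi_pos (by linarith [Real.pi_pos])
    have k3 := key (Real.pi + Real.pi / 2) (by positivity) (by linarith [Real.pi_pos])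
    have k4 := key (Real.pi / 4) (by positivity) (by linarith [Real.pi_pos])
    simp only [Complex.mul_im, Complex.exp_ofReal_mul_I_re, Complex.exp_ofReal_mul_I_im,
      Real.cos_neg, Real.sin_neg, Real.cos_pi_div_two, Real.sin_pi_div_two, Real.cos_pi,
      Real.sin_pi, Real.cos_add, Real.sin_add, Real.cos_pi_div_four, Real.sin_pi_div_four]
      at k1 k2 k3 k4
    have hre : (φ x₀).re = 0 := by linarith
    rw [hre] at k4
    have : (0 : ℝ) < Real.sqrt 2 / 2 := by positivity
    exact ha (Complex.ext hre (show (φ x₀).im = 0 by nlinarith))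
  subst hd1
  refine ⟨rfl, ?_⟩
  have k : ∀ s : ℝ, (φ x₀).im * s - (φ x₀).re ≤ 0 := fun s => by
    have h1 := hu ((s : ℂ) + Complex.I) (by simp)
    rw [pow_one, Complex.div_im] at h1
    simp only [Complex.add_re, Complex.ofReal_re, Complex.I_re, add_zero, Complex.add_im,
      Complex.ofReal_im, Complex.I_im, zero_add, mul_one] at h1
    rw [← sub_div, div_le_iff₀ (Complex.normSq_pos.2 fun h0 => by
      simpa using congrArg Complex.im h0), zero_mul] at h1
    exact h1
  have him : (φ x₀).im = 0 := by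
    by_contra h0
    have := k (((φ x₀).re + 1) / (φ x₀).im)
    rw [mul_div_cancel₀ _ h0] at this
    linarith
  refine ⟨him, lt_of_le_of_ne (by linarith [k 0]) fun h0 => ha (Complex.ext h0.symm him)⟩

lemma charMix_ratio {X : Matrix V V ℂ} (hX : X.IsHermitian) {p : V → Fin r → ℝ} (hp : IsProb p)
    (k : V) {w : ℂ} (hw : 0 < w.im) :
    (charMix X p univ).eval w ≠ 0 ∧ (charMix X p (univ.erase k)).eval w ≠ 0 ∧
      0 < ((charMix X p univ).eval w / (charMix X p (univ.erase k)).eval w).im := by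
  simp only [charMix_eval]
  have h := stable_ok V r X p hX hp univ (fun _ => w) fun _ _ => hw
  exact ⟨h.1, (stable_ok V r X p hX hp _ (fun _ => w) fun _ _ => hw).1, h.2 k (Finset.mem_univ _)⟩

/-- The residue of `N / Q` at a real root of `Q` is nonnegative when `N / Q` maps the upper
half-plane into the closed lower one. -/
lemma exists_residue {Q N : Polynomial ℂ} (hQ : Q ≠ 0)
    (hQw : ∀ w : ℂ, 0 < w.im → Q.eval w ≠ 0)
    (h : ∀ w : ℂ, 0 < w.im → (N.eval w / Q.eval w).im ≤ 0) {z₀ : ℂ} (hz : z₀ ∈ Q.roots)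
    (hz0 : z₀.im = 0) :
    ∃ w : ℝ, 0 ≤ w ∧ (Polynomial.X - Polynomial.C z₀) ^ Q.rootMultiplicity z₀ ∣
      N - Polynomial.C (w : ℂ) * (Q /ₘ (Polynomial.X - Polynomial.C z₀)) := by
  rcases eq_or_ne N 0 with hN | hN
  · exact ⟨0, le_rfl, by simp [hN]⟩
  obtain ⟨Q₁, eQ, hQ₁⟩ := Q.exists_eq_pow_rootMultiplicity_mul_and_not_dvd hQ z₀
  obtain ⟨N₁, eN, hN₁⟩ := N.exists_eq_pow_rootMultiplicity_mul_and_not_dvd hN z₀
  rw [Polynomial.dvd_iff_isRoot] at hQ₁ hN₁
  set m := Q.rootMultiplicity z₀ with hm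
  set j := N.rootMultiplicity z₀ with hj
  have hm1 : 1 ≤ m := (Polynomial.rootMultiplicity_pos hQ).2 (Polynomial.mem_roots'.1 hz).2
  have hdiv : Q /ₘ (Polynomial.X - Polynomial.C z₀) =
      (Polynomial.X - Polynomial.C z₀) ^ (m - 1) * Q₁ := by
    conv_lhs => rw [eQ, show m = (m - 1) + 1 by omega, pow_succ', mul_assoc]
    rw [Polynomial.mul_divByMonic_cancel_left _ (Polynomial.monic_X_sub_C z₀)]
  by_cases hjm : m ≤ j
  · refine ⟨0, le_rfl, ?_⟩
    simp only [Complex.ofReal_zero, map_zero, zero_mul, sub_zero]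
    rw [eN]
    exact dvd_mul_of_dvd_left (pow_dvd_pow _ hjm) _
  · push Not at hjm
    set φ : ℂ → ℂ := fun w => N₁.eval w / Q₁.eval w with hφ
    have hres := pole_sign (φ := φ) (x₀ := z₀) hz0
      (ContinuousAt.div (by fun_prop) (by fun_prop) hQ₁) (div_ne_zero hN₁ hQ₁)
      (d := m - j) (by omega) fun w hw => by
      have hne : w - z₀ ≠ 0 := fun h => by
        have := congrArg Complex.im h; simp [hz0] at this; linarith
      have e : φ w / (w - z₀) ^ (m - j) = N.eval w / Q.eval w := by
        conv_rhs => rw [eQ, eN]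
        simp only [Polynomial.eval_mul, Polynomial.eval_pow, Polynomial.eval_sub,
          Polynomial.eval_X, Polynomial.eval_C, hφ]
        rw [show (w - z₀) ^ m = (w - z₀) ^ (m - j) * (w - z₀) ^ j by
          rw [← pow_add, Nat.sub_add_cancel hjm.le]]
        field_simp
      exact e ▸ h w hw
    obtain ⟨hd, him, hre⟩ := hres
    refine ⟨(φ z₀).re, hre.le, ?_⟩
    have hjeq : j = m - 1 := by omega
    rw [hdiv, eN, hjeq, mul_left_comm, ← mul_sub]
    conv_lhs => rw [show m = (m - 1) + 1 by omega, pow_succ]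
    refine mul_dvd_mul_left _ ?_
    rw [Polynomial.dvd_iff_isRoot, Polynomial.IsRoot, Polynomial.eval_sub, Polynomial.eval_mul,
      Polynomial.eval_C, show ((φ z₀).re : ℂ) = φ z₀ from Complex.ext rfl (by simp [him]),
      hφ, div_mul_cancel₀ _ hQ₁, sub_self]

/-- A rational function vanishing at infinity with real poles which maps the upper half-plane into
the closed lower one has a partial fraction expansion with nonnegative residues. -/
lemma nonneg_fraction {Q N : Polynomial ℂ} (hQ : Q.Monic) (hroots : ∀ z ∈ Q.roots, z.im = 0)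
    (hdeg : N.degree < Q.degree) (hQw : ∀ w : ℂ, 0 < w.im → Q.eval w ≠ 0)
    (h : ∀ w : ℂ, 0 < w.im → (N.eval w / Q.eval w).im ≤ 0) :
    ∃ w : ℂ → ℝ, (∀ z, 0 ≤ w z) ∧ N = ∑ z ∈ Q.roots.toFinset,
      Polynomial.C (w z : ℂ) * (Q /ₘ (Polynomial.X - Polynomial.C z)) := by
  classical
  have hres : ∀ z : ℂ, ∃ w : ℝ, 0 ≤ w ∧ (z ∈ Q.roots →
      (Polynomial.X - Polynomial.C z) ^ Q.rootMultiplicity z ∣
        N - Polynomial.C (w : ℂ) * (Q /ₘ (Polynomial.X - Polynomial.C z))) := fun z => by
    by_cases hz : z ∈ Q.roots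
    · obtain ⟨w, hw, hdvd⟩ := exists_residue hQ.ne_zero hQw h hz (hroots z hz)
      exact ⟨w, hw, fun _ => hdvd⟩
    · exact ⟨0, le_rfl, fun h => absurd h hz⟩
  choose w hw hdvd using hres
  refine ⟨w, hw, ?_⟩
  set T := ∑ z ∈ Q.roots.toFinset,
    Polynomial.C (w z : ℂ) * (Q /ₘ (Polynomial.X - Polynomial.C z)) with hT
  have hdegT : T.degree < Q.degree :=
    lt_of_le_of_lt ((Polynomial.degree_sum_le _ _).trans (Finset.sup_mono_fun fun z _ =>
        (Polynomial.degree_mul_le _ _).trans (add_le_add_left Polynomial.degree_C_le _)))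
      ((Finset.sup_lt_iff (bot_lt_iff_ne_bot.2 (by simpa using hQ.ne_zero))).2 fun z hz => by
        rw [zero_add]
        refine Polynomial.degree_divByMonic_lt _ _ hQ.ne_zero ?_
        rw [Polynomial.degree_X_sub_C]; exact zero_lt_one)
  have hdiv : Q ∣ N - T := by
    have hsplit : ∏ z ∈ Q.roots.toFinset,
        (Polynomial.X - Polynomial.C z) ^ Q.rootMultiplicity z = Q := by
      conv_rhs => rw [← Polynomial.prod_multiset_X_sub_C_of_monic_of_roots_card_eq hQ
        (IsAlgClosed.card_roots_eq_natDegree)]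
      rw [Finset.prod_multiset_map_count]
      exact Finset.prod_congr rfl fun z _ => by rw [Polynomial.count_roots]
    rw [← hsplit]
    refine Finset.prod_dvd_of_coprime (fun a _ b _ hab =>
      ((Polynomial.pairwise_coprime_X_sub_C Function.injective_id hab).pow)) fun z hz => ?_
    rw [hT, ← Finset.add_sum_erase _ _ hz, ← sub_sub]
    refine dvd_sub (hdvd z (Multiset.mem_toFinset.1 hz)) (Finset.dvd_sum fun u hu => ?_)
    refine dvd_mul_of_dvd_right ?_ _
    refine IsCoprime.dvd_of_dvd_mul_left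
      ((Polynomial.pairwise_coprime_X_sub_C Function.injective_id
        (Finset.ne_of_mem_erase hu).symm).pow_left) ?_
    simp only [id]
    rw [Polynomial.mul_divByMonic_eq_iff_isRoot.2 (Polynomial.mem_roots'.1
      (Multiset.mem_toFinset.1 (Finset.mem_of_mem_erase hu))).2]
    exact Q.pow_rootMultiplicity_dvd z
  exact sub_eq_zero.1 (Polynomial.eq_zero_of_dvd_of_degree_lt hdiv
    (lt_of_le_of_lt (Polynomial.degree_sub_le _ _) (max_lt hdeg hdegT)))

theorem partialFraction_ok : PartialFractionStatement := by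
  intro V _ _ r X p hX hp k
  set P := charMix X p univ with hP
  set Q := charMix X p (univ.erase k) with hQ
  obtain ⟨hPm, hPn⟩ : P.Monic ∧ P.natDegree = (univ : Finset V).card := charMix_monic X hp univ
  obtain ⟨hQm, hQn⟩ : Q.Monic ∧ Q.natDegree = ((univ : Finset V).erase k).card :=
    charMix_monic X hp _
  have hcard : ((univ : Finset V).erase k).card + 1 = (univ : Finset V).card :=
    Finset.card_erase_add_one (Finset.mem_univ k)
  obtain ⟨w, hw, hQT⟩ := nonneg_fraction (N := Q) hPm (fun z hz => charMix_roots_real hX hp hz)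
    (Polynomial.degree_lt_degree (by omega)) (fun u hu => (charMix_ratio hX hp k hu).1)
    fun u hu => by
      obtain ⟨hPw, hQw, him⟩ := charMix_ratio hX hp k hu
      rw [← hP] at hPw him
      rw [← hQ] at hQw him
      rw [← inv_div, Complex.inv_im]
      exact div_nonpos_of_nonpos_of_nonneg (by linarith) (Complex.normSq_nonneg _)
  refine ⟨w, hw, ?_, hQT⟩
  have hquot : ∀ z ∈ P.roots.toFinset, (P /ₘ (Polynomial.X - Polynomial.C z)).coeff
      ((univ : Finset V).erase k).card = 1 := by
    intro z hz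
    have e := Polynomial.mul_divByMonic_eq_iff_isRoot.2
      (Polynomial.mem_roots'.1 (Multiset.mem_toFinset.1 hz)).2
    have hm : (P /ₘ (Polynomial.X - Polynomial.C z)).Monic :=
      Polynomial.Monic.of_mul_monic_left (Polynomial.monic_X_sub_C z) (e.symm ▸ hPm)
    have := congrArg Polynomial.natDegree e
    rw [(Polynomial.monic_X_sub_C z).natDegree_mul hm, Polynomial.natDegree_X_sub_C, hPn] at this
    rw [show ((univ : Finset V).erase k).card = (P /ₘ (Polynomial.X - Polynomial.C z)).natDegree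
      by omega, hm.coeff_natDegree]
  have h1 : Q.coeff ((univ : Finset V).erase k).card = 1 := hQn ▸ hQm.coeff_natDegree
  rw [hQT, Polynomial.finsetSum_coeff, Finset.sum_congr rfl fun z hz => by
    rw [Polynomial.coeff_C_mul, hquot z hz, mul_one]] at h1
  exact_mod_cast h1

end Vale.Agent.P078.MKS
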