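import Vale.Agent.P078.MKS.Stable

/-!
Expected characteristic polynomials are monic with real roots, bounded by the norm of the matrix.
-/

noncomputable section

namespace Vale.Agent.P078.MKS

open Finset
open scoped ComplexConjugate

variable {V : Type} [Fintype V] [DecidableEq V] {r : ℕ}

/-- The pinched matrix cut down to `S`, zero outside `S`. -/
def cut {R : Type} [CommRing R] (X : Matrix V V R) (f : V → Fin r) (S : Finset V) : Matrix V V R :=
  Matrix.of fun a b => if a ∈ S ∧ b ∈ S then (if f a = f b then X a b else 0) else 0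

/-- The characteristic polynomial of one colouring on `S`. -/
def dpoly (X : Matrix V V ℂ) (f : V → Fin r) (S : Finset V) : Polynomial ℂ :=
  (block (X.map Polynomial.C) f S fun _ => Polynomial.X).det

lemma charMix_eq (X : Matrix V V ℂ) (p : V → Fin r → ℝ) (S : Finset V) :
    charMix X p S = ∑ f : V → Fin r, Polynomial.C (∏ v, cw p v (f v)) * dpoly X f S := by
  unfold charMix mixDet dpoly
  simp only [map_prod]

lemma dpoly_mul (X : Matrix V V ℂ) (f : V → Fin r) (S : Finset V) :
    (∏ a : V, if a ∈ S then 1 else Polynomial.X) * dpoly X f S = (cut X f S).charpoly := by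
  rw [dpoly, ← Matrix.det_diagonal, ← Matrix.det_mul, Matrix.charpoly]
  congr 1
  ext1 a b
  rw [Matrix.diagonal_mul, block_apply, Matrix.charmatrix_apply, Matrix.diagonal_apply]
  by_cases ha : a ∈ S
  · by_cases hb : b ∈ S
    · simp [cut, ha, hb, apply_ite (⇑(Polynomial.C : ℂ →+* Polynomial ℂ))]
    · have hab : a ≠ b := fun h => hb (h ▸ ha)
      simp [cut, ha, hb, hab]
  · by_cases hab : a = b
    · subst hab; simp [cut, ha]
    · simp [cut, ha, hab]

lemma dpoly_monic (X : Matrix V V ℂ) (f : V → Fin r) (S : Finset V) :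
    (dpoly X f S).Monic ∧ (dpoly X f S).natDegree = S.card := by
  have hW : (∏ a : V, if a ∈ S then (1 : Polynomial ℂ) else Polynomial.X) =
      Polynomial.X ^ (Sᶜ).card := by
    rw [← Finset.prod_mul_prod_compl S, Finset.prod_eq_one fun a ha => if_pos ha, one_mul,
      Finset.prod_congr rfl fun a ha => if_neg (Finset.mem_compl.1 ha), Finset.prod_const]
  have h := dpoly_mul X f S
  rw [hW] at h
  have hm : (dpoly X f S).Monic := by
    refine Polynomial.Monic.of_mul_monic_left (Polynomial.monic_X_pow (Sᶜ).card) ?_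
    rw [h]; exact Matrix.charpoly_monic _
  refine ⟨hm, ?_⟩
  have hd := congrArg Polynomial.natDegree h
  rw [(Polynomial.monic_X_pow _).natDegree_mul hm, Polynomial.natDegree_X_pow,
    Matrix.charpoly_natDegree_eq_dim, ← Finset.card_compl_add_card S] at hd
  omega

lemma charMix_monic (X : Matrix V V ℂ) {p : V → Fin r → ℝ} (hp : IsProb p) (S : Finset V) :
    (charMix X p S).Monic ∧ (charMix X p S).natDegree = S.card := by
  have hle : (charMix X p S).natDegree ≤ S.card := by
    rw [charMix_eq]
    exact Polynomial.natDegree_sum_le_of_forall_le _ _ fun f _ =>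
      (Polynomial.natDegree_C_mul_le _ _).trans (dpoly_monic X f S).2.le
  have hc : (charMix X p S).coeff S.card = 1 := by
    rw [charMix_eq, Polynomial.finsetSum_coeff]
    have : ∀ f : V → Fin r, (Polynomial.C (∏ v, cw p v (f v)) * dpoly X f S).coeff S.card =
        ∏ v, cw p v (f v) := fun f => by
      rw [Polynomial.coeff_C_mul]
      nth_rewrite 1 [← (dpoly_monic X f S).2]
      rw [(dpoly_monic X f S).1.coeff_natDegree, mul_one]
    simp only [this, ← Fintype.prod_sum (fun v i => cw p v i), sum_cw hp, Finset.prod_const_one]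
  exact ⟨Polynomial.monic_of_natDegree_le_of_coeff_eq_one _ hle hc,
    le_antisymm hle (Polynomial.le_natDegree_of_ne_zero (by simp [hc]))⟩

lemma charMix_eval (X : Matrix V V ℂ) (p : V → Fin r → ℝ) (S : Finset V) (z : ℂ) :
    (charMix X p S).eval z = mixDet X (cw p) S fun _ => z := by
  rw [charMix_eq, Polynomial.eval_finsetSum]
  unfold mixDet dpoly
  refine Finset.sum_congr rfl fun f _ => ?_
  rw [Polynomial.eval_mul, Polynomial.eval_C, ← Polynomial.coe_evalRingHom, RingHom.map_det]
  congr 2
  ext a b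
  simp [block_apply, apply_ite (Polynomial.eval z)]

lemma conj_det_block {X : Matrix V V ℂ} (hX : X.IsHermitian) (f : V → Fin r) (S : Finset V)
    (y : V → ℂ) :
    conj (block X f S y).det = (block X f S fun v => conj (y v)).det := by
  rw [starRingEnd_apply, ← Matrix.det_conjTranspose]
  congr 1
  ext a b
  simp only [Matrix.conjTranspose_apply, block_apply, and_comm (a := b ∈ S), eq_comm (a := f b)]
  by_cases hab : a = b
  · subst hab
    have hXa : conj (X a a) = X a a := hX.apply a a
    simp only [if_true, apply_ite (star : ℂ → ℂ), ← starRingEnd_apply]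
    split_ifs <;> simp [hXa]
  · simp only [if_neg hab, if_neg (Ne.symm hab), apply_ite (star : ℂ → ℂ), star_sub, star_zero,
      hX.apply a b]

lemma conj_mixDet {X : Matrix V V ℂ} (hX : X.IsHermitian) (p : V → Fin r → ℝ) (S : Finset V)
    (y : V → ℂ) : conj (mixDet X (cw p) S y) = mixDet X (cw p) S fun v => conj (y v) := by
  unfold mixDet
  simp only [map_sum, map_mul, map_prod, conj_det_block hX]
  simp [cw]

lemma charMix_roots_real {X : Matrix V V ℂ} (hX : X.IsHermitian) {p : V → Fin r → ℝ}
    (hp : IsProb p) {S : Finset V} {z : ℂ} (hz : z ∈ (charMix X p S).roots) : z.im = 0 := by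
  have hev : mixDet X (cw p) S (fun _ => z) = 0 := by
    rw [← charMix_eval]; exact (Polynomial.mem_roots'.1 hz).2
  by_contra h
  rcases lt_or_gt_of_ne h with h | h
  · refine (stable_ok V r X p hX hp S (fun _ => conj z) fun v _ => ?_).1 ?_
    · simp only [Complex.conj_im]; linarith
    · rw [← conj_mixDet hX p S (fun _ => z), hev, map_zero]
  · exact (stable_ok V r X p hX hp S (fun _ => z) fun v _ => h).1 hev

lemma cut_bound {X : Matrix V V ℂ} {c : ℝ} (hb : OpBound X c) (f : V → Fin r) (S : Finset V)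
    (x : V → ℂ) :
    ∑ a ∈ S, ‖(cut X f S).mulVec x a‖ ^ 2 ≤ c ^ 2 * ∑ a ∈ S, ‖x a‖ ^ 2 := by
  set v : Fin r → V → ℂ := fun i b => if b ∈ S ∧ f b = i then x b else 0 with hv
  have h1 : ∀ a ∈ S, (cut X f S).mulVec x a = X.mulVec (v (f a)) a := fun a ha => by
    refine Finset.sum_congr rfl fun b _ => ?_
    simp only [cut, hv, Matrix.of_apply, ha, true_and]
    by_cases hb' : b ∈ S <;> by_cases hf : f a = f b <;> simp [hb', hf, Ne.symm]
  calc ∑ a ∈ S, ‖(cut X f S).mulVec x a‖ ^ 2
      = ∑ i, ∑ a ∈ S with f a = i, ‖X.mulVec (v i) a‖ ^ 2 := by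
        rw [← Finset.sum_fiberwise S f]
        refine Finset.sum_congr rfl fun i _ => Finset.sum_congr rfl fun a ha => ?_
        obtain ⟨haS, rfl⟩ := Finset.mem_filter.1 ha
        rw [h1 a haS]
    _ ≤ ∑ i, ∑ a, ‖X.mulVec (v i) a‖ ^ 2 := Finset.sum_le_sum fun i _ =>
        Finset.sum_le_sum_of_subset_of_nonneg (Finset.subset_univ _) fun a _ _ => by positivity
    _ ≤ ∑ i, c ^ 2 * ∑ a, ‖v i a‖ ^ 2 := Finset.sum_le_sum fun i _ => hb (v i)
    _ = c ^ 2 * ∑ a ∈ S, ‖x a‖ ^ 2 := by
        rw [← Finset.mul_sum, Finset.sum_comm]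
        congr 1
        rw [← Finset.sum_subset (Finset.subset_univ S) fun a _ ha => by simp [hv, ha]]
        refine Finset.sum_congr rfl fun a ha => ?_
        rw [Finset.sum_eq_single (f a) (fun i _ hi => by simp [hv, Ne.symm hi]) (by simp)]
        simp [hv, ha]

lemma det_block_ne_zero_of_gt {X : Matrix V V ℂ} {c : ℝ} (hb : OpBound X c) (hc : 0 ≤ c)
    (f : V → Fin r) (S : Finset V) {t : ℂ} (ht : c < ‖t‖) :
    (block X f S fun _ => t).det ≠ 0 := by
  intro h0
  obtain ⟨x, hx0, hx⟩ := Matrix.exists_mulVec_eq_zero_iff.2 h0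
  have hrow : ∀ a, (a ∈ S → t * x a = (cut X f S).mulVec x a) ∧ (a ∉ S → x a = 0) := fun a => by
    have h := congrFun hx a
    simp only [Matrix.mulVec, dotProduct, Pi.zero_apply] at h
    constructor
    · intro ha
      have e : ∀ b, block X f S (fun _ => t) a b * x b =
          (if a = b then t * x b else 0) - cut X f S a b * x b := fun b => by
        rw [block_apply]
        by_cases hb : b ∈ S
        · simp only [cut, Matrix.of_apply, ha, hb, and_self, if_true, sub_mul, ite_mul, zero_mul]
        · have hab : a ≠ b := fun h => hb (h ▸ ha)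
          simp [cut, ha, hb, hab]
      simp only [e, Finset.sum_sub_distrib, Finset.sum_ite_eq, Finset.mem_univ, if_true] at h
      simpa [Matrix.mulVec, dotProduct] using sub_eq_zero.1 h
    · intro ha
      simpa [block_apply, ha] using h
  have hN : ∀ a ∈ S, ‖(cut X f S).mulVec x a‖ ^ 2 = ‖t‖ ^ 2 * ‖x a‖ ^ 2 := fun a ha => by
    rw [← (hrow a).1 ha, norm_mul, mul_pow]
  have h := cut_bound hb f S x
  rw [Finset.sum_congr rfl hN, ← Finset.mul_sum] at h
  have hs : ∑ a ∈ S, ‖x a‖ ^ 2 = 0 := by
    refine le_antisymm ?_ (Finset.sum_nonneg fun a _ => by positivity)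
    by_contra hpos
    push Not at hpos
    have : c ^ 2 < ‖t‖ ^ 2 := pow_lt_pow_left₀ ht hc (by norm_num)
    nlinarith
  apply hx0
  funext a
  by_cases ha : a ∈ S
  · have := (Finset.sum_eq_zero_iff_of_nonneg fun a _ => by positivity).1 hs a ha
    simpa using this
  · exact (hrow a).2 ha

lemma det_block_ratio_pos {X : Matrix V V ℂ} (hX : X.IsHermitian) {c : ℝ} (hb : OpBound X c)
    (hc : 0 ≤ c) (f : V → Fin r) (S : Finset V) {t : ℝ} (ht : c < |t|) :
    0 < ((block X f S fun _ => (t : ℂ)).det / (t : ℂ) ^ S.card).re := by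
  have ht0 : t ≠ 0 := fun h => by rw [h, abs_zero] at ht; linarith
  set g : ℝ → ℝ := fun s =>
    ((block ((s : ℂ) • X) f S fun _ => (t : ℂ)).det / (t : ℂ) ^ S.card).re with hg
  have hcont : Continuous g := by
    refine Complex.continuous_re.comp (Continuous.div_const (Continuous.matrix_det ?_) _)
    refine continuous_matrix fun a b => ?_
    simp only [block_apply, Matrix.smul_apply, smul_eq_mul]
    split_ifs <;> fun_prop
  have hne : ∀ s ∈ Set.Icc (0 : ℝ) 1, g s ≠ 0 := fun s hs h => by
    have hXs : ((s : ℂ) • X).IsHermitian := by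
      ext a b
      simp [Matrix.conjTranspose_apply, hX.apply a b]
    have hbs : OpBound ((s : ℂ) • X) c := fun v => by
      refine le_trans (Finset.sum_le_sum fun a _ => ?_) (hb v)
      rw [Matrix.smul_mulVec, Pi.smul_apply, norm_smul, Complex.norm_real, Real.norm_eq_abs,
        abs_of_nonneg hs.1, mul_pow]
      exact mul_le_of_le_one_left (by positivity) (pow_le_one₀ hs.1 hs.2)
    have him : ((block ((s : ℂ) • X) f S fun _ => (t : ℂ)).det / (t : ℂ) ^ S.card).im = 0 := by
      rw [← Complex.conj_eq_iff_im, map_div₀, conj_det_block hXs, map_pow, Complex.conj_ofReal]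
    refine div_ne_zero (det_block_ne_zero_of_gt hbs hc f S (t := (t : ℂ)) ?_)
      (pow_ne_zero _ (Complex.ofReal_ne_zero.2 ht0)) (Complex.ext h him)
    rwa [Complex.norm_real, Real.norm_eq_abs]
  have h0 : g 0 = 1 := by
    have e : (block ((0 : ℂ) • X) f S fun _ => (t : ℂ)) =
        Matrix.diagonal fun a => if a ∈ S then (t : ℂ) else 1 := by
      ext a b
      by_cases hab : a = b
      · subst hab; by_cases ha : a ∈ S <;> simp [block_apply, ha]
      · simp [block_apply, hab]
    simp only [hg, Complex.ofReal_zero, e, Matrix.det_diagonal]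
    rw [Fintype.prod_ite_mem, Finset.prod_const, div_self (pow_ne_zero _
      (Complex.ofReal_ne_zero.2 ht0)), Complex.one_re]
  have h1 : g 1 = ((block X f S fun _ => (t : ℂ)).det / (t : ℂ) ^ S.card).re := by
    simp [hg]
  rw [← h1]
  rcases lt_or_gt_of_ne (hne 1 ⟨zero_le_one, le_rfl⟩) with h | h
  · obtain ⟨s, hs, hs0⟩ := intermediate_value_Icc' (zero_le_one (α := ℝ)) hcont.continuousOn
      (show (0 : ℝ) ∈ Set.Icc (g 1) (g 0) from ⟨h.le, by rw [h0]; exact zero_le_one⟩)
    exact absurd hs0 (hne s hs)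
  · exact h

theorem root_ok : RootStatement := by
  intro V _ _ r X p hX hp c hc hb S
  refine ⟨(charMix_monic X hp S).1, (charMix_monic X hp S).2, fun z hz => ?_⟩
  have him := charMix_roots_real hX hp hz
  refine ⟨him, not_lt.1 fun hlt => ?_⟩
  have hev : mixDet X (cw p) S (fun _ => z) = 0 := by
    rw [← charMix_eval]; exact (Polynomial.mem_roots'.1 hz).2
  rw [show z = (z.re : ℂ) from Complex.ext rfl (by simpa using him)] at hev
  have h1 : (mixDet X (cw p) S (fun _ => (z.re : ℂ)) / (z.re : ℂ) ^ S.card).re = 0 := by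
    rw [hev, zero_div, Complex.zero_re]
  unfold mixDet at h1
  rw [Finset.sum_div, Complex.re_sum] at h1
  simp only [cw, ← Complex.ofReal_prod, mul_div_assoc, Complex.re_ofReal_mul] at h1
  obtain ⟨f, hf⟩ : ∃ f : V → Fin r, 0 < ∏ v, p v (f v) := by
    have : ∀ v, ∃ i, 0 < p v i := fun v => by
      by_contra h
      push Not at h
      linarith [(hp v).2, Finset.sum_nonpos fun i (_ : i ∈ Finset.univ) => h i]
    choose f hf using this
    exact ⟨f, Finset.prod_pos fun v _ => hf v⟩
  have hpos : 0 < ∑ g : V → Fin r, (∏ v, p v (g v)) *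
      ((block X g S fun _ => (z.re : ℂ)).det / (z.re : ℂ) ^ S.card).re :=
    Finset.sum_pos' (fun g _ => mul_nonneg (Finset.prod_nonneg fun v _ => (hp v).1 _)
      (det_block_ratio_pos hX hb hc g S hlt).le)
      ⟨f, Finset.mem_univ _, mul_pos hf (det_block_ratio_pos hX hb hc f S hlt)⟩
  linarith

end Vale.Agent.P078.MKS
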