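import Vale.Agent.P078.MKS.Moments
import Vale.Agent.P078.MKS.Root
import Vale.Agent.P078.MKS.Interlace

/-!
A polynomial averaged by the root measure seen from a vertex.
-/

namespace Vale.Agent.P078.MKS

open Finset

variable {V : Type} [Fintype V] [DecidableEq V] {r : ℕ}

/-- The average of `q` for the root measure at `k`. -/
noncomputable def qmom (X : Matrix V V ℂ) (p : V → Fin r → ℝ) (k : V) (q : Polynomial ℝ) : ℝ :=
  ∑ j ∈ range (q.natDegree + 1), q.coeff j * (mom X (cw p) k j).re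

lemma re_eval (q : Polynomial ℝ) {z : ℂ} (hz : z.im = 0) :
    ∑ j ∈ range (q.natDegree + 1), q.coeff j * (z ^ j).re = q.eval z.re := by
  rw [Polynomial.eval_eq_sum_range]
  refine sum_congr rfl fun j _ => ?_
  have e : z = (z.re : ℂ) := Complex.ext rfl (by simp [hz])
  conv_lhs => rw [e, ← Complex.ofReal_pow, Complex.ofReal_re]

/-- The root measure seen from a vertex is a probability measure on the real roots. -/
lemma qmom_avg {X : Matrix V V ℂ} {p : V → Fin r → ℝ} (hX : X.IsHermitian) (hp : IsProb p) {c : ℝ}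
    (hc : 0 ≤ c) (hb : OpBound X c) (k : V) :
    ∃ w : ℂ → ℝ, (∀ z, 0 ≤ w z) ∧ ∑ z ∈ (charMix X p univ).roots.toFinset, w z = 1 ∧
      ∀ q : Polynomial ℝ,
        qmom X p k q = ∑ z ∈ (charMix X p univ).roots.toFinset, w z * q.eval z.re := by
  obtain ⟨w, hw, hw1, hw2⟩ := partialFraction_ok V r X p hX hp k
  refine ⟨w, hw, hw1, fun q => ?_⟩
  have h := (moment_ok V r X p hp).2.1 k (fun z => (w z : ℂ)) hw2
  simp only [qmom, h, Complex.re_sum, mul_sum]
  rw [sum_comm]
  refine sum_congr rfl fun z hz => ?_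
  rw [← re_eval q ((root_ok V r X p hX hp c hc hb univ).2.2 z (Multiset.mem_toFinset.1 hz)).1,
    mul_sum]
  refine sum_congr rfl fun j _ => ?_
  rw [Complex.re_ofReal_mul]
  ring

lemma qmom_affine_le {X : Matrix V V ℂ} {p : V → Fin r → ℝ} (hX : X.IsHermitian) (hp : IsProb p)
    {c : ℝ} (hc : 0 ≤ c) (hb : OpBound X c) (k : V) (f g : Polynomial ℝ) (a b : ℝ)
    (h : ∀ z ∈ (charMix X p univ).roots, z.im = 0 → |z.re| ≤ c →
      f.eval z.re ≤ a + b * g.eval z.re) :
    qmom X p k f ≤ a + b * qmom X p k g := by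
  obtain ⟨w, hw, hw1, hw2⟩ := qmom_avg hX hp hc hb k
  rw [hw2 f, hw2 g, ← mul_one a, ← hw1, mul_sum, mul_sum, ← sum_add_distrib]
  refine sum_le_sum fun z hz => ?_
  have hz' := Multiset.mem_toFinset.1 hz
  obtain ⟨h1, h2⟩ := (root_ok V r X p hX hp c hc hb univ).2.2 z hz'
  have := mul_le_mul_of_nonneg_left (h z hz' h1 h2) (hw z)
  linarith

lemma qmom_le {X : Matrix V V ℂ} {p : V → Fin r → ℝ} (hX : X.IsHermitian) (hp : IsProb p) {c : ℝ}
    (hc : 0 ≤ c) (hb : OpBound X c) (k : V) (f : Polynomial ℝ) (a : ℝ)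
    (h : ∀ z ∈ (charMix X p univ).roots, z.im = 0 → |z.re| ≤ c → f.eval z.re ≤ a) :
    qmom X p k f ≤ a := by
  simpa using qmom_affine_le hX hp hc hb k f f a 0 fun z hz h1 h2 => by simpa using h z hz h1 h2

lemma qmom_ge {X : Matrix V V ℂ} {p : V → Fin r → ℝ} (hX : X.IsHermitian) (hp : IsProb p) {c : ℝ}
    (hc : 0 ≤ c) (hb : OpBound X c) (k : V) (f : Polynomial ℝ) (a : ℝ)
    (h : ∀ x : ℝ, |x| ≤ c → a ≤ f.eval x) : a ≤ qmom X p k f := by
  obtain ⟨w, hw, hw1, hw2⟩ := qmom_avg hX hp hc hb k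
  rw [hw2 f, ← mul_one a, ← hw1, mul_sum]
  refine sum_le_sum fun z hz => ?_
  have h2 := ((root_ok V r X p hX hp c hc hb univ).2.2 z (Multiset.mem_toFinset.1 hz)).2
  have := mul_le_mul_of_nonneg_left (h z.re h2) (hw z)
  linarith

lemma sum_qmom {X : Matrix V V ℂ} {p : V → Fin r → ℝ} (hX : X.IsHermitian) (hp : IsProb p) {c : ℝ}
    (hc : 0 ≤ c) (hb : OpBound X c) (q : Polynomial ℝ) :
    ∑ k, qmom X p k q = rootSum (fun x => q.eval x) (charMix X p univ) := by
  simp only [qmom]
  rw [sum_comm]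
  simp only [← mul_sum, ← Complex.re_sum, (moment_ok V r X p hp).1]
  rw [rootSum]
  have key : ∀ s : Multiset ℂ, (∀ z ∈ s, z.im = 0) →
      ∑ j ∈ range (q.natDegree + 1), q.coeff j * ((s.map fun z => z ^ j).sum).re =
        (s.map fun z => q.eval z.re).sum := by
    intro s hs
    induction s using Multiset.induction_on with
    | empty => simp
    | cons a s ih =>
      simp only [Multiset.map_cons, Multiset.sum_cons, Complex.add_re, mul_add, sum_add_distrib]
      rw [re_eval q (hs a (Multiset.mem_cons_self a s)),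
        ih fun z hz => hs z (Multiset.mem_cons_of_mem hz)]
  exact key _ fun z hz => ((root_ok V r X p hX hp c hc hb univ).2.2 z hz).1

/-- The average of `q` does not see the weights and the entries away from the vertex. -/
lemma qmom_local {W : Type} [Fintype W] [DecidableEq W] {X : Matrix V V ℂ} {p : V → Fin r → ℝ}
    (hp : IsProb p) (ι : W → V) (hι : Function.Injective ι) (k : W) (q : Polynomial ℝ) {n : ℕ}
    (hq : q.natDegree ≤ n) (h : reach X (ι k) n ⊆ Set.range ι) :
    qmom X p (ι k) q = qmom (X.submatrix ι ι) (p ∘ ι) k q := by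
  refine sum_congr rfl fun j hj => ?_
  have hjn : j ≤ n := by
    have := mem_range.1 hj
    omega
  rw [(moment_ok V r X p hp).2.2.1 W ι hι k j ((Moments.reach_mono X (ι k) hjn).trans h)]

end Vale.Agent.P078.MKS
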