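import Mathlib

/-!
Expected characteristic polynomials of random colourings (Marcus, Spielman, Srivastava), their
moments, and the smoothed indicator used for measurable paving.
-/

namespace Vale.Agent.P078.MKS

open Finset

variable {V : Type} [Fintype V] [DecidableEq V] {r : ℕ}

/-- The diagonal variables `y` minus the pinching of `X` by the colouring `f`, cut down to `S`
(identity outside `S`). -/
def block {R : Type} [CommRing R] (X : Matrix V V R) (f : V → Fin r) (S : Finset V) (y : V → R) :
    Matrix V V R :=
  Matrix.of fun a b => if a ∈ S ∧ b ∈ S then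
    (if a = b then y a else 0) - (if f a = f b then X a b else 0)
  else if a = b then 1 else 0

/-- The expectation of the determinant of `block` for independent colours with weights `p`. -/
def mixDet {R : Type} [CommRing R] (X : Matrix V V R) (p : V → Fin r → R) (S : Finset V)
    (y : V → R) : R :=
  ∑ f : V → Fin r, (∏ v, p v (f v)) * (block X f S y).det

/-- Every vertex carries a probability vector. -/
def IsProb (p : V → Fin r → ℝ) : Prop :=
  ∀ v, (∀ i, 0 ≤ p v i) ∧ ∑ i, p v i = 1

/-- Real weights as complex weights. -/
def cw (p : V → Fin r → ℝ) : V → Fin r → ℂ := fun v i => (p v i : ℂ)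

/-- The weights with vertex `k` given colour `s`. -/
def setColour (p : V → Fin r → ℝ) (k : V) (s : Fin r) : V → Fin r → ℝ :=
  Function.update p k (Pi.single s 1)

/-- The operator norm of `X` is at most `c`. -/
def OpBound (X : Matrix V V ℂ) (c : ℝ) : Prop :=
  ∀ v : V → ℂ, ∑ a, ‖X.mulVec v a‖ ^ 2 ≤ c ^ 2 * ∑ a, ‖v a‖ ^ 2

/-- The expected characteristic polynomial on the vertex set `S`. -/
noncomputable def charMix (X : Matrix V V ℂ) (p : V → Fin r → ℝ) (S : Finset V) :
    Polynomial ℂ :=
  mixDet (X.map Polynomial.C) (fun v i => Polynomial.C (cw p v i)) S fun _ => Polynomial.X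

/-- The reversed expected characteristic polynomial, as a power series. -/
noncomputable def revMix {R : Type} [CommRing R] (X : Matrix V V R) (p : V → Fin r → R)
    (S : Finset V) : PowerSeries R :=
  mixDet (X.map fun a => PowerSeries.C a * PowerSeries.X)
    (fun v i => PowerSeries.C (p v i)) S fun _ => 1

/-- The `j`th moment of the root measure seen from the vertex `k`. -/
noncomputable def mom {R : Type} [CommRing R] (X : Matrix V V R) (p : V → Fin r → R) (k : V)
    (j : ℕ) : R :=
  PowerSeries.coeff j
    (revMix X p (univ.erase k) * PowerSeries.invOfUnit (revMix X p univ) 1)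

/-- Vertices at graph distance at most `n` from `k` in the support of `X`. -/
def reach {R : Type} [Zero R] (X : Matrix V V R) (k : V) : ℕ → Set V
  | 0 => {k}
  | n + 1 => reach X k n ∪ {b | ∃ a ∈ reach X k n, X a b ≠ 0 ∨ X b a ≠ 0}

/-- A smoothed indicator of `(t, ∞)` of width `g`. -/
noncomputable def soft (t g x : ℝ) : ℝ :=
  1 / 2 + Real.arctan ((x - t) / g) / Real.pi

/-- The sum of a real function over the roots of a complex polynomial. -/
noncomputable def rootSum (e : ℝ → ℝ) (P : Polynomial ℂ) : ℝ :=
  (P.roots.map fun z => e z.re).sum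

/-- The bound on the roots for the uniform colouring coming from the barrier at `b`. -/
noncomputable def edge (lo α b : ℝ) (r : ℕ) : ℝ :=
  b - 1 / (((1 - α) / (b - lo) + (α - lo) / (b - 1)) / (1 - lo)) + b / r

end Vale.Agent.P078.MKS
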