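import Vale.Agent.P078.MKS.EdgeBase
import Vale.Agent.P078.MKS.Root

/-!
The barrier before merging: all copies of a vertex have distinct fixed colours.
-/

noncomputable section

namespace Vale.Agent.P078.MKS.Edge

open Finset
open scoped ComplexConjugate ComplexOrder Matrix

section Generic

variable {W : Type} [Fintype W] [DecidableEq W] {r : ℕ} {X : Matrix W W ℂ}

lemma block_eq_sub (X : Matrix W W ℂ) (f : W → Fin r) (T : Finset W) (y : W → ℂ) :
    block X f T y = Matrix.diagonal (fun a => if a ∈ T then y a else 1) - cut X f T := by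
  ext a b
  rw [block_apply, Matrix.sub_apply, Matrix.diagonal_apply]
  by_cases ha : a ∈ T <;> by_cases hb : b ∈ T <;> by_cases hab : a = b <;>
    simp [cut, ha, hb, hab]

omit [Fintype W] [DecidableEq W] in
lemma cut_isHermitian [DecidableEq W] (hX : X.IsHermitian) (f : W → Fin r) (T : Finset W) :
    (cut X f T).IsHermitian := by
  ext a b
  simp only [Matrix.conjTranspose_apply, cut, Matrix.of_apply, and_comm (a := b ∈ T),
    eq_comm (a := f b)]
  by_cases h : a ∈ T ∧ b ∈ T <;> by_cases h' : f a = f b <;> simp [h, h', hX.apply a b]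

lemma cut_form (X : Matrix W W ℂ) (f : W → Fin r) (T : Finset W) (v : W → ℂ) :
    star v ⬝ᵥ cut X f T *ᵥ v = star (fun a => if a ∈ T then v a else 0) ⬝ᵥ
      cut X f univ *ᵥ (fun a => if a ∈ T then v a else 0) := by
  simp only [dotProduct, Matrix.mulVec, Finset.mul_sum, Pi.star_apply]
  refine Finset.sum_congr rfl fun a _ => Finset.sum_congr rfl fun b _ => ?_
  by_cases ha : a ∈ T <;> by_cases hb : b ∈ T <;> simp [cut, ha, hb]

/-- A pinched matrix below one gives a positive determinant above one. -/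
lemma det_block_pos (hX : X.IsHermitian) (f : W → Fin r)
    (hq : ∀ v : W → ℂ, (star v ⬝ᵥ cut X f univ *ᵥ v).re ≤ ∑ a, ‖v a‖ ^ 2)
    (T : Finset W) (z : W → ℝ) (hz : ∀ a ∈ T, 1 < z a) :
    0 < (block X f T fun a => (z a : ℂ)).det.re := by
  have hM : (block X f T fun a => (z a : ℂ)).IsHermitian := by
    rw [block_eq_sub]
    refine (Matrix.isHermitian_diagonal_of_self_adjoint _ ?_).sub (cut_isHermitian hX f T)
    rw [isSelfAdjoint_iff]
    funext a
    simp only [Pi.star_apply]
    split_ifs <;> simp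
  refine (Complex.pos_iff.1 (Matrix.PosDef.det_pos
    (Matrix.PosDef.of_dotProduct_mulVec_pos hM fun v hv => ?_))).1
  refine Complex.pos_iff.2 ⟨?_, (hM.im_star_dotProduct_mulVec_self v).symm⟩
  set vT : W → ℂ := fun a => if a ∈ T then v a else 0 with hvT
  have h1 : (star v ⬝ᵥ cut X f T *ᵥ v).re ≤ ∑ a, ‖vT a‖ ^ 2 := by rw [cut_form]; exact hq vT
  have h2 : (star v ⬝ᵥ Matrix.diagonal (fun a => if a ∈ T then (z a : ℂ) else 1) *ᵥ v).re =
      ∑ a, (if a ∈ T then z a else 1) * ‖v a‖ ^ 2 := by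
    simp only [dotProduct, Complex.re_sum, Matrix.mulVec_diagonal, Pi.star_apply]
    refine Finset.sum_congr rfl fun a _ => ?_
    rw [← Complex.normSq_eq_norm_sq, mul_left_comm, ← starRingEnd_apply,
      ← Complex.normSq_eq_conj_mul_self]
    split_ifs <;> simp
  rw [block_eq_sub, Matrix.sub_mulVec, dotProduct_sub, Complex.sub_re, h2, sub_pos]
  refine h1.trans_lt (Finset.sum_lt_sum (fun a _ => ?_) ?_)
  · by_cases ha : a ∈ T
    · simp only [hvT, if_pos ha]
      exact le_mul_of_one_le_left (by positivity) (hz a ha).le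
    · simp [hvT, if_neg ha]
  · obtain ⟨a, ha⟩ := Function.ne_iff.1 hv
    have h0 : 0 < ‖v a‖ ^ 2 := by
      have : (0 : ℝ) < ‖v a‖ := norm_pos_iff.2 ha
      positivity
    refine ⟨a, Finset.mem_univ _, ?_⟩
    by_cases haT : a ∈ T
    · simp only [hvT, if_pos haT]
      exact lt_mul_of_one_lt_left h0 (hz a haT)
    · simp [hvT, if_neg haT, h0]

/-- The deleted ratio at a constant point is at most the chord bound. -/
lemma det_block_ratio (hX : X.IsHermitian) (f : W → Fin r) {lo α b : ℝ} (hlo : lo ≤ 0)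
    (hb : 1 < b)
    (hq : ∀ v : W → ℂ, lo * ∑ a, ‖v a‖ ^ 2 ≤ (star v ⬝ᵥ cut X f univ *ᵥ v).re ∧
      (star v ⬝ᵥ cut X f univ *ᵥ v).re ≤ ∑ a, ‖v a‖ ^ 2)
    {k : W} (hd : (X k k).re ≤ α) :
    (block X f (univ.erase k) fun _ => (b : ℂ)).det.re ≤
      ((1 - α) / (b - lo) + (α - lo) / (b - 1)) / (1 - lo) *
        (block X f univ fun _ => (b : ℂ)).det.re := by
  set M := block X f univ fun _ => (b : ℂ) with hM
  set B := cut X f univ with hB
  set D := M.det.re with hD
  set e : W → ℂ := Pi.single k 1 with he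
  set u : W → ℂ := M.adjugate *ᵥ e with hu
  have hD0 : 0 < D := det_block_pos hX f (fun v => (hq v).2) univ (fun _ => b) fun _ _ => hb
  have hdet : M.det = (D : ℂ) := by
    refine Complex.ext rfl ?_
    rw [Complex.ofReal_im, ← Complex.conj_eq_iff_im, hM, conj_det_block hX]
    simp
  have hN : u k = ((block X f (univ.erase k) fun _ => (b : ℂ)).det.re : ℂ) := by
    have h1 : u k = (block X f (univ.erase k) fun _ => (b : ℂ)).det := by
      rw [hu, he, Matrix.mulVec_single_one, Matrix.col_apply, Matrix.adjugate_apply]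
      refine det_congr_unit_row (k := k) (fun c hc => ?_) (fun c hc => ?_) ?_
        fun a c ha hc => ?_
      · simp [hc]
      · simp [block_apply, Ne.symm hc]
      · simp [block_apply]
      · simp [Matrix.updateRow_apply, ha, hc, hM, block_apply]
    refine h1.trans (Complex.ext rfl ?_)
    rw [Complex.ofReal_im, ← Complex.conj_eq_iff_im, conj_det_block hX]
    simp
  have hBu : B *ᵥ u = (b : ℂ) • u - (D : ℂ) • e := by
    have h1 : M *ᵥ u = (D : ℂ) • e := by
      rw [hu, Matrix.mulVec_mulVec, Matrix.mul_adjugate, hdet, Matrix.smul_mulVec, Matrix.one_mulVec]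
    have h2 : M *ᵥ u = (b : ℂ) • u - B *ᵥ u := by
      rw [hM, block_eq_sub, Matrix.sub_mulVec]
      congr 1
      funext a
      simp [Matrix.mulVec_diagonal]
    rw [← h1, h2, sub_sub_cancel]
  have hBH : B.IsHermitian := cut_isHermitian hX f univ
  have hsym : ∀ v w : W → ℂ, star v ⬝ᵥ B *ᵥ w = star (B *ᵥ v) ⬝ᵥ w := fun v w => by
    rw [Matrix.star_mulVec, hBH.eq, Matrix.dotProduct_mulVec]
  set N := (block X f (univ.erase k) fun _ => (b : ℂ)).det.re with hN'
  set d := (X k k).re with hd'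
  have hee : star e ⬝ᵥ e = 1 := by simp [he]
  have heu : star e ⬝ᵥ u = (N : ℂ) := by rw [← hN]; simp [he]
  have hue : star u ⬝ᵥ e = (N : ℂ) := by
    simp [he, hN, Complex.conj_ofReal]
  have heBe : star e ⬝ᵥ B *ᵥ e = (d : ℂ) := by
    rw [he, Matrix.mulVec_single_one, ← Pi.single_star, star_one, single_dotProduct, one_mul,
      Matrix.col_apply]
    refine Complex.ext (by simp [hB, cut, hd']) ?_
    simp only [hB, cut, Matrix.of_apply, Finset.mem_univ, and_self, if_true, Complex.ofReal_im]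
    exact Complex.conj_eq_iff_im.1 (hX.apply k k)
  have heBu : star e ⬝ᵥ B *ᵥ u = ((b * N - D : ℝ) : ℂ) := by
    rw [hBu, dotProduct_sub, dotProduct_smul, dotProduct_smul, heu, hee]
    simp
  have huBe : star u ⬝ᵥ B *ᵥ e = ((b * N - D : ℝ) : ℂ) := by
    rw [hsym, hBu, star_sub, sub_dotProduct, star_smul, star_smul, smul_dotProduct,
      smul_dotProduct, hue, hee]
    simp
  set c0 := (star u ⬝ᵥ u).re with hc0
  have hc1 : (star u ⬝ᵥ B *ᵥ u).re = b * c0 - D * N := by
    rw [hBu, dotProduct_sub, dotProduct_smul, dotProduct_smul, hue]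
    simp [hc0]
  have hc1' : (star (B *ᵥ u) ⬝ᵥ u).re = b * c0 - D * N := by rw [← hsym, hc1]
  have hc2 : (star (B *ᵥ u) ⬝ᵥ B *ᵥ u).re = b * (b * c0 - D * N) - D * (b * N - D) := by
    nth_rewrite 2 [hBu]
    rw [dotProduct_sub, dotProduct_smul, dotProduct_smul, ← hsym u e, huBe]
    simp [hc1']
  have hc3 : (star (B *ᵥ u) ⬝ᵥ B *ᵥ (B *ᵥ u)).re =
      b * (b * (b * c0 - D * N) - D * (b * N - D)) - D * (b * (b * N - D) - D * d) := by
    nth_rewrite 2 [hBu]
    rw [Matrix.mulVec_sub, Matrix.mulVec_smul, Matrix.mulVec_smul, dotProduct_sub, dotProduct_smul,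
      dotProduct_smul]
    have hBuBe : star (B *ᵥ u) ⬝ᵥ B *ᵥ e = ((b * (b * N - D) - D * d : ℝ) : ℂ) := by
      rw [hBu, star_sub, star_smul, star_smul, sub_dotProduct, smul_dotProduct, smul_dotProduct,
        huBe, heBe]
      simp
    rw [hBuBe]
    simp [hc2]
  have hc2' : (star u ⬝ᵥ B *ᵥ (B *ᵥ u)).re = b * (b * c0 - D * N) - D * (b * N - D) := by
    rw [hsym, hc2]
  have hnorm : ∀ v : W → ℂ, ∑ a, ‖v a‖ ^ 2 = (star v ⬝ᵥ v).re := fun v => by
    simp only [dotProduct, Complex.re_sum, Pi.star_apply]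
    refine Finset.sum_congr rfl fun a _ => ?_
    rw [← Complex.normSq_eq_norm_sq, ← starRingEnd_apply, ← Complex.normSq_eq_conj_mul_self,
      Complex.ofReal_re]
  have q1 := (hq (u - B *ᵥ u)).1
  have q2 := (hq (B *ᵥ u - (lo : ℂ) • u)).2
  rw [hnorm] at q1 q2
  simp only [Matrix.mulVec_sub, Matrix.mulVec_smul, star_sub, star_smul, sub_dotProduct,
    dotProduct_sub, smul_dotProduct, dotProduct_smul, Complex.sub_re, smul_eq_mul, ← hc0,
    Complex.star_def, Complex.conj_ofReal, Complex.re_ofReal_mul, hc1, hc1', hc2, hc2', hc3]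
    at q1 q2
  have hlo1 : 0 < 1 - lo := by linarith
  have hb1 : 0 < b - 1 := by linarith
  have hblo : 0 < b - lo := by linarith
  rw [div_add_div _ _ hblo.ne' hb1.ne', div_div, div_mul_eq_mul_div, le_div_iff₀ (by positivity)]
  have hmono : D * ((1 - d) * (b - 1) + (b - lo) * (d - lo)) ≤
      D * ((1 - α) * (b - 1) + (b - lo) * (α - lo)) := by
    refine mul_le_mul_of_nonneg_left ?_ hD0.le
    nlinarith [mul_nonneg hlo1.le (sub_nonneg.2 hd)]
  refine le_of_mul_le_mul_left ?_ hD0
  have i1 := mul_le_mul_of_nonneg_left q1 hblo.le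
  have i2 := mul_le_mul_of_nonneg_left q2 hb1.le
  have hm := mul_le_mul_of_nonneg_left hmono hD0.le
  nlinarith [i1, i2, hm]

end Generic

end Vale.Agent.P078.MKS.Edge
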