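import Vale.Agent.P078.MKS.EdgeExchange
import Vale.Agent.P078.MKS.EdgeStart

/-!
The root bound of Marcus, Spielman and Srivastava for the uniform colouring, by merging the `r`
copies of one vertex at a time and moving the barrier.
-/

noncomputable section

namespace Vale.Agent.P078.MKS.Edge

open Finset
open scoped ComplexConjugate Matrix

variable {V : Type} [Fintype V] [DecidableEq V] {r : ℕ}

/-- `r` copies of every vertex. -/
def copies (X : Matrix V V ℂ) (r : ℕ) : Matrix (V × Fin r) (V × Fin r) ℂ :=
  X.submatrix Prod.fst Prod.fst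

/-- Merged vertices have a uniform colour, the other copies their own. -/
def weights (U : Finset V) (o : Fin r) : V × Fin r → Fin r → ℝ :=
  fun a => if a.1 ∈ U ∧ a.2 = o then fun _ => (1 / r : ℝ) else Pi.single a.2 1

/-- One copy of each merged vertex, all copies of the others. -/
def supp (U : Finset V) (o : Fin r) : Finset (V × Fin r) := {a | a.1 ∈ U → a.2 = o}

/-- The barrier after merging `U`. -/
def Inv (X : Matrix V V ℂ) (U : Finset V) (o : Fin r) (Φ b e : ℝ) (y : V × Fin r → ℝ) : Prop :=
  (∀ a, a.1 ∉ U → y a = b) ∧ (∀ a, a.1 ∈ U → a.2 = o → y a ≤ e) ∧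
    Above (copies X r) (weights U o) (supp U o) y ∧
    ∀ c : V × Fin r, c.1 ∉ U → F (copies X r) (weights U o) ((supp U o).erase c) y ≤
      Φ * F (copies X r) (weights U o) (supp U o) y

omit [Fintype V] in
lemma isProb_weights (U : Finset V) {o : Fin r} (hr : 0 < r) : IsProb (weights U o) := by
  intro a
  unfold weights
  split_ifs with h
  · refine ⟨fun i => by positivity, ?_⟩
    simp [Finset.card_univ, hr.ne']
  · refine ⟨fun i => ?_, by simp⟩
    by_cases hi : i = a.2 <;> simp [hi]

omit [Fintype V] [DecidableEq V] in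
lemma isHermitian_copies {X : Matrix V V ℂ} (hX : X.IsHermitian) : (copies X r).IsHermitian :=
  hX.submatrix _

/-- The pinching of the copies by their own colours. -/
lemma copies_form (X : Matrix V V ℂ) (v : V × Fin r → ℂ) :
    star v ⬝ᵥ cut (copies X r) Prod.snd univ *ᵥ v =
      ∑ i, star (fun a => v (a, i)) ⬝ᵥ X *ᵥ (fun a => v (a, i)) := by
  simp only [dotProduct, Matrix.mulVec, Fintype.sum_prod_type, Pi.star_apply]
  rw [Finset.sum_comm]
  refine Finset.sum_congr rfl fun i _ => Finset.sum_congr rfl fun a _ => ?_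
  congr 1
  refine Finset.sum_congr rfl fun b _ => ?_
  rw [Finset.sum_eq_single i (fun j _ hj => by simp [cut, Ne.symm hj]) (by simp)]
  simp [cut, copies]

lemma copies_bound {X : Matrix V V ℂ} {lo : ℝ}
    (hq : ∀ v : V → ℂ, lo * ∑ a, ‖v a‖ ^ 2 ≤ (star v ⬝ᵥ X.mulVec v).re ∧
      (star v ⬝ᵥ X.mulVec v).re ≤ ∑ a, ‖v a‖ ^ 2) (v : V × Fin r → ℂ) :
    lo * ∑ a, ‖v a‖ ^ 2 ≤ (star v ⬝ᵥ cut (copies X r) Prod.snd univ *ᵥ v).re ∧
      (star v ⬝ᵥ cut (copies X r) Prod.snd univ *ᵥ v).re ≤ ∑ a, ‖v a‖ ^ 2 := by
  rw [copies_form, Complex.re_sum, Fintype.sum_prod_type_right, Finset.mul_sum]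
  exact ⟨Finset.sum_le_sum fun i _ => (hq _).1, Finset.sum_le_sum fun i _ => (hq _).2⟩

/-- The barrier before merging. -/
lemma inv_empty {X : Matrix V V ℂ} {lo α b e : ℝ} (o : Fin r) (hX : X.IsHermitian) (hlo : lo ≤ 0)
    (hb : 1 < b)
    (hq : ∀ v : V → ℂ, lo * ∑ a, ‖v a‖ ^ 2 ≤ (star v ⬝ᵥ X.mulVec v).re ∧
      (star v ⬝ᵥ X.mulVec v).re ≤ ∑ a, ‖v a‖ ^ 2)
    (hd : ∀ a, (X a a).re ≤ α) :
    Inv X ∅ o (((1 - α) / (b - lo) + (α - lo) / (b - 1)) / (1 - lo)) b e fun _ => b := by
  have hw : cw (weights (∅ : Finset V) o) = fun a => Pi.single a.2 (1 : ℂ) := by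
    funext a i
    by_cases hi : i = a.2 <;> simp [cw, weights, hi]
  have hs : supp (∅ : Finset V) o = univ := by ext a; simp [supp]
  refine ⟨fun _ _ => rfl, fun a ha => absurd ha (Finset.notMem_empty _), ?_, fun c _ => ?_⟩
  · intro T _ z hz
    rw [F, hw, mixDet_single]
    exact det_block_pos (isHermitian_copies hX) _ (fun v => (copies_bound hq v).2) T z
      fun a ha => hb.trans_le (hz a ha)
  · rw [F, F, hw, hs, mixDet_single, mixDet_single]
    exact det_block_ratio (isHermitian_copies hX) _ hlo hb (copies_bound hq) (hd c.1)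

/-- Copies with their own colours do not interact. -/
lemma F_distinct (X : Matrix V V ℂ) (hX : X.IsHermitian) {U : Finset V} {o : Fin r} (hr : 0 < r)
    {k : V} (hk : k ∉ U) {T : Finset (V × Fin r)} (hT : ∀ a ∈ T, a.1 = k) (t : ℝ) :
    F (copies X r) (weights U o) T (fun _ => t) = (t - (X k k).re) ^ T.card := by
  have hXk : X k k = ((X k k).re : ℂ) :=
    Complex.ext rfl (Complex.conj_eq_iff_im.1 (hX.apply k k))
  have key : ∀ f : V × Fin r → Fin r, (∏ a, cw (weights U o) a (f a)) *
      (block (copies X r) f T fun _ => (t : ℂ)).det =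
      (∏ a, cw (weights U o) a (f a)) * ((t - (X k k).re : ℝ) : ℂ) ^ T.card := by
    intro f
    by_cases hf : ∀ a ∈ T, f a = a.2
    · congr 1
      have e : block (copies X r) f T (fun _ => (t : ℂ)) =
          Matrix.diagonal fun a => if a ∈ T then ((t - (X k k).re : ℝ) : ℂ) else 1 := by
        ext a c
        rw [block_apply, Matrix.diagonal_apply]
        by_cases hac : a = c
        · subst hac
          by_cases ha : a ∈ T
          · simp only [ha, and_self, if_true, copies, Matrix.submatrix_apply, hT a ha]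
            rw [hXk]; simp
          · simp [ha]
        · rw [if_neg hac, if_neg hac]
          by_cases h : a ∈ T ∧ c ∈ T
          · rw [if_pos h, if_neg hac, if_neg, sub_zero]
            rw [hf a h.1, hf c h.2]
            exact fun h2 => hac (Prod.ext ((hT a h.1).trans (hT c h.2).symm) h2)
          · rw [if_neg h]; simp [hac]
      rw [e, Matrix.det_diagonal, Fintype.prod_ite_mem, Finset.prod_const]
    · push Not at hf
      obtain ⟨a, ha, hfa⟩ := hf
      have hU : a.1 ∉ U := by rw [hT a ha]; exact hk
      rw [Finset.prod_eq_zero (Finset.mem_univ a) (by simp [cw, weights, hU, hfa]), zero_mul,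
        zero_mul]
  rw [F, mixDet, Finset.sum_congr rfl fun f _ => key f, ← Finset.sum_mul, ← Fintype.prod_sum,
    Finset.prod_eq_one fun a _ => sum_cw (isProb_weights U hr) a, one_mul, ← Complex.ofReal_pow,
    Complex.ofReal_re]

/-- The expected determinant after merging `k`, in the variables before. -/
lemma F_merge {X : Matrix V V ℂ} {U : Finset V} {o : Fin r} (hr : 0 < r) {k : V} (hk : k ∉ U)
    {T : Finset (V × Fin r)} (ho : (k, o) ∈ T) (hT : ∀ i, (k, i) ∈ T → i = o)
    (z : V × Fin r → ℝ) (b : ℝ) :
    r * F (copies X r) (weights (insert k U) o) T z =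
      r * (z (k, o) - b) * F (copies X r) (weights U o) (T.erase (k, o)) z +
        ∑ i, F (copies X r) (weights U o) (insert (k, i) (T.erase (k, o)))
          (Function.update z (k, i) b) := by
  classical
  have hp := isProb_weights (r := r) U (o := o) hr
  have hp' := isProb_weights (r := r) (insert k U) (o := o) hr
  have hterm : ∀ i, mixDet (copies X r) (point (cw (weights (insert k U) o)) (k, o) i) T
      (fun a => (z a : ℂ)) = mixDet (copies X r) (cw (weights U o))
        (insert (k, i) (T.erase (k, o))) fun a => ((Function.update z (k, i) (z (k, o)) a : ℝ) : ℂ) := by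
    intro i
    set e : Equiv.Perm (V × Fin r) := Equiv.swap (k, o) (k, i) with he
    have hfst : Prod.fst ∘ e = (Prod.fst : V × Fin r → V) := by
      funext a
      rcases eq_or_ne a (k, o) with rfl | h1
      · simp [he]
      rcases eq_or_ne a (k, i) with rfl | h2
      · simp [he]
      · simp [he, Equiv.swap_apply_of_ne_of_ne h1 h2]
    have hq : point (cw (weights (insert k U) o)) (k, o) i =
        cw (Function.update (weights U o) (k, o) (Pi.single i 1)) := by
      rw [← cw_setColour]
      unfold cw setColour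
      funext a s
      by_cases ha : a = (k, o)
      · subst ha; simp
      · have hne : ¬(a.1 = k ∧ a.2 = o) := fun h => ha (Prod.ext h.1 h.2)
        have hiff : (a.1 ∈ insert k U ∧ a.2 = o) ↔ (a.1 ∈ U ∧ a.2 = o) := by
          rw [Finset.mem_insert]; tauto
        simp only [Function.update_of_ne ha, weights, hiff]
    have hset : T.map e.symm.toEmbedding = insert (k, i) (T.erase (k, o)) := by
      ext a
      rw [Finset.mem_map_equiv, Equiv.symm_symm]
      rcases eq_or_ne a (k, i) with rfl | h2
      · simp [he, ho]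
      rcases eq_or_ne a (k, o) with rfl | h1
      · have hio : (k, i) ∉ T := fun h => h2 (by rw [hT i h])
        simp [he, hio, h2]
      · simp [he, Equiv.swap_apply_of_ne_of_ne h1 h2, h1, h2]
    rw [hq, ← Moments.mixDet_equiv e, hset,
      show (copies X r).submatrix e e = copies X r by
        rw [copies, Matrix.submatrix_submatrix, hfst],
      show (fun a => cw (Function.update (weights U o) (k, o) (Pi.single i 1)) (e a)) =
        cw (fun a => Function.update (weights U o) (k, o) (Pi.single i 1) (e a)) from rfl,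
      mixDet_congr_y _ _ (y' := fun a => ((Function.update z (k, i) (z (k, o)) a : ℝ) : ℂ))
        fun a ha => by
          rcases eq_or_ne a (k, i) with rfl | h2
          · simp [he]
          · have h1 : a ≠ (k, o) :=
              Finset.ne_of_mem_erase ((Finset.mem_insert.1 ha).resolve_left h2)
            simp [he, Equiv.swap_apply_of_ne_of_ne h1 h2, h2]]
    have hq' : IsProb (Function.update (weights U o) (k, o) (Pi.single i 1)) :=
      isProb_setColour hp (k, o) i
    rcases eq_or_ne i o with rfl | hio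
    · congr 2
      funext a
      have : e = 1 := by rw [he, Equiv.swap_self]; rfl
      rw [this, Equiv.Perm.one_apply]
      rcases eq_or_ne a (k, i) with rfl | h
      · simp [weights, hk]
      · simp [h]
    · refine mixDet_congr_p (fun a => hq' (e a)) hp (v := (k, o))
        (by simp [Ne.symm hio]) (fun a ha => ?_) _ _
      rcases eq_or_ne a (k, i) with rfl | h2
      · simp [he, weights, hk]
      · simp [he, Equiv.swap_apply_of_ne_of_ne ha h2, ha]
  have h1 : F (copies X r) (weights (insert k U) o) T z = ∑ i, (1 / r : ℝ) *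
      F (copies X r) (weights U o) (insert (k, i) (T.erase (k, o)))
        (Function.update z (k, i) (z (k, o))) := by
    rw [F, mixDet_split _ _ (k, o), Complex.re_sum]
    refine Finset.sum_congr rfl fun i _ => ?_
    rw [hterm, F, ← Complex.re_ofReal_mul]
    simp [cw, weights]
  have h2 : ∀ i, F (copies X r) (weights U o) (insert (k, i) (T.erase (k, o)))
      (Function.update z (k, i) (z (k, o))) =
      (z (k, o) - b) * F (copies X r) (weights U o) (T.erase (k, o)) z +
        F (copies X r) (weights U o) (insert (k, i) (T.erase (k, o)))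
          (Function.update z (k, i) b) := fun i => by
    have hi : (k, i) ∉ T.erase (k, o) := fun h => by
      obtain ⟨h1, h2⟩ := Finset.mem_erase.1 h
      exact h1 (by rw [hT i h2])
    rw [F_update (Finset.mem_insert_self _ _), F_update (Finset.mem_insert_self _ _),
      Finset.erase_insert hi]
    ring
  have hr' : (r : ℝ) ≠ 0 := by exact_mod_cast hr.ne'
  rw [h1, ← Finset.mul_sum, ← mul_assoc, mul_one_div, div_self hr', one_mul,
    Finset.sum_congr rfl fun i _ => h2 i, Finset.sum_add_distrib, Finset.sum_const,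
    Finset.card_univ, Fintype.card_fin, nsmul_eq_mul, mul_assoc]

/-- Merging one more vertex. -/
lemma inv_insert {X : Matrix V V ℂ} {U : Finset V} {o : Fin r} {Φ b e : ℝ} {y : V × Fin r → ℝ}
    (hr : 0 < r) (hX : X.IsHermitian) (hd : ∀ a, 0 ≤ (X a a).re) (hb : 0 < b) (hΦ : 0 < Φ)
    (he : b - 1 / Φ + b / r ≤ e) {k : V} (hk : k ∉ U) (h : Inv X U o Φ b e y) :
    ∃ y', Inv X (insert k U) o Φ b e y' := by
  classical
  obtain ⟨hyb, hye, hA, hφ⟩ := h
  set X' := copies X r with hX'def
  set p := weights U o with hpdef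
  set p' := weights (insert k U) o with hp'def
  have hX' : X'.IsHermitian := isHermitian_copies hX
  have hp : IsProb p := isProb_weights U hr
  have hp' : IsProb p' := isProb_weights _ hr
  set K : Finset (V × Fin r) := univ.image fun i => (k, i) with hK
  set S := supp U o with hS
  set S' := supp (insert k U) o with hS'
  set R := S'.erase (k, o) with hR
  have hmemK : ∀ a, a ∈ K ↔ a.1 = k := fun a =>
    ⟨fun h => by obtain ⟨i, -, rfl⟩ := Finset.mem_image.1 h; rfl,
      fun h => Finset.mem_image.2 ⟨a.2, Finset.mem_univ _, Prod.ext h.symm rfl⟩⟩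
  have hmemR : ∀ a, a ∈ R ↔ a ∈ S ∧ a.1 ≠ k := fun a => by
    simp only [hR, hS', hS, supp, Finset.mem_erase, Finset.mem_filter, Finset.mem_univ, true_and,
      Finset.mem_insert]
    constructor
    · rintro ⟨h1, h2⟩
      exact ⟨fun hU => h2 (Or.inr hU), fun hak => h1 (Prod.ext hak (h2 (Or.inl hak)))⟩
    · rintro ⟨h1, h2⟩
      exact ⟨fun he => h2 (by rw [he]), fun h => h1 (h.resolve_left h2)⟩
  have hRK : R ∪ K = S := by
    ext a
    rw [Finset.mem_union, hmemR, hmemK]
    constructor
    · rintro (h | h)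
      · exact h.1
      · exact Finset.mem_filter.2 ⟨Finset.mem_univ _, fun hU => absurd (h ▸ hU) hk⟩
    · exact fun h => (em (a.1 = k)).symm.imp (fun h' => ⟨h, h'⟩) id
  have hd' : Disjoint R K :=
    Finset.disjoint_left.2 fun a ha hb => ((hmemR a).1 ha).2 ((hmemK a).1 hb)
  have hyk : ∀ a ∈ K, y a = b := fun a ha => hyb a (by rw [(hmemK a).1 ha]; exact hk)
  have hsumK : ∀ g : V × Fin r → ℝ, ∑ a ∈ K, g a = ∑ i, g (k, i) := fun g =>
    Finset.sum_image fun i _ j _ hij => (Prod.ext_iff.1 hij).2
  set A := F X' p R y with hAdef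
  have hA0 : 0 < A := hA.pos (hRK ▸ Finset.subset_union_left)
  have hS0 : 0 < F X' p S y := hA.pos subset_rfl
  set x : Fin r → ℝ := fun i => F X' p (insert (k, i) R) y / A with hx
  have hinsub : ∀ i, insert (k, i) R ⊆ S := fun i => by
    rw [← hRK]
    exact Finset.insert_subset (Finset.mem_union_right _ ((hmemK _).2 rfl))
      Finset.subset_union_left
  have hnR : ∀ i, (k, i) ∉ R := fun i h => ((hmemR _).1 h).2 rfl
  have hxΦ : ∀ i, 1 / Φ ≤ x i := fun i => by
    have hm := ratio_mono hX' hp hA (hinsub i) (Finset.mem_insert_self _ _) (z := y)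
      fun _ _ => le_rfl
    rw [Finset.erase_insert (hnR i)] at hm
    refine le_trans ?_ hm
    rw [div_le_div_iff₀ hΦ (hA.pos (Finset.erase_subset _ _)), one_mul, mul_comm]
    exact hφ (k, i) hk
  have hr' : (0 : ℝ) < r := by exact_mod_cast hr
  set y' := Function.update y (k, o) (b - (∑ i, x i) / r + b / r) with hy'
  have hyo : y' (k, o) = b - (∑ i, x i) / r + b / r := Function.update_self _ _ _
  have hy'e : y' (k, o) ≤ e := by
    rw [hyo]
    refine le_trans ?_ he
    have : (r : ℝ) * (1 / Φ) ≤ ∑ i, x i := by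
      have := Finset.sum_le_sum (s := univ) fun i _ => hxΦ i
      simpa using this
    have : 1 / Φ ≤ (∑ i, x i) / r := by rw [le_div_iff₀ hr']; linarith
    linarith
  have hy'ne : ∀ a ∈ R, y' a = y a := fun a ha =>
    Function.update_of_ne (fun he : a = (k, o) => hnR o (he ▸ ha)) _ _
  have hoS' : (k, o) ∈ S' := by simp [hS', supp]
  have hS'i : ∀ i, (k, i) ∈ S' → i = o := fun i hi => by
    simpa [hS', supp] using hi
  have hsub : ∀ T ⊆ S', (k, o) ∉ T → T ⊆ R := fun T hT hn a ha =>
    Finset.mem_erase.2 ⟨fun he => hn (he ▸ ha), hT ha⟩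
  have hsame : ∀ T ⊆ R, ∀ z, F X' p' T z = F X' p T z := fun T hT z => by
    unfold F
    rw [mixDet_congr_p hp' hp (v := (k, o)) (fun h => hnR o (hT h)) fun a ha => ?_]
    have hne : ¬(a.1 = k ∧ a.2 = o) := fun h => ha (Prod.ext h.1 h.2)
    simp only [hp'def, hpdef, weights, Finset.mem_insert]
    refine if_congr ?_ rfl rfl
    tauto
  have habove : Above X' p' S' y' := by
    intro T hT z hz
    by_cases ho : (k, o) ∈ T
    · set T₀ := T.erase (k, o) with hT₀
      have hT0 : T₀ ⊆ R := fun a ha =>
        Finset.mem_erase.2 ⟨Finset.ne_of_mem_erase ha, hT (Finset.mem_of_mem_erase ha)⟩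
      have hz0 : ∀ a ∈ T₀, y a ≤ z a := fun a ha => by
        rw [← hy'ne a (hT0 ha)]; exact hz a (Finset.mem_of_mem_erase ha)
      have hAT : 0 < F X' p T₀ z := hA T₀ (hT0.trans (hRK ▸ Finset.subset_union_left)) z hz0
      have hi : ∀ i, x i * F X' p T₀ z ≤ F X' p (insert (k, i) T₀) (Function.update z (k, i) b) := by
        intro i
        have hzi : ∀ a ∈ insert (k, i) T₀, y a ≤ Function.update z (k, i) b a := fun a ha => by
          rcases eq_or_ne a (k, i) with rfl | h2
          · rw [Function.update_self, hyk _ ((hmemK _).2 rfl)]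
          · rw [Function.update_of_ne h2]; exact hz0 a ((Finset.mem_insert.1 ha).resolve_left h2)
        have hm := ratio_mono hX' hp (hA.mono (hinsub i)) (Finset.insert_subset_insert _ hT0)
          (Finset.mem_insert_self _ _) hzi
        rw [Finset.erase_insert (hnR i), Finset.erase_insert fun h => hnR i (hT0 h),
          F_update_notMem fun h => hnR i (hT0 h)] at hm
        rwa [le_div_iff₀ hAT] at hm
      have hm := F_merge (X := X) hr hk ho (fun i hi => hS'i i (hT hi)) z b
      have h1 : (∑ i, x i) * F X' p T₀ z ≤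
          ∑ i, F X' p (insert (k, i) T₀) (Function.update z (k, i) b) := by
        rw [Finset.sum_mul]; exact Finset.sum_le_sum fun i _ => hi i
      have h2 : b - (∑ i, x i) ≤ r * (z (k, o) - b) := by
        have := mul_le_mul_of_nonneg_left (hz _ ho) hr'.le
        rw [hyo, mul_add, mul_sub, mul_div_cancel₀ _ hr'.ne', mul_div_cancel₀ _ hr'.ne'] at this
        linarith
      refine pos_of_mul_pos_right ?_ hr'.le
      rw [hm]
      have h3 := mul_le_mul_of_nonneg_right h2 hAT.le
      have h4 := mul_pos hb hAT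
      simp only [← hT₀, ← hX'def, ← hpdef]
      nlinarith
    · rw [hsame T (hsub T hT ho)]
      exact hA T ((hsub T hT ho).trans (hRK ▸ Finset.subset_union_left)) z fun a ha => by
        rw [← hy'ne a (hsub T hT ho ha)]; exact hz a ha
  refine ⟨y', fun a ha => ?_, fun a ha hao => ?_, habove, fun c hc => ?_⟩
  · rw [Finset.mem_insert, not_or] at ha
    rw [hy', Function.update_of_ne (fun he => ha.1 (by rw [he])), hyb a ha.2]
  · rcases eq_or_ne a (k, o) with rfl | h
    · exact hy'e
    · rw [hy', Function.update_of_ne h]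
      refine hye a ((Finset.mem_insert.1 ha).resolve_left fun hak => h ?_) hao
      exact Prod.ext hak hao
  · rw [Finset.mem_insert, not_or] at hc
    have hcR : c ∈ R := (hmemR c).2 ⟨Finset.mem_filter.2 ⟨Finset.mem_univ _, fun h => absurd h hc.2⟩,
      hc.1⟩
    have hcne : c ≠ (k, o) := fun he => hc.1 (by rw [he])
    set Ac := F X' p (R.erase c) y with hAc
    have hupd : ∀ (T : Finset (V × Fin r)) (i : Fin r), T ⊆ R →
        F X' p (insert (k, i) T) (Function.update y' (k, i) b) = F X' p (insert (k, i) T) y :=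
      fun T i hT => F_congr fun a ha => by
        rcases eq_or_ne a (k, i) with rfl | h2
        · rw [Function.update_self, hyk _ ((hmemK _).2 rfl)]
        · rw [Function.update_of_ne h2, hy'ne a (hT ((Finset.mem_insert.1 ha).resolve_left h2))]
    have hm1 := F_merge (X := X) hr hk hoS' hS'i y' b
    rw [← hR, F_congr (S := R) hy'ne, Finset.sum_congr rfl fun i _ => hupd R i subset_rfl] at hm1
    have hm2 := F_merge (X := X) hr hk (Finset.mem_erase.2 ⟨hcne.symm, hoS'⟩)
      (fun i hi => hS'i i (Finset.mem_of_mem_erase hi)) y' b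
    rw [Finset.erase_right_comm, ← hR,
      F_congr (y' := y) fun a ha => hy'ne a (Finset.mem_of_mem_erase ha),
      Finset.sum_congr rfl fun i _ => hupd _ i (Finset.erase_subset _ _)] at hm2
    have hex := exchange hX' hp hd' ⟨(k, o), (hmemK _).2 rfl⟩ hyk (hRK ▸ hA)
      (fun t ht T hT => by
        rw [F_distinct X hX hr hk (fun a ha => (hmemK a).1 (hT ha)), ← mul_pow, neg_one_mul,
          neg_sub]
        exact pow_pos (by linarith [hd k]) _) hcR
    rw [hsumK, hsumK, hRK] at hex
    have hA' : F X' p' S' y' * r = A * b := by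
      rw [mul_comm, hm1, hyo, ← hAdef]
      have : ∑ i, F X' p (insert (k, i) R) y = A * ∑ i, x i := by
        rw [Finset.mul_sum]
        exact Finset.sum_congr rfl fun i _ => (mul_div_cancel₀ _ hA0.ne').symm
      rw [this]
      field_simp
      ring
    have hpos' : 0 < F X' p' S' y' := habove.pos subset_rfl
    have hG := hφ c hc.2
    show F X' p' (S'.erase c) y' ≤ Φ * F X' p' S' y'
    have hc' : (F X' p' (S'.erase c) y' * r) * A =
        A * Ac * b + (A * (∑ i, F X' p (insert (k, i) (R.erase c)) y) -
          Ac * ∑ i, F X' p (insert (k, i) R) y) := by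
      rw [mul_comm (F X' p' (S'.erase c) y'), hm2, hyo, ← hAc]
      have : ∑ i, F X' p (insert (k, i) R) y = A * ∑ i, x i := by
        rw [Finset.mul_sum]
        exact Finset.sum_congr rfl fun i _ => (mul_div_cancel₀ _ hA0.ne').symm
      rw [this]
      field_simp
      ring
    refine le_of_mul_le_mul_right ?_ (mul_pos (mul_pos hS0 hr') hA0)
    calc F X' p' (S'.erase c) y' * (F X' p S y * r * A)
        = (A * Ac * b + (A * (∑ i, F X' p (insert (k, i) (R.erase c)) y) -
          Ac * ∑ i, F X' p (insert (k, i) R) y)) * F X' p S y := by rw [← hc']; ring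
      _ ≤ b * A * A * F X' p (S.erase c) y := by linarith [hex]
      _ ≤ b * A * A * (Φ * F X' p S y) := mul_le_mul_of_nonneg_left hG (by positivity)
      _ = Φ * F X' p' S' y' * (F X' p S y * r * A) := by
        rw [show Φ * F X' p' S' y' * (F X' p S y * r * A) =
          Φ * (F X' p' S' y' * r) * (F X' p S y * A) by ring, hA']
        ring

/-- The uniform colouring seen on one copy of each vertex. -/
lemma mixDet_slice (X : Matrix V V ℂ) {o : Fin r} (hr : 0 < r) (z : ℂ) :
    mixDet (copies X r) (cw (weights univ o)) (supp univ o) (fun _ => z) =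
      mixDet X (cw fun _ (_ : Fin r) => (1 / r : ℝ)) univ fun _ => z := by
  classical
  set X₀ : Matrix (V × Fin r) (V × Fin r) ℂ :=
    Matrix.of fun a c => if a.2 = o ∧ c.2 = o then copies X r a c else 0 with hX₀
  have h0 : mixDet (copies X r) (cw (weights univ o)) (supp univ o) (fun _ => z) =
      mixDet X₀ (cw (weights univ o)) (supp univ o) fun _ => z := by
    refine Finset.sum_congr rfl fun f _ => ?_
    congr 2
    ext a c
    rw [block_apply, block_apply]
    by_cases h : a ∈ supp univ o ∧ c ∈ supp univ o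
    · have h1 : a.2 = o ∧ c.2 = o := by simpa [supp] using h
      simp [if_pos h, hX₀, h1]
    · rw [if_neg h, if_neg h]
  let E : V ⊕ {a : V × Fin r // ¬ a.2 = o} ≃ V × Fin r :=
    (Equiv.sumCongr ⟨fun v => ⟨(v, o), rfl⟩, fun a => a.1.1, fun _ => rfl,
        fun a => Subtype.ext (Prod.ext rfl a.2.symm)⟩ (Equiv.refl _)).trans
      (Equiv.sumCompl fun a : V × Fin r => a.2 = o)
  have hl : ∀ v, E (.inl v) = (v, o) := fun v => rfl
  have hri : ∀ a, E (.inr a) = a.1 := fun a => rfl
  rw [h0, ← Moments.mixDet_equiv E,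
    Moments.mixDet_sum _ (fun v a => by simp [hX₀, hl, hri, a.2])
      (fun v a => by simp [hX₀, hl, hri, a.2])]
  have e1 : ((supp univ o).map E.symm.toEmbedding).toLeft = univ := by
    ext v; simp [Finset.mem_map_equiv, hl, supp]
  have e2 : ((supp univ o).map E.symm.toEmbedding).toRight = ∅ := by
    ext a; simp [Finset.mem_map_equiv, hri, supp, a.2]
  rw [e1, e2]
  have hR1 : ∀ (X₁ : Matrix {a : V × Fin r // ¬ a.2 = o} {a : V × Fin r // ¬ a.2 = o} ℂ)
      (y₁ : {a : V × Fin r // ¬ a.2 = o} → ℂ), mixDet X₁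
      (fun a => cw (weights univ o) (E (.inr a))) ∅ y₁ = 1 := fun X₁ y₁ => by
    have e : ∀ f : {a : V × Fin r // ¬ a.2 = o} → Fin r, block X₁ f ∅ y₁ = 1 := fun f => by
      ext a c; simp [block_apply, Matrix.one_apply]
    simp only [mixDet, e, Matrix.det_one, mul_one, ← Fintype.prod_sum]
    exact Finset.prod_eq_one fun a _ => sum_cw (isProb_weights univ hr) _
  rw [hR1, mul_one]
  congr 1
  · ext v w; simp [hX₀, hl, copies]
  · funext v i; simp [cw, weights, hl]

theorem edge_ok : EdgeStatement := by
  intro V _ _ r X lo α b hr hX hlo hα0 hα1 hb hq hd z hz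
  classical
  set o : Fin r := ⟨0, hr⟩
  set Φ := ((1 - α) / (b - lo) + (α - lo) / (b - 1)) / (1 - lo) with hΦdef
  have hΦ : 0 < Φ := by
    have h1 : 0 < b - lo := by linarith
    have h2 : 0 < b - 1 := by linarith
    refine div_pos ?_ (by linarith)
    rcases eq_or_lt_of_le hα1 with rfl | hlt
    · simp only [sub_self, zero_div, zero_add]
      exact div_pos (by linarith) h2
    · exact add_pos_of_pos_of_nonneg (div_pos (by linarith) h1) (div_nonneg (by linarith) h2.le)
  have hinv : ∀ U : Finset V, ∃ y, Inv X U o Φ b (edge lo α b r) y := by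
    intro U
    induction U using Finset.induction_on with
    | empty => exact ⟨_, inv_empty o hX hlo hb hq fun a => (hd a).2⟩
    | insert k U hk ih =>
      obtain ⟨y, hy⟩ := ih
      exact inv_insert hr hX (fun a => (hd a).1) (by linarith) hΦ le_rfl hk hy
  obtain ⟨y, -, hye, hA, -⟩ := hinv univ
  have hp : IsProb fun (_ : V) (_ : Fin r) => (1 / r : ℝ) := fun _ =>
    ⟨fun _ => by positivity, by simp [hr.ne']⟩
  have him := charMix_roots_real hX hp hz
  by_contra hlt
  push Not at hlt
  have hev := (Polynomial.mem_roots'.1 hz).2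
  rw [Polynomial.IsRoot, charMix_eval, ← mixDet_slice X (o := o) hr] at hev
  have := hA (supp univ o) subset_rfl (fun _ => z.re) fun a ha =>
    ((hye a (Finset.mem_univ _) (by simpa [supp] using ha)).trans hlt.le)
  rw [F, show ((z.re : ℝ) : ℂ) = z from Complex.ext rfl (by simpa using him.symm), hev] at this
  simp at this

end Vale.Agent.P078.MKS.Edge
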