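import Vale.Agent.P078.MKS.Defs

/-!
Naturality, scaling and direct sums for expected characteristic polynomials and their moments.
-/

namespace Vale.Agent.P078.MKS

namespace Moments

open Finset

variable {V : Type} [Fintype V] [DecidableEq V] {r : ℕ}

variable {R R' : Type} [CommRing R] [CommRing R']

omit [Fintype V] in
lemma map_block (φ : R →+* R') (X : Matrix V V R) (f : V → Fin r) (S : Finset V) (y : V → R) :
    (block X f S y).map φ = block (X.map φ) f S (φ ∘ y) := by
  ext a b
  simp only [block, Matrix.map_apply, Matrix.of_apply, Function.comp]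
  split_ifs <;> simp

lemma map_mixDet (φ : R →+* R') (X : Matrix V V R) (p : V → Fin r → R) (S : Finset V)
    (y : V → R) : φ (mixDet X p S y) = mixDet (X.map φ) (fun v i => φ (p v i)) S (φ ∘ y) := by
  simp only [mixDet, map_sum, map_mul, map_prod]
  refine Finset.sum_congr rfl fun f _ => ?_
  rw [RingHom.map_det, RingHom.mapMatrix_apply, map_block]

lemma map_revMix (φ : R →+* R') (X : Matrix V V R) (p : V → Fin r → R) (S : Finset V) :
    PowerSeries.map φ (revMix X p S) = revMix (X.map φ) (fun v i => φ (p v i)) S := by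
  have h1 : (X.map fun a => PowerSeries.C a * PowerSeries.X).map (PowerSeries.map φ) =
      (X.map φ).map fun a => PowerSeries.C a * PowerSeries.X := by ext1 a b; simp
  have h2 : (PowerSeries.map φ ∘ fun _ : V => (1 : PowerSeries R)) = fun _ => 1 := by
    funext v; simp
  rw [revMix, map_mixDet, h1, h2, revMix]
  simp only [PowerSeries.map_C]

lemma constantCoeff_revMix (X : Matrix V V R) (p : V → Fin r → R) (hp : ∀ v, ∑ i, p v i = 1)
    (S : Finset V) : PowerSeries.constantCoeff (revMix X p S) = 1 := by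
  have h : ∀ f : V → Fin r, block ((X.map fun a => PowerSeries.C a * PowerSeries.X).map
      PowerSeries.constantCoeff) f S (PowerSeries.constantCoeff ∘ fun _ => 1) = 1 := by
    intro f; ext a b
    simp only [block, Matrix.map_apply, Matrix.of_apply, Function.comp, map_mul,
      PowerSeries.constantCoeff_X, mul_zero, map_one, ite_self, sub_zero, Matrix.one_apply]
  rw [revMix, map_mixDet]
  simp only [mixDet, h, Matrix.det_one, mul_one, PowerSeries.constantCoeff_C]
  rw [← Fintype.prod_sum]
  simp [hp]

lemma mul_inv_revMix (X : Matrix V V R) (p : V → Fin r → R) (hp : ∀ v, ∑ i, p v i = 1) :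
    revMix X p univ * PowerSeries.invOfUnit (revMix X p univ) 1 = 1 :=
  PowerSeries.mul_invOfUnit _ 1 (by simpa using constantCoeff_revMix X p hp univ)

lemma mom_of_mul {X : Matrix V V R} {p : V → Fin r → R} (hp : ∀ v, ∑ i, p v i = 1) {k : V}
    {g : PowerSeries R} (h : revMix X p (univ.erase k) = revMix X p univ * g) (j : ℕ) :
    mom X p k j = PowerSeries.coeff j g := by
  have h1 := mul_inv_revMix X p hp
  rw [mom, h]
  congr 1
  linear_combination g * h1

omit [Fintype V] [DecidableEq V] in
lemma sum_map_one (φ : R →+* R') (p : V → Fin r → R) (hp : ∀ v, ∑ i, p v i = 1) :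
    ∀ v, ∑ i, φ (p v i) = 1 := fun v => by rw [← map_sum, hp v, map_one]

lemma map_mom (φ : R →+* R') (X : Matrix V V R) (p : V → Fin r → R)
    (hp : ∀ v, ∑ i, p v i = 1) (k : V) (j : ℕ) :
    φ (mom X p k j) = mom (X.map φ) (fun v i => φ (p v i)) k j := by
  rw [mom, ← PowerSeries.coeff_map, map_mul, map_revMix]
  symm
  refine mom_of_mul (sum_map_one φ p hp) ?_ j
  have h := congrArg (PowerSeries.map φ) (mul_inv_revMix X p hp)
  rw [map_mul, map_one, map_revMix] at h
  linear_combination -(revMix (X.map φ) (fun v i => φ (p v i)) (univ.erase k)) * h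

lemma rescale_const (s a : R) :
    PowerSeries.rescale s (PowerSeries.C a) = PowerSeries.C a := by
  ext n
  rw [PowerSeries.coeff_rescale, PowerSeries.coeff_C]
  split_ifs with h <;> simp [h]

lemma rescale_revMix (s : R) (X : Matrix V V R) (p : V → Fin r → R) (S : Finset V) :
    PowerSeries.rescale s (revMix X p S) = revMix (X.map fun a => s * a) p S := by
  have h1 : (X.map fun a => PowerSeries.C a * PowerSeries.X).map (PowerSeries.rescale s) =
      (X.map fun a => s * a).map fun a => PowerSeries.C a * PowerSeries.X := by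
    ext1 a b
    simp only [Matrix.map_apply, map_mul, PowerSeries.rescale_X, rescale_const]
    ring
  have h2 : (PowerSeries.rescale s ∘ fun _ : V => (1 : PowerSeries R)) = fun _ => 1 := by
    funext v; simp
  rw [revMix, map_mixDet, h1, h2, revMix]
  simp only [rescale_const]

lemma mom_smul (s : R) (X : Matrix V V R) (p : V → Fin r → R)
    (hp : ∀ v, ∑ i, p v i = 1) (k : V) (j : ℕ) :
    mom (X.map fun a => s * a) p k j = s ^ j * mom X p k j := by
  rw [mom_of_mul (g := PowerSeries.rescale s
    (revMix X p (univ.erase k) * PowerSeries.invOfUnit (revMix X p univ) 1)) hp ?_ j,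
    PowerSeries.coeff_rescale, mom]
  rw [← rescale_revMix, ← rescale_revMix, ← map_mul]
  congr 1
  have h := mul_inv_revMix X p hp
  linear_combination -(revMix X p (univ.erase k)) * h

lemma mixDet_equiv {V' : Type} [Fintype V'] [DecidableEq V'] (e : V' ≃ V) (X : Matrix V V R)
    (p : V → Fin r → R) (S : Finset V) (y : V → R) :
    mixDet (X.submatrix e e) (fun v => p (e v)) (S.map e.symm.toEmbedding) (fun v => y (e v)) =
      mixDet X p S y := by
  unfold mixDet
  refine Fintype.sum_equiv (e.arrowCongr (Equiv.refl _)) _ _ fun f => ?_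
  congr 1
  · exact Fintype.prod_equiv e _ _ fun v => by simp [Equiv.arrowCongr]
  · rw [← Matrix.det_submatrix_equiv_self e (block X _ S y)]
    congr 1
    ext a b
    simp [block, Equiv.arrowCongr, Finset.mem_map_equiv]

lemma mom_equiv {V' : Type} [Fintype V'] [DecidableEq V'] (e : V' ≃ V) (X : Matrix V V R)
    (p : V → Fin r → R) (k : V') (j : ℕ) :
    mom X p (e k) j = mom (X.submatrix e e) (fun v => p (e v)) k j := by
  have hrev : ∀ S : Finset V,
      revMix (X.submatrix e e) (fun v => p (e v)) (S.map e.symm.toEmbedding) = revMix X p S := by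
    intro S
    rw [revMix, revMix, ← mixDet_equiv e (X.map fun a => PowerSeries.C a * PowerSeries.X)
      (fun v i => PowerSeries.C (p v i)) S fun _ => 1, Matrix.submatrix_map]
  rw [mom, mom, ← hrev univ, ← hrev (univ.erase (e k)),
    Finset.map_univ_equiv, Finset.map_erase, Finset.map_univ_equiv]
  simp

lemma mixDet_sum {A B : Type} [Fintype A] [DecidableEq A] [Fintype B] [DecidableEq B]
    (X : Matrix (A ⊕ B) (A ⊕ B) R) (h₁ : ∀ a b, X (Sum.inl a) (Sum.inr b) = 0)
    (h₂ : ∀ a b, X (Sum.inr b) (Sum.inl a) = 0) (p : A ⊕ B → Fin r → R)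
    (S : Finset (A ⊕ B)) (y : A ⊕ B → R) :
    mixDet X p S y =
      mixDet (X.submatrix Sum.inl Sum.inl) (fun a => p (Sum.inl a)) S.toLeft
          (fun a => y (Sum.inl a)) *
        mixDet (X.submatrix Sum.inr Sum.inr) (fun b => p (Sum.inr b)) S.toRight
          (fun b => y (Sum.inr b)) := by
  unfold mixDet
  rw [Finset.sum_mul_sum, ← Finset.sum_product']
  refine Fintype.sum_equiv (Equiv.sumArrowEquivProdArrow A B (Fin r)) _ _ fun f => ?_
  have hb : block X f S y = Matrix.fromBlocks
      (block (X.submatrix Sum.inl Sum.inl) (f ∘ Sum.inl) S.toLeft fun a => y (Sum.inl a)) 0 0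
      (block (X.submatrix Sum.inr Sum.inr) (f ∘ Sum.inr) S.toRight fun b => y (Sum.inr b)) := by
    ext (a | a) (b | b) <;> simp [block, h₁, h₂]
  rw [hb, Matrix.det_fromBlocks_zero₂₁, Fintype.prod_sum_type]
  simp only [Equiv.sumArrowEquivProdArrow, Equiv.coe_fn_mk, Function.comp_def]
  ring

lemma mom_component {W : Type} [Fintype W] [DecidableEq W] (ι : W → V)
    (hι : Function.Injective ι) (X : Matrix V V R) (p : V → Fin r → R)
    (hp : ∀ v, ∑ i, p v i = 1)
    (hX : ∀ a b, X a b ≠ 0 → (a ∈ Set.range ι ↔ b ∈ Set.range ι)) (k : W) (j : ℕ) :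
    mom X p (ι k) j = mom (X.submatrix ι ι) (fun w => p (ι w)) k j := by
  classical
  let e : W ⊕ {v // ¬ v ∈ Set.range ι} ≃ V :=
    (Equiv.sumCongr (Equiv.ofInjective ι hι) (Equiv.refl _)).trans
      (Equiv.sumCompl fun v => v ∈ Set.range ι)
  have hl : ∀ w, e (Sum.inl w) = ι w := fun w => by simp [e]
  have hr : ∀ c, e (Sum.inr c) = (c : V) := fun c => by simp [e]
  rw [← hl k, mom_equiv e X p (Sum.inl k) j]
  have h₁ : ∀ a c, X (ι a) (c : {v // ¬ v ∈ Set.range ι}).1 = 0 := by
    intro a c
    by_contra hne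
    exact c.2 ((hX _ _ hne).1 ⟨a, rfl⟩)
  have h₂ : ∀ a c, X (c : {v // ¬ v ∈ Set.range ι}).1 (ι a) = 0 := by
    intro a c
    by_contra hne
    exact c.2 ((hX _ _ hne).2 ⟨a, rfl⟩)
  have hpW : ∀ w, ∑ i, p (ι w) i = 1 := fun w => hp _
  refine mom_of_mul (fun v => hp (e v)) ?_ j
  have hsplit : ∀ S, revMix (X.submatrix e e) (fun v => p (e v)) S =
      revMix (X.submatrix ι ι) (fun w => p (ι w)) S.toLeft *
        revMix (X.submatrix (Subtype.val : {v // ¬ v ∈ Set.range ι} → V) Subtype.val)
          (fun c => p c) S.toRight := by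
    intro S
    unfold revMix
    rw [mixDet_sum _ (fun a b => by simp [hl, hr, h₁]) (fun a b => by simp [hl, hr, h₂])]
    simp only [Matrix.submatrix_map, Matrix.submatrix_submatrix, Function.comp_def, hl, hr]
  have e1 : ((univ : Finset (W ⊕ {v // ¬ v ∈ Set.range ι})).erase (Sum.inl k)).toLeft =
      univ.erase k := by ext x; simp
  have e2 : ((univ : Finset (W ⊕ {v // ¬ v ∈ Set.range ι})).erase (Sum.inl k)).toRight =
      univ := by ext x; simp
  have e3 : (univ : Finset (W ⊕ {v // ¬ v ∈ Set.range ι})).toLeft = univ := by ext x; simp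
  have e4 : (univ : Finset (W ⊕ {v // ¬ v ∈ Set.range ι})).toRight = univ := by ext x; simp
  rw [hsplit, hsplit, e1, e2, e3, e4]
  have h := mul_inv_revMix (X.submatrix ι ι) (fun w => p (ι w)) hpW
  linear_combination -(revMix (X.submatrix ι ι) (fun w => p (ι w)) (univ.erase k) *
    revMix (X.submatrix (Subtype.val : {v // ¬ v ∈ Set.range ι} → V) Subtype.val)
      (fun c => p c) univ) * h

end Moments

end Vale.Agent.P078.MKS
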