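import Vale.Agent.P078.MKS.Interlace
import Vale.Agent.P078.MKS.MomentsBasic

/-!
Real tools for the barrier argument: the value of an expected characteristic polynomial at real
points, the Rayleigh inequality, monotonicity of the ratios to deleted vertices, and the inequality
for a partial fraction with nonnegative residues and roots in `[0, b)`.
-/

noncomputable section

namespace Vale.Agent.P078.MKS.Edge

open Finset Filter Topology
open scoped ComplexConjugate

variable {V : Type} [Fintype V] [DecidableEq V] {r : ℕ}

/-- The value at real variables. -/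
def F (X : Matrix V V ℂ) (p : V → Fin r → ℝ) (S : Finset V) (y : V → ℝ) : ℝ :=
  (mixDet X (cw p) S fun v => (y v : ℂ)).re

lemma mixDet_congr_y {R : Type} [CommRing R] (X : Matrix V V R) (p : V → Fin r → R) {S : Finset V}
    {y y' : V → R} (h : ∀ v ∈ S, y v = y' v) : mixDet X p S y = mixDet X p S y' := by
  unfold mixDet
  refine Finset.sum_congr rfl fun f _ => ?_
  congr 2
  ext a b
  rw [block_apply, block_apply]
  by_cases hab : a ∈ S ∧ b ∈ S
  · rw [if_pos hab, if_pos hab, h a hab.1]
  · rw [if_neg hab, if_neg hab]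

lemma mixDet_congr_p {p p' : V → Fin r → ℝ} (hp : IsProb p) (hp' : IsProb p') {v : V}
    {S : Finset V} (hv : v ∉ S) (h : ∀ u, u ≠ v → p u = p' u) (X : Matrix V V ℂ) (y : V → ℂ) :
    mixDet X (cw p) S y = mixDet X (cw p') S y := by
  obtain ⟨s, -⟩ : ∃ s : Fin r, True := by
    rcases isEmpty_or_nonempty (Fin r) with h' | ⟨⟨s⟩⟩
    · have := (hp v).2; simp at this
    · exact ⟨s, trivial⟩
  have key : ∀ q : V → Fin r → ℝ, IsProb q →
      mixDet X (cw q) S y = mixDet X (point (cw q) v s) S y := fun q hq => by
    rw [mixDet_split X (cw q) v S y,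
      Finset.sum_congr rfl fun t _ => by rw [mixDet_point_notMem X (cw q) hv t s],
      ← Finset.sum_mul, sum_cw hq v, one_mul]
  rw [key p hp, key p' hp']
  congr 1
  funext u
  by_cases hu : u = v
  · subst hu; simp [point]
  · simp only [point, Function.update_of_ne hu]
    funext i
    simp [cw, h u hu]

variable {X : Matrix V V ℂ} {p : V → Fin r → ℝ}

lemma coe_F (hX : X.IsHermitian) (p : V → Fin r → ℝ) (S : Finset V) (y : V → ℝ) :
    (F X p S y : ℂ) = mixDet X (cw p) S fun v => (y v : ℂ) := by
  refine Complex.ext rfl ?_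
  rw [Complex.ofReal_im]
  refine (Complex.conj_eq_iff_im.1 ?_).symm
  rw [conj_mixDet hX]
  simp

lemma F_congr {S : Finset V} {y y' : V → ℝ} (h : ∀ v ∈ S, y v = y' v) :
    F X p S y = F X p S y' := by
  unfold F
  rw [mixDet_congr_y X (cw p) fun v hv => by rw [h v hv]]

lemma mixDet_update (X : Matrix V V ℂ) (q : V → Fin r → ℂ) {S : Finset V} {a : V} (ha : a ∈ S)
    (y : V → ℂ) (w : ℂ) :
    mixDet X q S (Function.update y a w) =
      mixDet X q S y + (w - y a) * mixDet X q (S.erase a) y := by
  rw [mixDet_affine X q ha (Function.update y a w), mixDet_affine X q ha y, Function.update_self,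
    Function.update_idem, mixDet_erase_update]
  ring

lemma F_update {S : Finset V} {a : V} (ha : a ∈ S) (y : V → ℝ) (w : ℝ) :
    F X p S (Function.update y a w) = F X p S y + (w - y a) * F X p (S.erase a) y := by
  unfold F
  have e : (fun v => ((Function.update y a w v : ℝ) : ℂ)) =
      Function.update (fun v => (y v : ℂ)) a (w : ℂ) := by
    funext v
    by_cases hv : v = a
    · subst hv; simp
    · simp [hv]
  rw [e, mixDet_update X (cw p) ha]
  simp [← Complex.ofReal_sub]

lemma F_update_notMem {S : Finset V} {a : V} (ha : a ∉ S) (y : V → ℝ) (w : ℝ) :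
    F X p S (Function.update y a w) = F X p S y :=
  F_congr fun v hv => Function.update_of_ne (by rintro rfl; exact ha hv) w y

lemma continuous_mixDet (X : Matrix V V ℂ) (q : V → Fin r → ℂ) (S : Finset V) :
    Continuous fun y : V → ℂ => mixDet X q S y := by
  unfold mixDet
  refine continuous_finsetSum _ fun f _ => continuous_const.mul (Continuous.matrix_det ?_)
  refine continuous_matrix fun a b => ?_
  simp only [block_apply]
  by_cases hab : a ∈ S ∧ b ∈ S
  · simp only [if_pos hab]
    by_cases h : a = b
    · simp only [if_pos h]; fun_prop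
    · simp only [if_neg h]; fun_prop
  · simp only [if_neg hab]; fun_prop

/-- At boundary points the ratio to a deleted vertex still rotates by at least the imaginary part
of its variable. -/
lemma im_mul_conj (hX : X.IsHermitian) (hp : IsProb p) {S : Finset V} {a : V} (ha : a ∈ S)
    {y : V → ℂ} (hy : ∀ v ∈ S, 0 ≤ (y v).im) :
    (y a).im * Complex.normSq (mixDet X (cw p) (S.erase a) y) ≤
      (mixDet X (cw p) S y * conj (mixDet X (cw p) (S.erase a) y)).im := by
  have hlim : ∀ ε : ℝ, 0 < ε → 0 ≤ (fun ε : ℝ =>
      (mixDet X (cw p) S (fun v => y v + ε * Complex.I) *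
        conj (mixDet X (cw p) (S.erase a) fun v => y v + ε * Complex.I)).im -
      (y a + ε * Complex.I).im *
        Complex.normSq (mixDet X (cw p) (S.erase a) fun v => y v + ε * Complex.I)) ε := by
    intro ε hε
    set z : V → ℂ := fun v => y v + ε * Complex.I with hz
    have hz' : ∀ v ∈ S, 0 < (z v).im := fun v hv => by
      simp only [hz, Complex.add_im, Complex.im_ofReal_mul, Complex.I_im, mul_one]
      linarith [hy v hv]
    have hQ := (stable_ok V r X p hX hp (S.erase a) z fun v hv =>
      hz' v (Finset.mem_of_mem_erase hv)).1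
    have haff : ∀ w, mixDet X (cw p) S (Function.update z a w) =
        w * mixDet X (cw p) (S.erase a) z + mixDet X (cw p) S (Function.update z a 0) := fun w => by
      rw [mixDet_affine X (cw p) ha (Function.update z a w), Function.update_self,
        Function.update_idem, mixDet_erase_update]
    have h2 := (im_rest_nonneg hQ (P := mixDet X (cw p) S (Function.update z a 0)) (y₀ := z a)
      (fun w hw => by
        rw [← haff]
        refine (stable_ok V r X p hX hp S _ fun v hv => ?_).1
        by_cases hv' : v = a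
        · subst hv'; simpa using hw
        · rw [Function.update_of_ne hv']; exact hz' v hv) (hz' a ha)).2
    set Q := mixDet X (cw p) (S.erase a) z
    set R := mixDet X (cw p) S (Function.update z a 0)
    have hP : mixDet X (cw p) S z = z a * Q + R := by
      have := haff (z a); rwa [Function.update_eq_self] at this
    show 0 ≤ (mixDet X (cw p) S z * conj Q).im - (z a).im * Complex.normSq Q
    have hRQ : (R * conj Q).im = (R / Q).im * Complex.normSq Q := by
      conv_lhs => rw [← div_mul_cancel₀ R hQ, mul_assoc, Complex.mul_conj]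
      simp
    rw [hP, add_mul, mul_assoc, Complex.mul_conj, Complex.add_im, hRQ]
    simp only [Complex.mul_im, Complex.ofReal_re, Complex.ofReal_im, mul_zero, zero_add]
    nlinarith [Complex.normSq_nonneg Q]
  have hcont : Continuous fun ε : ℝ =>
      (mixDet X (cw p) S (fun v => y v + ε * Complex.I) *
        conj (mixDet X (cw p) (S.erase a) fun v => y v + ε * Complex.I)).im -
      (y a + ε * Complex.I).im *
        Complex.normSq (mixDet X (cw p) (S.erase a) fun v => y v + ε * Complex.I) := by
    have h1 : Continuous fun ε : ℝ => fun v : V => y v + ε * Complex.I := by fun_prop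
    have h2 := fun T => (continuous_mixDet X (cw p) T).comp h1
    exact (Complex.continuous_im.comp ((h2 S).mul (Complex.continuous_conj.comp (h2 _)))).sub
      ((by fun_prop : Continuous fun ε : ℝ => (y a + ε * Complex.I).im).mul
        (Complex.continuous_normSq.comp (h2 _)))
  have h0 := ge_of_tendsto (hcont.continuousAt.tendsto.mono_left (nhdsWithin_le_nhds (s := Set.Ioi 0)))
    (eventually_nhdsWithin_of_forall (a := (0 : ℝ)) fun ε hε => hlim ε hε)
  simpa using h0

/-- The Rayleigh inequality at real points. -/
lemma rayleigh (hX : X.IsHermitian) (hp : IsProb p) {S : Finset V} {a c : V} (ha : a ∈ S)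
    (hc : c ∈ S) (hac : a ≠ c) (y : V → ℝ) :
    F X p S y * F X p ((S.erase a).erase c) y ≤ F X p (S.erase a) y * F X p (S.erase c) y := by
  have h := im_mul_conj hX hp ha
    (y := Function.update (fun v => (y v : ℂ)) c ((y c : ℂ) + Complex.I)) fun v _ => by
      by_cases hv : v = c
      · subst hv; simp
      · simp [hv]
  rw [mixDet_update X (cw p) hc, mixDet_update X (cw p) (Finset.mem_erase.2 ⟨hac.symm, hc⟩),
    Function.update_of_ne hac, Complex.ofReal_im, zero_mul, add_sub_cancel_left, ← coe_F hX,
    ← coe_F hX, ← coe_F hX, ← coe_F hX] at h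
  simp [Complex.mul_im] at h
  linarith

/-- Positivity on all subsets above a point. -/
def Above (X : Matrix V V ℂ) (p : V → Fin r → ℝ) (S : Finset V) (y : V → ℝ) : Prop :=
  ∀ T ⊆ S, ∀ z : V → ℝ, (∀ v ∈ T, y v ≤ z v) → 0 < F X p T z

lemma Above.mono {S T : Finset V} {y : V → ℝ} (h : Above X p S y) (hT : T ⊆ S) :
    Above X p T y := fun U hU => h U (hU.trans hT)

lemma Above.pos {S : Finset V} {y : V → ℝ} (h : Above X p S y) {T : Finset V} (hT : T ⊆ S) :
    0 < F X p T y := h T hT y fun _ _ => le_rfl

/-- The ratio to a deleted vertex grows when vertices are deleted and variables increase. -/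
lemma ratio_mono (hX : X.IsHermitian) (hp : IsProb p) {S T : Finset V} {a : V} {y z : V → ℝ}
    (h : Above X p S y) (hT : T ⊆ S) (ha : a ∈ T) (hz : ∀ v ∈ T, y v ≤ z v) :
    F X p S y / F X p (S.erase a) y ≤ F X p T z / F X p (T.erase a) z := by
  have h1 : ∀ (m : ℕ) (S : Finset V), T ⊆ S → (S \ T).card = m → Above X p S y →
      F X p S y / F X p (S.erase a) y ≤ F X p T y / F X p (T.erase a) y := by
    intro m
    induction m with
    | zero =>
      intro S hTS hm _
      rw [Finset.card_eq_zero, Finset.sdiff_eq_empty_iff_subset] at hm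
      rw [Finset.Subset.antisymm hm hTS]
    | succ m ih =>
      intro S hTS hm hS
      obtain ⟨c, hc⟩ : (S \ T).Nonempty := Finset.card_pos.1 (by omega)
      obtain ⟨hcS, hcT⟩ := Finset.mem_sdiff.1 hc
      have hac : a ≠ c := fun he => hcT (he ▸ ha)
      refine le_trans ?_ (ih (S.erase c) (Finset.subset_erase.2 ⟨hTS, hcT⟩) ?_
        (hS.mono (Finset.erase_subset _ _)))
      · rw [div_le_div_iff₀ (hS.pos (Finset.erase_subset _ _))
          (hS.pos ((Finset.erase_subset _ _).trans (Finset.erase_subset _ _))),
          Finset.erase_right_comm (a := c)]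
        exact (rayleigh hX hp (hTS ha) hcS hac y).trans (mul_comm _ _).le
      · rw [show S.erase c \ T = (S \ T).erase c by ext v; simp; tauto,
          Finset.card_erase_of_mem hc]
        omega
  refine (h1 _ S hT rfl h).trans ?_
  have hTA : Above X p T y := h.mono hT
  have h2 : ∀ U : Finset V, ∀ y' : V → ℝ, (∀ v ∈ T, y v ≤ y' v) →
      F X p T y' / F X p (T.erase a) y' ≤
        F X p T (fun v => if v ∈ U then max (y' v) (z v) else y' v) /
          F X p (T.erase a) (fun v => if v ∈ U then max (y' v) (z v) else y' v) := by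
    intro U
    induction U using Finset.induction_on with
    | empty => intro y' _; simp
    | insert c U hcU ih =>
      intro y' hy'
      refine (ih y' hy').trans ?_
      set w : V → ℝ := fun v => if v ∈ U then max (y' v) (z v) else y' v with hw
      have hyw : ∀ v ∈ T, y v ≤ w v := fun v hv => (hy' v hv).trans (by
        simp only [hw]; split_ifs <;> simp)
      have e : (fun v => if v ∈ insert c U then max (y' v) (z v) else y' v) =
          Function.update w c (max (y' c) (z c)) := by
        funext v
        by_cases hv : v = c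
        · subst hv; simp
        · simp [hw, hv]
      have hh : 0 ≤ max (y' c) (z c) - w c := by simp [hw, hcU]
      rw [e]
      by_cases hc : c ∈ T
      · have h0 : 0 < F X p T w := hTA T subset_rfl w hyw
        have h1 : 0 < F X p (T.erase a) w :=
          hTA _ (Finset.erase_subset _ _) w fun v hv => hyw v (Finset.mem_of_mem_erase hv)
        by_cases hca : c = a
        · subst hca
          rw [F_update hc, F_update_notMem (Finset.notMem_erase c T)]
          exact div_le_div_of_nonneg_right (le_add_of_nonneg_right (mul_nonneg hh h1.le)) h1.le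
        · have h2 : 0 < F X p ((T.erase a).erase c) w :=
            hTA _ ((Finset.erase_subset _ _).trans (Finset.erase_subset _ _)) w fun v hv =>
              hyw v (Finset.mem_of_mem_erase (Finset.mem_of_mem_erase hv))
          rw [F_update hc, F_update (Finset.mem_erase.2 ⟨hca, hc⟩),
            div_le_div_iff₀ h1 (by positivity)]
          nlinarith [mul_le_mul_of_nonneg_left (rayleigh hX hp ha hc (Ne.symm hca) w) hh]
      · rw [F_update_notMem hc, F_update_notMem fun h => hc (Finset.mem_of_mem_erase h)]
  refine (h2 univ y fun _ _ => le_rfl).trans (le_of_eq ?_)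
  have e : ∀ v ∈ T, (if v ∈ (univ : Finset V) then max (y v) (z v) else y v) = z v := fun v hv => by
    simp [max_eq_right (hz v hv)]
  rw [F_congr e, F_congr fun v hv => e v (Finset.mem_of_mem_erase hv)]

/-- For a proper fraction with nonnegative residues and roots in `[0, b)`, `b` times the value at
`b` is at least the limit at infinity. -/
lemma residue_bound (P p : Polynomial ℂ) (n : ℕ) (hPn : P.natDegree = n + 1)
    (hpn : p.natDegree ≤ n) (b : ℝ) (hroots : ∀ z ∈ P.roots, z.im = 0 ∧ 0 ≤ z.re ∧ z.re < b)
    (him : ∀ w : ℂ, 0 < w.im → (p.eval w / P.eval w).im < 0) (A : ℝ) (hA : 0 < A)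
    (hlead : P.coeff (n + 1) = (A : ℂ)) :
    (p.coeff n).re * (P.eval (b : ℂ)).re ≤ b * A * (p.eval (b : ℂ)).re := by
  classical
  have hP0 : P ≠ 0 := fun h => by simp [h] at hPn
  have hlc : P.leadingCoeff = (A : ℂ) := by rw [Polynomial.leadingCoeff, hPn, hlead]
  have hcard : P.roots.card = P.natDegree := IsAlgClosed.card_roots_eq_natDegree
  have hres : ∀ z : ℂ, ∃ w : ℝ, 0 ≤ w ∧ (z ∈ P.roots →
      (Polynomial.X - Polynomial.C z) ^ P.rootMultiplicity z ∣
        p - Polynomial.C (w : ℂ) * (P /ₘ (Polynomial.X - Polynomial.C z))) := fun z => by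
    by_cases hz : z ∈ P.roots
    swap
    · exact ⟨0, le_rfl, fun h => absurd h hz⟩
    by_cases hp0 : p = 0
    · exact ⟨0, le_rfl, fun _ => by simp [hp0]⟩
    obtain ⟨P₁, eP, hP₁⟩ := P.exists_eq_pow_rootMultiplicity_mul_and_not_dvd hP0 z
    obtain ⟨Q₁, eQ, hQ₁⟩ := p.exists_eq_pow_rootMultiplicity_mul_and_not_dvd hp0 z
    rw [Polynomial.dvd_iff_isRoot] at hP₁ hQ₁
    set m := P.rootMultiplicity z
    set j := p.rootMultiplicity z
    have hm1 : 1 ≤ m := (Polynomial.rootMultiplicity_pos hP0).2 (Polynomial.mem_roots'.1 hz).2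
    by_cases hjm : m ≤ j
    · refine ⟨0, le_rfl, fun _ => ?_⟩
      simp only [Complex.ofReal_zero, map_zero, zero_mul, sub_zero]
      rw [eQ]
      exact dvd_mul_of_dvd_left (pow_dvd_pow _ hjm) _
    push Not at hjm
    have hdiv : P /ₘ (Polynomial.X - Polynomial.C z) =
        (Polynomial.X - Polynomial.C z) ^ (m - 1) * P₁ := by
      conv_lhs => rw [eP, show m = (m - 1) + 1 by omega, pow_succ', mul_assoc]
      rw [Polynomial.mul_divByMonic_cancel_left _ (Polynomial.monic_X_sub_C z)]
    obtain ⟨hd, him', hre⟩ := pole_sign (φ := fun w => Q₁.eval w / P₁.eval w) (x₀ := z)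
      (hroots z hz).1 (ContinuousAt.div (by fun_prop) (by fun_prop) hP₁) (div_ne_zero hQ₁ hP₁)
      (d := m - j) (by omega) fun w hw => by
      have hne : w - z ≠ 0 := fun h => by
        have := congrArg Complex.im h; simp [(hroots z hz).1] at this; linarith
      have h := (him w hw).le
      rw [eP, eQ, Polynomial.eval_mul, Polynomial.eval_mul, Polynomial.eval_pow,
        Polynomial.eval_pow, Polynomial.eval_sub, Polynomial.eval_X, Polynomial.eval_C] at h
      have e : (w - z) ^ j * Q₁.eval w / ((w - z) ^ m * P₁.eval w) =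
          Q₁.eval w / P₁.eval w / (w - z) ^ (m - j) := by
        rw [show (w - z) ^ m = (w - z) ^ j * (w - z) ^ (m - j) by
          rw [← pow_add, Nat.add_sub_cancel' hjm.le]]
        field_simp
      rwa [e] at h
    refine ⟨(Q₁.eval z / P₁.eval z).re, hre.le, fun _ => ?_⟩
    rw [hdiv, eQ, show j = m - 1 by omega, mul_left_comm, ← mul_sub]
    conv_lhs => rw [show m = (m - 1) + 1 by omega, pow_succ]
    refine mul_dvd_mul_left _ ?_
    rw [Polynomial.dvd_iff_isRoot, Polynomial.IsRoot, Polynomial.eval_sub, Polynomial.eval_mul,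
      Polynomial.eval_C, show ((Q₁.eval z / P₁.eval z).re : ℂ) = Q₁.eval z / P₁.eval z from
        Complex.ext rfl (by simp [him']), div_mul_cancel₀ _ hP₁, sub_self]
  choose w hw hdvd using hres
  set R : ℂ → Polynomial ℂ := fun z => P /ₘ (Polynomial.X - Polynomial.C z) with hR
  have hquot : ∀ z ∈ P.roots.toFinset, (R z).natDegree = n ∧ (R z).coeff n = (A : ℂ) ∧
      (Polynomial.X - Polynomial.C z) * R z = P := by
    intro z hz
    have hd : (R z).natDegree = n := by
      simp only [hR]
      rw [Polynomial.natDegree_divByMonic _ (Polynomial.monic_X_sub_C z),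
        Polynomial.natDegree_X_sub_C, hPn, Nat.add_sub_cancel]
    refine ⟨hd, ?_, Polynomial.mul_divByMonic_eq_iff_isRoot.2
      (Polynomial.mem_roots'.1 (Multiset.mem_toFinset.1 hz)).2⟩
    have hdeg : (Polynomial.X - Polynomial.C z).degree ≤ P.degree := by
      rw [Polynomial.degree_X_sub_C, Polynomial.degree_eq_natDegree hP0, hPn]
      exact_mod_cast Nat.succ_pos n
    conv_lhs => rw [← hd]
    rw [← Polynomial.leadingCoeff]
    simp only [hR]
    rw [Polynomial.leadingCoeff_divByMonic_of_monic (Polynomial.monic_X_sub_C z) hdeg, hlc]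
  set T := ∑ z ∈ P.roots.toFinset, Polynomial.C (w z : ℂ) * R z with hT
  have hdiv : P ∣ p - T := by
    have hsplit : Polynomial.C (A : ℂ) * ∏ z ∈ P.roots.toFinset,
        (Polynomial.X - Polynomial.C z) ^ P.rootMultiplicity z = P := by
      conv_rhs => rw [← Polynomial.C_leadingCoeff_mul_prod_multiset_X_sub_C hcard, hlc]
      rw [Finset.prod_multiset_map_count]
      congr 1
      exact Finset.prod_congr rfl fun z _ => by rw [Polynomial.count_roots]
    rw [← hsplit, (Polynomial.isUnit_C.2 (Ne.isUnit
      (Complex.ofReal_ne_zero.2 hA.ne'))).mul_left_dvd]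
    refine Finset.prod_dvd_of_coprime (fun a _ b _ hab =>
      ((Polynomial.pairwise_coprime_X_sub_C Function.injective_id hab).pow)) fun z hz => ?_
    rw [hT, ← Finset.add_sum_erase _ _ hz, ← sub_sub]
    refine dvd_sub (hdvd z (Multiset.mem_toFinset.1 hz)) (Finset.dvd_sum fun u hu => ?_)
    refine dvd_mul_of_dvd_right ?_ _
    refine IsCoprime.dvd_of_dvd_mul_left
      ((Polynomial.pairwise_coprime_X_sub_C Function.injective_id
        (Finset.ne_of_mem_erase hu).symm).pow_left) ?_
    simp only [id]
    rw [(hquot u (Finset.mem_of_mem_erase hu)).2.2]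
    exact P.pow_rootMultiplicity_dvd z
  have hpT : p = T := by
    by_contra hne
    have h1 := Polynomial.natDegree_le_of_dvd hdiv (sub_ne_zero.2 hne)
    have h2 : (p - T).natDegree ≤ n := (Polynomial.natDegree_sub_le _ _).trans (max_le hpn
      (Polynomial.natDegree_sum_le_of_forall_le _ _ fun z hz =>
        (Polynomial.natDegree_C_mul_le _ _).trans (hquot z hz).1.le))
    omega
  have hc : (p.coeff n).re = ∑ z ∈ P.roots.toFinset, w z * A := by
    rw [hpT, hT, Polynomial.finsetSum_coeff, Complex.re_sum]
    exact Finset.sum_congr rfl fun z hz => by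
      rw [Polynomial.coeff_C_mul, (hquot z hz).2.1, Complex.re_ofReal_mul, Complex.ofReal_re]
  have hPb : 0 ≤ (P.eval (b : ℂ)).re := by
    conv_rhs => rw [← Polynomial.C_leadingCoeff_mul_prod_multiset_X_sub_C hcard, hlc]
    rw [Polynomial.eval_mul, Polynomial.eval_C, Polynomial.eval_multiset_prod, Multiset.map_map,
      Complex.re_ofReal_mul]
    refine mul_nonneg hA.le ?_
    rw [show (Polynomial.eval (b : ℂ) ∘ fun z => Polynomial.X - Polynomial.C z) =
      fun z => (b : ℂ) - z from by funext z; simp]
    have : ∀ s : Multiset ℂ, (∀ z ∈ s, z.im = 0 ∧ z.re < b) →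
        ((s.map fun z => (b : ℂ) - z).prod).im = 0 ∧
        0 ≤ ((s.map fun z => (b : ℂ) - z).prod).re := by
      intro s
      induction s using Multiset.induction_on with
      | empty => simp
      | cons z s ih =>
        intro h
        obtain ⟨i1, i2⟩ := ih fun u hu => h u (Multiset.mem_cons_of_mem hu)
        obtain ⟨h1, h2⟩ := h z (Multiset.mem_cons_self _ _)
        simp only [Multiset.map_cons, Multiset.prod_cons, Complex.mul_im, Complex.mul_re,
          Complex.sub_im, Complex.sub_re, Complex.ofReal_im, Complex.ofReal_re, h1, i1]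
        refine ⟨by ring, ?_⟩
        nlinarith
    exact (this P.roots fun z hz => ⟨(hroots z hz).1, (hroots z hz).2.2⟩).2
  have hev : ∀ z ∈ P.roots.toFinset,
      (b - z.re) * (((R z).eval (b : ℂ)).re) = (P.eval (b : ℂ)).re := fun z hz => by
    conv_rhs => rw [← (hquot z hz).2.2]
    have h1 := (hroots z (Multiset.mem_toFinset.1 hz)).1
    simp [Complex.mul_re, h1]
  rw [hc, hpT, hT, Polynomial.eval_finsetSum, Complex.re_sum, Finset.sum_mul, Finset.mul_sum]
  refine Finset.sum_le_sum fun z hz => ?_
  obtain ⟨-, h0, h1⟩ := hroots z (Multiset.mem_toFinset.1 hz)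
  rw [Polynomial.eval_mul, Polynomial.eval_C, Complex.re_ofReal_mul, mul_assoc (w z),
    show b * A * (w z * ((R z).eval (b : ℂ)).re) = w z * (A * (b * ((R z).eval (b : ℂ)).re)) by ring]
  refine mul_le_mul_of_nonneg_left (mul_le_mul_of_nonneg_left ?_ hA.le) (hw z)
  rw [← hev z hz]
  have hR0 : 0 ≤ ((R z).eval (b : ℂ)).re :=
    nonneg_of_mul_nonneg_right (hev z hz ▸ hPb) (sub_pos.2 h1)
  nlinarith

end Vale.Agent.P078.MKS.Edge
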