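import Vale.Agent.P078.MKS.EdgeBase

/-!
The exchange inequality for merging vertices: the polynomial in a common variable on a set `K` has
roots in `[0, b)`, and a partial fraction over it gives the inequality.
-/

noncomputable section

namespace Vale.Agent.P078.MKS.Edge

open Finset
open scoped ComplexConjugate

variable {W : Type} [Fintype W] [DecidableEq W] {r : ℕ} {X : Matrix W W ℂ} {p : W → Fin r → ℝ}

/-- The expected determinant on `R ∪ L` as a polynomial in a common variable on `L`. -/
def varPoly (X : Matrix W W ℂ) (p : W → Fin r → ℝ) (R L : Finset W) (y : W → ℂ) : Polynomial ℂ :=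
  mixDet (X.map Polynomial.C) (fun v i => Polynomial.C (cw p v i)) (R ∪ L)
    fun v => if v ∈ L then Polynomial.X else Polynomial.C (y v)

lemma eval_varPoly (R L : Finset W) (y : W → ℂ) (w : ℂ) :
    (varPoly X p R L y).eval w = mixDet X (cw p) (R ∪ L) fun v => if v ∈ L then w else y v := by
  rw [← Polynomial.coe_evalRingHom, varPoly, Moments.map_mixDet]
  congr 1
  · ext a b; simp
  · funext v i; simp
  · funext v; by_cases hv : v ∈ L <;> simp [hv]

/-- Degree and the two top coefficients. -/
lemma varPoly_coeff (L : Finset W) : ∀ (R : Finset W) (y : W → ℂ), Disjoint R L →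
    (varPoly X p R L y).natDegree ≤ L.card ∧
    (varPoly X p R L y).coeff L.card = mixDet X (cw p) R y ∧
    ∀ j, j + 1 = L.card → (varPoly X p R L y).coeff j =
      ∑ i ∈ L, mixDet X (cw p) (insert i R) (Function.update y i 0) := by
  induction L using Finset.induction_on with
  | empty =>
    intro R y _
    have e : varPoly X p R ∅ y = Polynomial.C (mixDet X (cw p) R y) := by
      rw [varPoly, Moments.map_mixDet]
      simp [Function.comp_def]
    refine ⟨by rw [e, Polynomial.natDegree_C]; simp, by rw [e, Finset.card_empty,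
      Polynomial.coeff_C_zero], fun j hj => by simp at hj⟩
  | insert a L ha ih =>
    intro R y hd
    rw [Finset.disjoint_insert_right] at hd
    obtain ⟨haR, hd⟩ := hd
    obtain ⟨d1, c1, b1⟩ := ih R y hd
    obtain ⟨d2, c2, -⟩ := ih (insert a R) (Function.update y a 0)
      (Finset.disjoint_insert_left.2 ⟨ha, hd⟩)
    have e : varPoly X p R (insert a L) y = Polynomial.X * varPoly X p R L y +
        varPoly X p (insert a R) L (Function.update y a 0) := by
      have h1 : (R ∪ insert a L).erase a = R ∪ L := by
        rw [Finset.union_insert, Finset.erase_insert]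
        simp [haR, ha]
      have h2 : R ∪ insert a L = insert a R ∪ L := by rw [Finset.union_insert, Finset.insert_union]
      unfold varPoly
      rw [mixDet_affine _ _ (k := a) (show a ∈ R ∪ insert a L by simp),
        if_pos (Finset.mem_insert_self _ _), h1, h2]
      refine congrArg₂ (· + ·) (congrArg (Polynomial.X * ·) (mixDet_congr_y _ _ fun v hv => ?_))
        (mixDet_congr_y _ _ fun v _ => ?_)
      · have : v ≠ a := fun h => by
          rcases Finset.mem_union.1 hv with h' | h'
          · exact haR (h ▸ h')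
          · exact ha (h ▸ h')
        simp only [Finset.mem_insert, this, false_or]
      · by_cases hva : v = a
        · subst hva; simp [ha]
        · simp [hva]
    rw [e, Finset.card_insert_of_notMem ha]
    refine ⟨(Polynomial.natDegree_add_le _ _).trans (max_le ?_ (d2.trans (Nat.le_succ _))),
      ?_, ?_⟩
    · refine (Polynomial.natDegree_mul_le).trans ?_
      rw [Polynomial.natDegree_X]; omega
    · rw [Polynomial.coeff_add, Polynomial.coeff_X_mul, c1,
        Polynomial.coeff_eq_zero_of_natDegree_lt (n := L.card + 1) (by omega), add_zero]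
    · intro j hj
      obtain rfl : j = L.card := by omega
      rw [Polynomial.coeff_add, c2, Finset.sum_insert ha, add_comm]
      congr 1
      rcases Nat.eq_zero_or_pos L.card with h0 | h0
      · rw [h0, Polynomial.coeff_X_mul_zero, Finset.card_eq_zero.1 h0, Finset.sum_empty]
      · obtain ⟨j, hj'⟩ := Nat.exists_eq_add_of_le h0
        rw [hj', add_comm, Polynomial.coeff_X_mul, b1 j (by omega)]

omit [Fintype W] in
lemma coe_update (y : W → ℝ) (a : W) (w : ℝ) :
    (fun v => ((Function.update y a w v : ℝ) : ℂ)) =
      Function.update (fun v => (y v : ℂ)) a (w : ℂ) := by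
  funext v
  by_cases hv : v = a
  · subst hv; simp
  · simp [hv]

/-- No zero when some variables are in the upper half-plane and the others are above a point of
positivity. -/
lemma ne_zero_above (hX : X.IsHermitian) (hp : IsProb p) {S : Finset W} {y : W → ℝ}
    (h : Above X p S y) {K : Finset W} {w : ℂ} (hw : 0 < w.im) :
    ∀ T ⊆ S, mixDet X (cw p) T (fun v => if v ∈ K then w else (y v : ℂ)) ≠ 0 := by
  intro T
  induction T using Finset.strongInduction with
  | _ T ih =>
    intro hT
    rcases (T ∩ K).eq_empty_or_nonempty with he | ⟨a, ha⟩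
    · rw [mixDet_congr_y X (cw p) (y' := fun v => (y v : ℂ)) fun v hv => by
        rw [if_neg]; intro hvK; exact Finset.notMem_empty v (he ▸ Finset.mem_inter.2 ⟨hv, hvK⟩),
        ← coe_F hX]
      exact Complex.ofReal_ne_zero.2 (h.pos hT).ne'
    · obtain ⟨haT, haK⟩ := Finset.mem_inter.1 ha
      have hQ := ih _ (Finset.erase_ssubset haT) ((Finset.erase_subset _ _).trans hT)
      intro h0
      have := im_mul_conj hX hp haT (y := fun v => if v ∈ K then w else (y v : ℂ)) fun v _ => by
        split_ifs <;> simp [hw.le]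
      rw [h0, zero_mul, if_pos haK] at this
      have := mul_pos hw (Complex.normSq_pos.2 hQ)
      simp at *
      linarith

/-- The sign at negative values of the variables on `K`. -/
lemma sign_below (hX : X.IsHermitian) (hp : IsProb p) {S : Finset W} {y : W → ℝ}
    (h : Above X p S y) {K : Finset W} {t : ℝ}
    (hin : ∀ T ⊆ K, T ⊆ S → 0 < (-1) ^ T.card * F X p T fun _ => t) :
    ∀ T ⊆ S, 0 < (-1) ^ (T ∩ K).card * F X p T fun v => if v ∈ K then t else y v := by
  intro T
  induction T using Finset.strongInduction with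
  | _ T ih =>
    intro hT
    rcases (T ∩ K).eq_empty_or_nonempty with he | ⟨a, ha⟩
    · rw [he, Finset.card_empty, pow_zero, one_mul, F_congr (y' := y) fun v hv => by
        rw [if_neg]; intro hvK; exact Finset.notMem_empty v (he ▸ Finset.mem_inter.2 ⟨hv, hvK⟩)]
      exact h.pos hT
    by_cases hTK : T ⊆ K
    · rw [Finset.inter_eq_left.2 hTK, F_congr (y' := fun _ => t) fun v hv => if_pos (hTK hv)]
      exact hin T hTK hT
    obtain ⟨c, hc, hcK⟩ := Finset.not_subset.1 hTK
    obtain ⟨haT, haK⟩ := Finset.mem_inter.1 ha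
    have hac : a ≠ c := fun he => hcK (he ▸ haK)
    have h1 := ih _ (Finset.erase_ssubset haT) ((Finset.erase_subset _ _).trans hT)
    have h2 := ih _ (Finset.erase_ssubset hc) ((Finset.erase_subset _ _).trans hT)
    have h3 := ih _ (Finset.ssubset_of_subset_of_ssubset (Finset.erase_subset c _)
      (Finset.erase_ssubset haT)) (((Finset.erase_subset _ _).trans (Finset.erase_subset _ _)).trans hT)
    have hR := rayleigh hX hp haT hc hac fun v => if v ∈ K then t else y v
    have e1 : (T.erase c) ∩ K = T ∩ K := by
      ext v; simp only [Finset.mem_inter, Finset.mem_erase]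
      exact ⟨fun hv => ⟨hv.1.2, hv.2⟩, fun hv => ⟨⟨fun he => hcK (he ▸ hv.2), hv.1⟩, hv.2⟩⟩
    have e2 : ((T.erase a).erase c) ∩ K = (T.erase a) ∩ K := by
      ext v; simp only [Finset.mem_inter, Finset.mem_erase]
      exact ⟨fun hv => ⟨hv.1.2, hv.2⟩, fun hv => ⟨⟨fun he => hcK (he ▸ hv.2), hv.1⟩, hv.2⟩⟩
    have e3 : ((T.erase a) ∩ K).card + 1 = (T ∩ K).card := by
      rw [Finset.erase_inter, Finset.card_erase_add_one ha]
    rw [e1] at h2
    rw [e2] at h3
    rw [← e3, pow_succ] at h2 ⊢
    rcases neg_one_pow_eq_or ℝ ((T.erase a) ∩ K).card with e | e <;> rw [e] at h1 h2 h3 ⊢ <;>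
      nlinarith

/-- The exchange inequality. -/
lemma exchange (hX : X.IsHermitian) (hp : IsProb p) {R K : Finset W} (hd : Disjoint R K)
    (hK : K.Nonempty) {y : W → ℝ} {b : ℝ} (hyK : ∀ i ∈ K, y i = b)
    (h : Above X p (R ∪ K) y)
    (hin : ∀ t < 0, ∀ T ⊆ K, 0 < (-1) ^ T.card * F X p T fun _ => t)
    {c : W} (hc : c ∈ R) :
    (F X p R y * (∑ i ∈ K, F X p (insert i (R.erase c)) y) -
        F X p (R.erase c) y * ∑ i ∈ K, F X p (insert i R) y) * F X p (R ∪ K) y ≤
      b * F X p R y * (F X p R y * F X p ((R ∪ K).erase c) y -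
        F X p (R.erase c) y * F X p (R ∪ K) y) := by
  classical
  obtain ⟨n, hn⟩ : ∃ n, K.card = n + 1 := ⟨K.card - 1, by have := hK.card_pos; omega⟩
  set yc : W → ℂ := fun v => (y v : ℂ) with hyc
  set A := F X p R y with hA
  set Ac := F X p (R.erase c) y with hAc
  have hA0 : 0 < A := h.pos Finset.subset_union_left
  have hcK : c ∉ K := fun hcK => Finset.disjoint_left.1 hd hc hcK
  have hdc : Disjoint (R.erase c) K := hd.mono_left (Finset.erase_subset _ _)
  set q := varPoly X p R K yc with hq
  set G := varPoly X p (R.erase c) K yc with hG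
  obtain ⟨dq, cq, bq⟩ := varPoly_coeff (X := X) (p := p) K R yc hd
  obtain ⟨dG, cG, bG⟩ := varPoly_coeff (X := X) (p := p) K (R.erase c) yc hdc
  have hval : ∀ (T : Finset W) (i : W), i ∈ K → i ∉ T →
      mixDet X (cw p) (insert i T) (Function.update yc i 0) =
        ((F X p (insert i T) y - b * F X p T y : ℝ) : ℂ) := fun T i hi hiT => by
    rw [hyc, ← Complex.ofReal_zero, ← coe_update, ← coe_F hX, F_update (Finset.mem_insert_self _ _),
      Finset.erase_insert hiT, hyK i hi]
    push_cast; ring
  have hqA : q.coeff (n + 1) = (A : ℂ) := by rw [← hn, cq, hA, coe_F hX]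
  have hGA : G.coeff (n + 1) = (Ac : ℂ) := by rw [← hn, cG, hAc, coe_F hX]
  have hqd : q.natDegree = n + 1 := le_antisymm (hn ▸ dq)
    (Polynomial.le_natDegree_of_ne_zero (by rw [hqA]; exact Complex.ofReal_ne_zero.2 hA0.ne'))
  have hQ : ∀ i ∈ K, (varPoly X p R (K.erase i) yc).natDegree ≤ n ∧
      (varPoly X p R (K.erase i) yc).coeff n = (A : ℂ) := fun i hi => by
    obtain ⟨d, c', -⟩ := varPoly_coeff (X := X) (p := p) (K.erase i) R yc
      (hd.mono_right (Finset.erase_subset _ _))
    have e : (K.erase i).card = n := by rw [Finset.card_erase_of_mem hi]; omega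
    exact ⟨e ▸ d, by rw [← e, c', hA, coe_F hX]⟩
  have hevb : ∀ R' L : Finset W, L ⊆ K →
      (varPoly X p R' L yc).eval (b : ℂ) = (F X p (R' ∪ L) y : ℂ) := fun R' L hL => by
    rw [eval_varPoly, coe_F hX]
    refine mixDet_congr_y _ _ fun v _ => ?_
    by_cases hv : v ∈ L
    · rw [if_pos hv, hyK v (hL hv)]
    · rw [if_neg hv]
  have hev : ∀ (R' L : Finset W) (w : ℂ), Disjoint R' K → L ⊆ K →
      (varPoly X p R' L yc).eval w =
        mixDet X (cw p) (R' ∪ L) fun v => if v ∈ K then w else (y v : ℂ) := fun R' L w hR' hL => by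
    rw [eval_varPoly]
    refine mixDet_congr_y _ _ fun v hv => ?_
    by_cases hvL : v ∈ L
    · rw [if_pos hvL, if_pos (hL hvL)]
    · rw [if_neg hvL, if_neg (Finset.disjoint_left.1 hR' ((Finset.mem_union.1 hv).resolve_right hvL))]
  have hroots : ∀ z ∈ q.roots, z.im = 0 ∧ 0 ≤ z.re ∧ z.re < b := by
    intro z hz
    have hz0 := (Polynomial.mem_roots'.1 hz).2
    rw [Polynomial.IsRoot, hq, hev R K z hd subset_rfl] at hz0
    have him : z.im = 0 := by
      by_contra him
      rcases lt_or_gt_of_ne him with him | him
      · refine ne_zero_above hX hp h (K := K) (w := conj z)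
          (by simp only [Complex.conj_im]; linarith) (R ∪ K) subset_rfl ?_
        rw [← map_zero (starRingEnd ℂ), ← hz0, conj_mixDet hX]
        congr 1
        funext v
        split_ifs <;> simp
      · exact ne_zero_above hX hp h him (R ∪ K) subset_rfl hz0
    have hF : F X p (R ∪ K) (fun v => if v ∈ K then z.re else y v) = 0 := by
      have e : z = (z.re : ℂ) := Complex.ext rfl (by simpa using him)
      rw [e] at hz0
      refine Complex.ofReal_eq_zero.1 ?_
      rw [coe_F hX, ← hz0]
      congr 1
      funext v
      split_ifs <;> rfl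
    refine ⟨him, not_lt.1 fun hlt => ?_, not_le.1 fun hle => ?_⟩
    · have := sign_below hX hp h (t := z.re) (fun T hT _ => hin _ hlt T hT) (R ∪ K) subset_rfl
      rw [hF, mul_zero] at this
      exact lt_irrefl _ this
    · refine (h _ subset_rfl (fun v => if v ∈ K then z.re else y v) fun v _ => ?_).ne' hF
      by_cases hv : v ∈ K
      · rw [if_pos hv, hyK v hv]; exact hle
      · rw [if_neg hv]
  have key : ∀ ε : ℝ, 0 < ε →
      (A * (∑ i ∈ K, F X p (insert i (R.erase c)) y) -
          Ac * (∑ i ∈ K, F X p (insert i R) y) + ε * (K.card * A)) * F X p (R ∪ K) y ≤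
        b * A * (A * F X p ((R ∪ K).erase c) y - Ac * F X p (R ∪ K) y +
          ε * ∑ i ∈ K, F X p (R ∪ K.erase i) y) := by
    intro ε hε
    set P := Polynomial.C (A : ℂ) * G - Polynomial.C (Ac : ℂ) * q +
      Polynomial.C (ε : ℂ) * ∑ i ∈ K, varPoly X p R (K.erase i) yc with hP
    have hPd : P.natDegree ≤ n + 1 := by
      refine (Polynomial.natDegree_add_le _ _).trans (max_le ?_ ?_)
      · exact (Polynomial.natDegree_sub_le _ _).trans (max_le
          ((Polynomial.natDegree_C_mul_le _ _).trans (hn ▸ dG))
          ((Polynomial.natDegree_C_mul_le _ _).trans hqd.le))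
      · exact (Polynomial.natDegree_C_mul_le _ _).trans
          (Polynomial.natDegree_sum_le_of_forall_le _ _ fun i hi => (hQ i hi).1.trans (Nat.le_succ _))
    have hPn : P.natDegree ≤ n := by
      rw [Polynomial.natDegree_le_iff_coeff_eq_zero]
      intro m hm
      rcases (show m = n + 1 ∨ n + 1 < m by omega) with rfl | hm
      · simp only [hP, Polynomial.coeff_add, Polynomial.coeff_sub, Polynomial.coeff_C_mul,
          Polynomial.finsetSum_coeff, hGA, hqA]
        rw [Finset.sum_eq_zero fun i hi => Polynomial.coeff_eq_zero_of_natDegree_lt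
          (by have := (hQ i hi).1; omega)]
        ring
      · exact Polynomial.coeff_eq_zero_of_natDegree_lt (by omega)
    have him : ∀ w : ℂ, 0 < w.im → (P.eval w / q.eval w).im < 0 := by
      intro w hw
      set yw : W → ℂ := fun v => if v ∈ K then w else (y v : ℂ) with hyw
      have hyim : ∀ v ∈ R ∪ K, 0 ≤ (yw v).im := fun v _ => by
        simp only [hyw]; split_ifs <;> simp [hw.le]
      have hne := ne_zero_above hX hp h (K := K) hw
      have hq0 : q.eval w ≠ 0 := by rw [hq, hev R K w hd subset_rfl]; exact hne _ subset_rfl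
      have hN := Complex.normSq_pos.2 hq0
      have h1 : (G.eval w * conj (q.eval w)).im ≤ 0 := by
        have := im_mul_conj hX hp (Finset.mem_union_left K hc) hyim
        rw [show (R ∪ K).erase c = R.erase c ∪ K by
          rw [Finset.erase_union_distrib, Finset.erase_eq_of_notMem hcK],
          ← hev _ _ w hdc subset_rfl, ← hev _ _ w hd subset_rfl, ← hG, ← hq,
          show yw c = (y c : ℂ) from if_neg hcK, Complex.ofReal_im, zero_mul] at this
        simp [Complex.mul_im] at this ⊢
        linarith
      have h2 : ∀ i ∈ K, ((varPoly X p R (K.erase i) yc).eval w * conj (q.eval w)).im < 0 := by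
        intro i hi
        have hQ0 : (varPoly X p R (K.erase i) yc).eval w ≠ 0 := by
          rw [hev R _ w hd (Finset.erase_subset _ _)]
          exact hne _ (Finset.union_subset_union_right (Finset.erase_subset _ _))
        have := im_mul_conj hX hp (Finset.mem_union_right R hi) hyim
        rw [show (R ∪ K).erase i = R ∪ K.erase i by
          rw [Finset.erase_union_distrib,
            Finset.erase_eq_of_notMem (fun hiR => Finset.disjoint_left.1 hd hiR hi)],
          ← hev _ _ w hd (Finset.erase_subset _ _), ← hev _ _ w hd subset_rfl, ← hq,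
          show yw i = w from if_pos hi] at this
        have := mul_pos hw (Complex.normSq_pos.2 hQ0)
        simp [Complex.mul_im] at *
        linarith
      rw [show P.eval w / q.eval w =
          P.eval w * conj (q.eval w) / (Complex.normSq (q.eval w) : ℂ) by
        rw [← Complex.mul_conj, mul_div_mul_right _ _ ((map_ne_zero _).2 hq0)],
        Complex.div_ofReal_im]
      refine div_neg_of_neg_of_pos ?_ hN
      simp only [hP, Polynomial.eval_add, Polynomial.eval_sub, Polynomial.eval_mul,
        Polynomial.eval_C, Polynomial.eval_finsetSum, add_mul, sub_mul, mul_assoc,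
        Finset.sum_mul, Complex.add_im, Complex.sub_im, Complex.im_ofReal_mul, Complex.mul_conj,
        Complex.ofReal_im, mul_zero, sub_zero, Complex.im_sum]
      have h3 := mul_neg_of_pos_of_neg hε (Finset.sum_neg h2 hK)
      nlinarith
    have hres := residue_bound q P n hqd hPn b hroots him A hA0 hqA
    have e1 : P.coeff n = ((A * (∑ i ∈ K, F X p (insert i (R.erase c)) y) -
          Ac * (∑ i ∈ K, F X p (insert i R) y) + ε * (K.card * A) : ℝ) : ℂ) := by
      simp only [hP, Polynomial.coeff_add, Polynomial.coeff_sub, Polynomial.coeff_C_mul,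
        Polynomial.finsetSum_coeff, hG, hq, bG n hn.symm, bq n hn.symm]
      rw [Finset.sum_congr rfl fun i hi => hval (R.erase c) i hi
          fun hiR => Finset.disjoint_left.1 hdc hiR hi,
        Finset.sum_congr rfl fun i hi => hval R i hi
          fun hiR => Finset.disjoint_left.1 hd hiR hi,
        Finset.sum_congr rfl fun i hi => (hQ i hi).2, ← hA, ← hAc]
      push_cast
      simp only [Finset.sum_sub_distrib, Finset.sum_const, nsmul_eq_mul]
      ring
    have e2 : P.eval (b : ℂ) = ((A * F X p ((R ∪ K).erase c) y - Ac * F X p (R ∪ K) y +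
          ε * ∑ i ∈ K, F X p (R ∪ K.erase i) y : ℝ) : ℂ) := by
      simp only [hP, Polynomial.eval_add, Polynomial.eval_sub, Polynomial.eval_mul,
        Polynomial.eval_C, Polynomial.eval_finsetSum, hG, hq]
      rw [Finset.sum_congr rfl fun i _ => hevb R (K.erase i) (Finset.erase_subset _ _),
        hevb _ _ subset_rfl, hevb _ _ subset_rfl,
        show R.erase c ∪ K = (R ∪ K).erase c by
          rw [Finset.erase_union_distrib, Finset.erase_eq_of_notMem hcK]]
      push_cast
      ring
    rwa [e1, e2, hq, hevb _ _ subset_rfl, Complex.ofReal_re, Complex.ofReal_re,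
      Complex.ofReal_re] at hres
  set L := (A * (∑ i ∈ K, F X p (insert i (R.erase c)) y) -
    Ac * ∑ i ∈ K, F X p (insert i R) y) * F X p (R ∪ K) y
  set M := b * A * (A * F X p ((R ∪ K).erase c) y - Ac * F X p (R ∪ K) y)
  set u := (K.card * A) * F X p (R ∪ K) y
  set v := b * A * ∑ i ∈ K, F X p (R ∪ K.erase i) y
  by_contra hne
  push Not at hne
  have hpos : 0 < (L - M) / (2 * (|v - u| + 1)) := div_pos (sub_pos.2 hne) (by positivity)
  have := key _ hpos
  have h3 : (L - M) / (2 * (|v - u| + 1)) * (v - u) ≤ (L - M) / 2 := by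
    calc (L - M) / (2 * (|v - u| + 1)) * (v - u)
        ≤ (L - M) / (2 * (|v - u| + 1)) * (|v - u| + 1) :=
          mul_le_mul_of_nonneg_left (by linarith [le_abs_self (v - u)]) hpos.le
      _ = (L - M) / 2 := by field_simp
  have h4 : L + (L - M) / (2 * (|v - u| + 1)) * u ≤ M + (L - M) / (2 * (|v - u| + 1)) * v := by
    simp only [L, M, u, v] at *
    linarith
  linarith

end Vale.Agent.P078.MKS.Edge
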