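import Vale.Agent.P078.MKS.MomentsBasic

/-!
The `j`th moment at a vertex only sees the entries at graph distance at most `j`.
-/

namespace Vale.Agent.P078.MKS

namespace Moments

open Finset

variable {V : Type} [Fintype V] [DecidableEq V] {r : ℕ}

section Reach

variable {R R' : Type} [CommRing R] [CommRing R']

omit [Fintype V] [DecidableEq V] in
lemma reach_mono (X : Matrix V V R) (k : V) {m n : ℕ} (h : m ≤ n) :
    reach X k m ⊆ reach X k n := by
  induction h with
  | refl => exact subset_rfl
  | step _ ih => exact ih.trans Set.subset_union_left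

omit [Fintype V] [DecidableEq V] in
lemma mem_reach_self (X : Matrix V V R) (k : V) (n : ℕ) : k ∈ reach X k n :=
  reach_mono X k (Nat.zero_le n) rfl

omit [Fintype V] [DecidableEq V] in
lemma reach_of_le (X : Matrix V V R) (Y : Matrix V V R') (k : V)
    (h : ∀ a b, X a b ≠ 0 → Y a b ≠ 0) (n : ℕ) : reach X k n ⊆ reach Y k n := by
  induction n with
  | zero => exact subset_rfl
  | succ n ih =>
    rintro b (hb | ⟨a, ha, hab⟩)
    · exact Or.inl (ih hb)
    · exact Or.inr ⟨a, ih ha, hab.imp (h _ _) (h _ _)⟩

omit [Fintype V] [DecidableEq V] in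
lemma reach_closed (X : Matrix V V R) (E : Finset (V × V))
    (hE : ∀ a b, X a b ≠ 0 → (a, b) ∈ E) (k : V) :
    ∀ a b, X a b ≠ 0 → (a ∈ reach X k E.card ↔ b ∈ reach X k E.card) := by
  classical
  let inside : ℕ → Finset (V × V) :=
    fun n => E.filter fun e => e.1 ∈ reach X k n ∧ e.2 ∈ reach X k n
  have key : ∀ n, (∃ i < n, reach X k (i + 1) = reach X k i) ∨ n ≤ (inside n).card := by
    intro n
    induction n with
    | zero => exact Or.inr (Nat.zero_le _)
    | succ n ih =>
      rcases ih with ⟨i, hi, he⟩ | ih
      · exact Or.inl ⟨i, hi.trans n.lt_succ_self, he⟩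
      by_cases hs : reach X k (n + 1) = reach X k n
      · exact Or.inl ⟨n, n.lt_succ_self, hs⟩
      right
      have hsub : inside n ⊂ inside (n + 1) := by
        refine Finset.ssubset_iff_subset_ne.2 ⟨fun e he => ?_, fun he => hs ?_⟩
        · simp only [inside, Finset.mem_filter] at he ⊢
          exact ⟨he.1, reach_mono X k n.le_succ he.2.1, reach_mono X k n.le_succ he.2.2⟩
        refine Set.Subset.antisymm ?_ (reach_mono X k n.le_succ)
        rintro b hb
        rcases hb with hb | ⟨a, ha, hab⟩
        · exact hb
        have ha' : a ∈ reach X k (n + 1) := reach_mono X k n.le_succ ha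
        have hb' : b ∈ reach X k (n + 1) := Or.inr ⟨a, ha, hab⟩
        rcases hab with hab | hab
        · have : (a, b) ∈ inside (n + 1) := Finset.mem_filter.2 ⟨hE _ _ hab, ha', hb'⟩
          rw [← he] at this
          exact (Finset.mem_filter.1 this).2.2
        · have : (b, a) ∈ inside (n + 1) := Finset.mem_filter.2 ⟨hE _ _ hab, hb', ha'⟩
          rw [← he] at this
          exact (Finset.mem_filter.1 this).2.1
      have := Finset.card_lt_card hsub
      omega
  rcases key (E.card + 1) with ⟨i, hi, he⟩ | h
  · have hd : ∀ d, reach X k (i + d) = reach X k i := by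
      intro d
      induction d with
      | zero => rfl
      | succ d ih =>
        rw [← he, ← Nat.add_assoc, reach, reach, ih]
    obtain ⟨d, hd'⟩ := Nat.exists_eq_add_of_le (Nat.lt_succ_iff.1 hi)
    intro a b hab
    rw [hd', hd d]
    constructor <;> intro h
    · rw [← he]; exact Or.inr ⟨a, h, Or.inl hab⟩
    · rw [← he]; exact Or.inr ⟨b, h, Or.inr hab⟩
  · have := Finset.card_le_card (Finset.filter_subset
      (fun e : V × V => e.1 ∈ reach X k (E.card + 1) ∧ e.2 ∈ reach X k (E.card + 1)) E)
    simp only [inside] at h
    omega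

end Reach

open MvPolynomial

/-- The matrix of variables supported on `E`. -/
noncomputable def genMat (E : Finset (V × V)) : Matrix V V (MvPolynomial (V × V) ℂ) :=
  Matrix.of fun a b => if (a, b) ∈ E then MvPolynomial.X (a, b) else 0

omit [Fintype V] in
lemma genMat_apply_ne_zero {E : Finset (V × V)} {a b : V} :
    genMat E a b ≠ 0 ↔ (a, b) ∈ E := by
  simp [genMat, MvPolynomial.X_ne_zero]

/-- The substitution killing the variables outside `E`. -/
noncomputable def kill (E : Finset (V × V)) :
    MvPolynomial (V × V) ℂ →+* MvPolynomial (V × V) ℂ :=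
  MvPolynomial.eval₂Hom MvPolynomial.C fun e => if e ∈ E then MvPolynomial.X e else 0

omit [Fintype V] in
lemma coeff_kill (E : Finset (V × V)) (F : MvPolynomial (V × V) ℂ) (m : (V × V) →₀ ℕ) :
    coeff m (kill E F) = if m.support ⊆ E then coeff m F else 0 := by
  induction F using MvPolynomial.induction_on' with
  | monomial u a =>
    by_cases hu : u.support ⊆ E
    · have : kill E (monomial u a) = monomial u a := by
        rw [kill, eval₂Hom_monomial]
        conv_rhs => rw [monomial_eq]
        congr 1
        exact Finset.prod_congr rfl fun e he => by simp [hu he]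
      rw [this, coeff_monomial]
      by_cases h : u = m
      · subst h; simp [hu]
      · simp [h]
    · obtain ⟨e, he, he'⟩ := Finset.not_subset.1 hu
      have : kill E (monomial u a) = 0 := by
        rw [kill, eval₂Hom_monomial]
        refine mul_eq_zero_of_right _ (Finset.prod_eq_zero he ?_)
        simp only
        rw [if_neg he', zero_pow (Finsupp.mem_support_iff.1 he)]
      rw [this, coeff_zero, coeff_monomial]
      by_cases h : u = m
      · subst h; simp [hu]
      · simp [h]
  | add f g hf hg =>
    rw [map_add, coeff_add, coeff_add, hf, hg]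
    split_ifs <;> simp

/-- The generic moment. -/
noncomputable def genMom (p : V → Fin r → ℂ) (k : V) (j : ℕ) : MvPolynomial (V × V) ℂ :=
  mom (genMat univ) (fun v i => MvPolynomial.C (p v i)) k j

variable (p : V → Fin r → ℂ) (hp : ∀ v, ∑ i, p v i = 1) (k : V) (j : ℕ)

include hp

lemma kill_genMom (E : Finset (V × V)) :
    kill E (genMom p k j) = mom (genMat E) (fun v i => MvPolynomial.C (p v i)) k j := by
  rw [genMom, map_mom _ _ _ (sum_map_one _ p hp)]
  congr 1
  · ext1 a b; simp [genMat, kill]
  · funext v i; simp [kill]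

lemma eval_genMom (X : Matrix V V ℂ) :
    eval (fun e : V × V => X e.1 e.2) (genMom p k j) = mom X p k j := by
  rw [genMom, map_mom _ _ _ (sum_map_one _ p hp)]
  congr 1
  · ext1 a b; simp [genMat]
  · funext v i; simp

lemma genMom_degree {m : (V × V) →₀ ℕ} (hm : coeff m (genMom p k j) ≠ 0) :
    (m.sum fun _ n => n) = j := by
  let ψ : MvPolynomial (V × V) ℂ →+* Polynomial (MvPolynomial (V × V) ℂ) :=
    eval₂Hom (Polynomial.C.comp MvPolynomial.C)
      fun e => Polynomial.X * Polynomial.C (MvPolynomial.X e)
  have hmono : ∀ (u : (V × V) →₀ ℕ) (a : ℂ),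
      ψ (monomial u a) = Polynomial.C (monomial u a) * Polynomial.X ^ (u.sum fun _ n => n) := by
    intro u a
    show eval₂Hom _ _ _ = _
    rw [eval₂Hom_monomial]
    conv_rhs => rw [monomial_eq]
    simp only [RingHom.coe_comp, Function.comp_apply, mul_pow, Finsupp.prod, Finsupp.sum,
      Finset.prod_mul_distrib, Finset.prod_pow_eq_pow_sum, map_mul, map_prod, map_pow]
    ring
  have hcoe : ∀ (F : MvPolynomial (V × V) ℂ) (u : (V × V) →₀ ℕ) (i : ℕ),
      coeff u ((ψ F).coeff i) = if (u.sum fun _ n => n) = i then coeff u F else 0 := by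
    intro F u i
    induction F using MvPolynomial.induction_on' with
    | monomial w a =>
      rw [hmono, Polynomial.coeff_C_mul, Polynomial.coeff_X_pow, coeff_monomial]
      by_cases hwu : w = u
      · subst hwu
        by_cases hi : (w.sum fun _ n => n) = i
        · subst hi; simp
        · simp [hi, Ne.symm hi]
      · split_ifs <;> simp [hwu]
    | add f g hf hg =>
      rw [map_add, Polynomial.coeff_add, coeff_add, hf, hg, coeff_add]
      split_ifs <;> simp
  have hψ : ψ (genMom p k j) = Polynomial.X ^ j * Polynomial.C (genMom p k j) := by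
    have hC := sum_map_one (MvPolynomial.C (σ := V × V)) p hp
    rw [genMom, map_mom ψ _ _ hC, map_mom Polynomial.C _ _ hC,
      ← mom_smul Polynomial.X _ _ (sum_map_one Polynomial.C _ hC)]
    congr 1
    · ext1 a b; simp [genMat, ψ]
    · funext v i; simp [ψ]
  by_contra hne
  have h := hcoe (genMom p k j) m (m.sum fun _ n => n)
  rw [hψ, mul_comm, Polynomial.coeff_C_mul, Polynomial.coeff_X_pow, if_neg hne, if_pos rfl,
    mul_zero, coeff_zero] at h
  exact hm h.symm

lemma genMom_connected {m : (V × V) →₀ ℕ} (hm : coeff m (genMom p k j) ≠ 0) :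
    ∀ e ∈ m.support, e.1 ∈ reach (genMat m.support) k m.support.card ∧
      e.2 ∈ reach (genMat m.support) k m.support.card := by
  classical
  let U : Set V := reach (genMat m.support) k m.support.card
  let E' : Finset (V × V) := m.support.filter fun e => e.1 ∈ U ∧ e.2 ∈ U
  have hC := sum_map_one (MvPolynomial.C (σ := V × V)) p hp
  have hcl := reach_closed (genMat m.support) m.support
    (fun a b h => genMat_apply_ne_zero.1 h) k
  have h1 := mom_component (Subtype.val : U → V) Subtype.val_injective (genMat m.support)
    (fun v i => MvPolynomial.C (p v i)) hC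
    (fun a b h => by simpa [U] using hcl a b h) ⟨k, mem_reach_self _ _ _⟩ j
  have h2 := mom_component (Subtype.val : U → V) Subtype.val_injective (genMat E')
    (fun v i => MvPolynomial.C (p v i)) hC
    (fun a b h => by
      have := (Finset.mem_filter.1 (genMat_apply_ne_zero.1 h)).2
      simp [this.1, this.2]) ⟨k, mem_reach_self _ _ _⟩ j
  have hsub : (genMat m.support).submatrix (Subtype.val : U → V) (Subtype.val : U → V) =
      (genMat E').submatrix (Subtype.val : U → V) (Subtype.val : U → V) := by
    ext1 a b; simp [genMat, E', a.2, b.2]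
  have heq : kill m.support (genMom p k j) = kill E' (genMom p k j) := by
    rw [kill_genMom p hp, kill_genMom p hp, h1, h2, hsub]
  have h := congrArg (coeff m) heq
  rw [coeff_kill, coeff_kill, if_pos subset_rfl] at h
  intro e he
  by_contra hc
  rw [if_neg] at h
  · exact hm h
  · exact fun hsub => hc (Finset.mem_filter.1 (hsub he)).2

lemma mom_local {W : Type} [Fintype W] [DecidableEq W] (ι : W → V) (hι : Function.Injective ι)
    (X : Matrix V V ℂ) (k : W) (j : ℕ) (h : reach X (ι k) j ⊆ Set.range ι) :
    mom X p (ι k) j = mom (X.submatrix ι ι) (fun w => p (ι w)) k j := by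
  classical
  let X' : Matrix V V ℂ :=
    Matrix.of fun a b => if a ∈ Set.range ι ∧ b ∈ Set.range ι then X a b else 0
  have hsub : X'.submatrix ι ι = X.submatrix ι ι := by ext a b; simp [X']
  have h' := mom_component ι hι X' p hp (fun a b hab => by
    simp only [X', Matrix.of_apply, ne_eq, ite_eq_right_iff, Classical.not_imp] at hab
    simp only [hab.1.1, hab.1.2]) k j
  rw [hsub] at h'
  rw [← h', ← eval_genMom p hp (ι k) j X, ← eval_genMom p hp (ι k) j X', eval_eq, eval_eq]
  refine Finset.sum_congr rfl fun m hm => ?_
  rw [MvPolynomial.mem_support_iff] at hm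
  congr 1
  by_cases hz : ∀ e ∈ m.support, X e.1 e.2 ≠ 0
  · refine Finset.prod_congr rfl fun e he => ?_
    have hcard : m.support.card ≤ j := by
      rw [← genMom_degree p hp (ι k) j hm, Finsupp.sum, Finset.card_eq_sum_ones]
      exact Finset.sum_le_sum fun e he =>
        Nat.one_le_iff_ne_zero.2 (Finsupp.mem_support_iff.1 he)
    have hsubset : reach (genMat m.support) (ι k) m.support.card ⊆ Set.range ι :=
      (reach_of_le _ X _ (fun a b hab => hz (a, b) (genMat_apply_ne_zero.1 hab)) _).trans
        ((reach_mono X _ hcard).trans h)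
    have hc := genMom_connected p hp (ι k) j hm e he
    have hin : e.1 ∈ Set.range ι ∧ e.2 ∈ Set.range ι := ⟨hsubset hc.1, hsubset hc.2⟩
    simp only [X', Matrix.of_apply, if_pos hin]
  · push Not at hz
    obtain ⟨e, he, hez⟩ := hz
    have hne : m e ≠ 0 := Finsupp.mem_support_iff.1 he
    rw [Finset.prod_eq_zero he (by rw [hez, zero_pow hne]),
      Finset.prod_eq_zero he (by simp [X', hez, hne])]

end Moments

end Vale.Agent.P078.MKS
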