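import Vale.Agent.P078.MKS.Statements
import Vale.Agent.P078.MKS.MomentsLocal

/-!
Moments of the expected characteristic polynomials: power sums of the roots, partial fractions,
locality and the case of a full colouring (`moment_ok`).
-/

namespace Vale.Agent.P078.MKS

namespace Moments

open Finset

variable {V : Type} [Fintype V] [DecidableEq V] {r : ℕ}

/-! ### The reversed polynomial -/

/-- The reversed expected characteristic polynomial, as a polynomial. -/
noncomputable def revPoly (X : Matrix V V ℂ) (p : V → Fin r → ℂ) (S : Finset V) : Polynomial ℂ :=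
  mixDet (X.map fun a => Polynomial.C a * Polynomial.X) (fun v i => Polynomial.C (p v i)) S
    fun _ => 1

lemma coe_revPoly (X : Matrix V V ℂ) (p : V → Fin r → ℂ) (S : Finset V) :
    (revPoly X p S : PowerSeries ℂ) = revMix X p S := by
  have h1 : (X.map fun a => Polynomial.C a * Polynomial.X).map
      (Polynomial.coeToPowerSeries.ringHom (R := ℂ)) =
      X.map fun a => PowerSeries.C a * PowerSeries.X := by ext1 a b; simp
  have h2 : ((Polynomial.coeToPowerSeries.ringHom (R := ℂ)) ∘ fun _ : V => (1 : Polynomial ℂ)) =
      fun _ => 1 := by funext v; simp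
  rw [← Polynomial.coeToPowerSeries.ringHom_apply, revPoly, map_mixDet, h1, h2, revMix]
  simp

lemma eval_revPoly (X : Matrix V V ℂ) (p : V → Fin r → ℝ) (S : Finset V) {x : ℂ} (hx : x ≠ 0) :
    (revPoly X (cw p) S).eval x = x ^ S.card * (charMix X p S).eval x⁻¹ := by
  rw [← Polynomial.coe_evalRingHom, ← Polynomial.coe_evalRingHom, revPoly, charMix, map_mixDet,
    map_mixDet]
  simp only [mixDet, Finset.mul_sum]
  refine Finset.sum_congr rfl fun f _ => ?_
  have hb : block ((X.map fun a => Polynomial.C a * Polynomial.X).map (Polynomial.evalRingHom x))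
      f S (Polynomial.evalRingHom x ∘ fun _ => 1) =
      Matrix.diagonal (fun v => if v ∈ S then x else 1) *
        block ((X.map Polynomial.C).map (Polynomial.evalRingHom x⁻¹)) f S
          (Polynomial.evalRingHom x⁻¹ ∘ fun _ => Polynomial.X) := by
    ext a b
    simp only [Matrix.diagonal_mul, block, Matrix.map_apply, Matrix.of_apply, Function.comp,
      Polynomial.coe_evalRingHom, Polynomial.eval_mul, Polynomial.eval_C, Polynomial.eval_X,
      Polynomial.eval_one]
    by_cases ha : a ∈ S
    · by_cases hb : b ∈ S
      · simp only [ha, hb, and_self, if_true]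
        split_ifs <;> field_simp <;> ring
      · have hab : a ≠ b := fun h => hb (h ▸ ha)
        simp [hb, hab]
    · simp [ha]
  rw [hb, Matrix.det_mul, Matrix.det_diagonal]
  simp only [Finset.prod_ite_mem, Finset.univ_inter, Finset.prod_const,
    Polynomial.coe_evalRingHom, Polynomial.eval_C]
  ring

lemma eq_of_eval_ne_zero {P Q : Polynomial ℂ} (h : ∀ x : ℂ, x ≠ 0 → P.eval x = Q.eval x) :
    P = Q :=
  Polynomial.eq_of_infinite_eval_eq P Q
    ((Set.finite_singleton (0 : ℂ)).infinite_compl.mono fun x hx => h x hx)

lemma charMix_univ (X : Matrix V V ℂ) (p : V → Fin r → ℝ) (hp : ∀ v, ∑ i, cw p v i = 1) :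
    (charMix X p univ).Monic ∧ (charMix X p univ).natDegree = Fintype.card V := by
  have hblock : ∀ f : V → Fin r, (block (X.map Polynomial.C) f univ fun _ => Polynomial.X).det =
      (Matrix.of fun a b => if f a = f b then X a b else 0 : Matrix V V ℂ).charpoly := by
    intro f
    rw [Matrix.charpoly]
    congr 1
    ext1 a b
    simp only [block, Matrix.charmatrix_apply, Matrix.of_apply, Matrix.map_apply,
      Finset.mem_univ, and_self, if_true, Matrix.diagonal_apply, apply_ite Polynomial.C, map_zero]
  have hsum : charMix X p univ = ∑ f : V → Fin r, Polynomial.C (∏ v, cw p v (f v)) *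
      (Matrix.of fun a b => if f a = f b then X a b else 0 : Matrix V V ℂ).charpoly := by
    rw [charMix, mixDet]
    exact Finset.sum_congr rfl fun f _ => by rw [hblock, map_prod]
  have hle : (charMix X p univ).natDegree ≤ Fintype.card V := by
    rw [hsum]
    refine Polynomial.natDegree_sum_le_of_forall_le _ _ fun f _ =>
      (Polynomial.natDegree_C_mul_le _ _).trans ?_
    rw [Matrix.charpoly_natDegree_eq_dim]
  have hc : (charMix X p univ).coeff (Fintype.card V) = 1 := by
    rw [hsum, Polynomial.finsetSum_coeff]
    have h1 : ∀ f : V → Fin r, (Matrix.of fun a b => if f a = f b then X a b else 0 :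
        Matrix V V ℂ).charpoly.coeff (Fintype.card V) = 1 := fun f => by
      have := (Matrix.charpoly_monic (Matrix.of fun a b => if f a = f b then X a b else 0 :
        Matrix V V ℂ)).coeff_natDegree
      rwa [Matrix.charpoly_natDegree_eq_dim] at this
    simp only [Polynomial.coeff_C_mul, h1, mul_one]
    rw [← Fintype.prod_sum]
    simp [hp]
  refine ⟨Polynomial.monic_of_natDegree_le_of_coeff_eq_one _ hle hc, le_antisymm hle ?_⟩
  exact Polynomial.le_natDegree_of_ne_zero (by rw [hc]; exact one_ne_zero)

/-! ### Determinants with a unit row -/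

lemma det_unit_row {R : Type} [CommRing R] (M B : Matrix V V R) (k : V)
    (hrow : B k = Pi.single k 1) (hB : ∀ a b, a ≠ k → b ≠ k → B a b = M a b) :
    B.det = ∑ σ : Equiv.Perm V, if σ k = k then
      Equiv.Perm.sign σ • ∏ i ∈ univ.erase k, M (σ i) i else 0 := by
  rw [Matrix.det_apply]
  refine Finset.sum_congr rfl fun σ _ => ?_
  rw [← Finset.mul_prod_erase univ _ (Finset.mem_univ k)]
  split_ifs with h
  · rw [h, hrow, Pi.single_eq_same, one_mul]
    congr 1
    refine Finset.prod_congr rfl fun i hi => ?_
    have hik : i ≠ k := Finset.ne_of_mem_erase hi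
    exact hB _ _ (fun he => hik (σ.injective (he.trans h.symm))) hik
  · have hi : σ.symm k ≠ k := fun he => h (by conv_lhs => rw [← he, Equiv.apply_symm_apply])
    have hz : B (σ (σ.symm k)) (σ.symm k) = 0 := by
      rw [Equiv.apply_symm_apply, hrow, Pi.single_eq_of_ne hi]
    have hp0 : ∏ x ∈ univ.erase k, B (σ x) x = 0 :=
      Finset.prod_eq_zero (Finset.mem_erase.2 ⟨hi, Finset.mem_univ _⟩) hz
    simp [hp0]

omit [Fintype V] in
lemma block_erase_row {R : Type} [CommRing R] [Fintype V] (X : Matrix V V R) (f : V → Fin r)
    (k : V) (y : V → R) : block X f (univ.erase k) y k = Pi.single k 1 := by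
  funext b
  simp [block, Pi.single_apply, eq_comm]

omit [Fintype V] in
lemma block_erase_apply {R : Type} [CommRing R] [Fintype V] (X : Matrix V V R) (f : V → Fin r)
    (k a b : V) (y : V → R) (ha : a ≠ k) (hb : b ≠ k) :
    block X f (univ.erase k) y a b = block X f univ y a b := by
  simp [block, ha, hb]

lemma derivative_charMix (X : Matrix V V ℂ) (p : V → Fin r → ℝ) :
    Polynomial.derivative (charMix X p univ) = ∑ k, charMix X p (univ.erase k) := by
  simp only [charMix, mixDet, Polynomial.derivative_sum]
  rw [Finset.sum_comm]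
  refine Finset.sum_congr rfl fun f _ => ?_
  rw [← map_prod, Polynomial.derivative_C_mul, ← Finset.mul_sum]
  congr 1
  have hd : ∀ a b, Polynomial.derivative (block (X.map Polynomial.C) f univ
      (fun _ => Polynomial.X) a b) = if a = b then 1 else 0 := by
    intro a b
    simp only [block, Matrix.of_apply, Finset.mem_univ, and_self, if_true, Matrix.map_apply]
    split_ifs <;> simp
  have hk : ∀ k, (block (X.map Polynomial.C) f (univ.erase k) fun _ => Polynomial.X).det =
      ∑ σ : Equiv.Perm V, if σ k = k then Equiv.Perm.sign σ • ∏ i ∈ univ.erase k,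
        block (X.map Polynomial.C) f univ (fun _ => Polynomial.X) (σ i) i else 0 :=
    fun k => det_unit_row _ _ k (block_erase_row _ _ _ _)
      fun a b ha hb => block_erase_apply _ _ _ _ _ _ ha hb
  rw [Finset.sum_congr rfl fun k _ => hk k, Finset.sum_comm, Matrix.det_apply,
    Polynomial.derivative_sum]
  refine Finset.sum_congr rfl fun σ _ => ?_
  rw [Units.smul_def, Polynomial.derivative_smul, Polynomial.derivative_prod_finset,
    Finset.smul_sum]
  refine Finset.sum_congr rfl fun i _ => ?_
  rw [hd]
  split_ifs <;> simp [Units.smul_def]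

/-! ### Geometric series -/

/-- The series `∏ (1 - z T)`. -/
noncomputable def revProd (s : Multiset ℂ) : PowerSeries ℂ :=
  (s.map fun z => 1 - PowerSeries.C z * PowerSeries.X).prod

/-- The geometric series of `z`. -/
noncomputable def geo (z : ℂ) : PowerSeries ℂ := PowerSeries.mk fun n => z ^ n

lemma one_sub_mul_geo (z : ℂ) : (1 - PowerSeries.C z * PowerSeries.X) * geo z = 1 := by
  ext n
  rw [sub_mul, one_mul, map_sub, mul_assoc, PowerSeries.coeff_C_mul]
  cases n with
  | zero => simp [geo, PowerSeries.coeff_mk]
  | succ n =>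
    rw [PowerSeries.coeff_succ_X_mul]
    simp [geo, PowerSeries.coeff_mk, pow_succ']

lemma revProd_erase {s : Multiset ℂ} {z : ℂ} (hz : z ∈ s) :
    revProd (s.erase z) = revProd s * geo z := by
  conv_rhs => rw [revProd, ← Multiset.cons_erase hz, Multiset.map_cons, Multiset.prod_cons]
  have h := one_sub_mul_geo z
  rw [revProd]
  linear_combination -((s.erase z).map fun z => 1 - PowerSeries.C z * PowerSeries.X).prod * h

lemma coe_prod_one_sub (s : Multiset ℂ) :
    (((s.map fun z => 1 - Polynomial.C z * Polynomial.X).prod : Polynomial ℂ) : PowerSeries ℂ) =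
      revProd s := by
  rw [← Polynomial.coeToPowerSeries.ringHom_apply, map_multiset_prod, Multiset.map_map, revProd]
  simp [Function.comp_def]

lemma eval_prod_one_sub (s : Multiset ℂ) {x : ℂ} (hx : x ≠ 0) :
    (s.map fun z => 1 - Polynomial.C z * Polynomial.X).prod.eval x =
      x ^ Multiset.card s * (s.map fun z => Polynomial.X - Polynomial.C z).prod.eval x⁻¹ := by
  induction s using Multiset.induction_on with
  | empty => simp
  | cons a s ih =>
    simp only [Multiset.map_cons, Multiset.prod_cons, Polynomial.eval_mul, ih,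
      Multiset.card_cons, pow_succ, Polynomial.eval_sub, Polynomial.eval_one, Polynomial.eval_X,
      Polynomial.eval_C]
    field_simp

lemma roots_data (X : Matrix V V ℂ) (p : V → Fin r → ℝ) (hp : ∀ v, ∑ i, cw p v i = 1) :
    charMix X p univ =
        ((charMix X p univ).roots.map fun z => Polynomial.X - Polynomial.C z).prod ∧
      Multiset.card (charMix X p univ).roots = Fintype.card V ∧
      revMix X (cw p) univ = revProd (charMix X p univ).roots := by
  obtain ⟨hmon, hdeg⟩ := charMix_univ X p hp
  have hsplit : (charMix X p univ).Splits := IsAlgClosed.splits _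
  have hPs := hsplit.eq_prod_roots_of_monic hmon
  have hcard : Multiset.card (charMix X p univ).roots = Fintype.card V := by
    rw [← hdeg]; exact hsplit.natDegree_eq_card_roots.symm
  refine ⟨hPs, hcard, ?_⟩
  rw [← coe_revPoly, ← coe_prod_one_sub]
  congr 1
  refine eq_of_eval_ne_zero fun x hx => ?_
  rw [eval_revPoly X p univ hx, eval_prod_one_sub _ hx, ← hPs, hcard, Finset.card_univ]

lemma sum_mom (X : Matrix V V ℂ) (p : V → Fin r → ℝ) (hp : ∀ v, ∑ i, cw p v i = 1) (j : ℕ) :
    ∑ k, mom X (cw p) k j = ((charMix X p univ).roots.map fun z => z ^ j).sum := by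
  obtain ⟨hPs, hcard, hrev⟩ := roots_data X p hp
  set s := (charMix X p univ).roots with hs
  set P := charMix X p univ with hP

  have hpoly : ∑ k, revPoly X (cw p) (univ.erase k) =
      (s.map fun z => ((s.erase z).map fun z => 1 - Polynomial.C z * Polynomial.X).prod).sum := by
    refine eq_of_eval_ne_zero fun x hx => ?_
    have hd : Polynomial.derivative P =
        (s.map fun z => ((s.erase z).map fun z => Polynomial.X - Polynomial.C z).prod).sum := by
      rw [hPs, Polynomial.derivative_prod]
      simp
    rw [hP, derivative_charMix] at hd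
    have hd' := congrArg (fun Q => x ^ (Fintype.card V - 1) * Polynomial.eval x⁻¹ Q) hd
    simp only [Polynomial.eval_finsetSum, Finset.mul_sum, Polynomial.eval_multisetSum,
      Multiset.map_map, Function.comp_def, ← Multiset.sum_map_mul_left] at hd'
    simp only [Polynomial.eval_finsetSum, eval_revPoly X p _ hx,
      Finset.card_erase_of_mem (Finset.mem_univ _), Finset.card_univ,
      Polynomial.eval_multisetSum, Multiset.map_map, Function.comp_def]
    rw [hd']
    congr 1
    refine Multiset.map_congr rfl fun z hz => ?_
    rw [eval_prod_one_sub _ hx, Multiset.card_erase_of_mem hz, hcard]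
    rfl
  have hseries : ∑ k, revMix X (cw p) (univ.erase k) =
      revProd s * (s.map geo).sum := by
    simp only [← coe_revPoly]
    rw [← Multiset.sum_map_mul_left]
    simp only [← Polynomial.coeToPowerSeries.ringHom_apply]
    rw [← map_sum, hpoly, map_multiset_sum, Multiset.map_map]
    congr 1
    refine Multiset.map_congr rfl fun z hz => ?_
    rw [Function.comp_apply, Polynomial.coeToPowerSeries.ringHom_apply, coe_prod_one_sub,
      revProd_erase hz]
  have h := mul_inv_revMix X (cw p) hp
  simp only [mom, ← map_sum, ← Finset.sum_mul]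
  rw [hseries, ← hrev]
  rw [show revMix X (cw p) univ * (s.map geo).sum *
      PowerSeries.invOfUnit (revMix X (cw p) univ) 1 = (s.map geo).sum by
    linear_combination (s.map geo).sum * h]
  rw [map_multiset_sum, Multiset.map_map]
  simp [geo, Function.comp_def]

lemma mom_partial (X : Matrix V V ℂ) (p : V → Fin r → ℝ) (hp : ∀ v, ∑ i, cw p v i = 1) (k : V)
    (w : ℂ → ℂ) (hw : charMix X p (univ.erase k) = ∑ z ∈ (charMix X p univ).roots.toFinset,
      Polynomial.C (w z) * (charMix X p univ /ₘ (Polynomial.X - Polynomial.C z))) (j : ℕ) :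
    mom X (cw p) k j = ∑ z ∈ (charMix X p univ).roots.toFinset, w z * z ^ j := by
  obtain ⟨hPs, hcard, hrev⟩ := roots_data X p hp
  set s := (charMix X p univ).roots with hs
  set P := charMix X p univ with hP

  rw [mom_of_mul (g := ∑ z ∈ s.toFinset, PowerSeries.C (w z) * geo z) hp ?_ j]
  · simp [map_sum, geo, PowerSeries.coeff_C_mul]
  have hdiv : ∀ z ∈ s, P /ₘ (Polynomial.X - Polynomial.C z) =
      ((s.erase z).map fun z => Polynomial.X - Polynomial.C z).prod := by
    intro z hz
    conv_lhs => rw [hPs, ← Multiset.cons_erase hz, Multiset.map_cons, Multiset.prod_cons]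
    exact Polynomial.mul_divByMonic_cancel_left _ (Polynomial.monic_X_sub_C z)
  have hpoly : revPoly X (cw p) (univ.erase k) = ∑ z ∈ s.toFinset, Polynomial.C (w z) *
      ((s.erase z).map fun z => 1 - Polynomial.C z * Polynomial.X).prod := by
    refine eq_of_eval_ne_zero fun x hx => ?_
    rw [eval_revPoly X p _ hx, hw, Polynomial.eval_finsetSum, Polynomial.eval_finsetSum,
      Finset.mul_sum, Finset.card_erase_of_mem (Finset.mem_univ _), Finset.card_univ]
    refine Finset.sum_congr rfl fun z hz => ?_
    have hz' : z ∈ s := Multiset.mem_toFinset.1 hz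
    rw [Polynomial.eval_mul, Polynomial.eval_mul, Polynomial.eval_C, Polynomial.eval_C,
      hdiv z hz', eval_prod_one_sub _ hx, Multiset.card_erase_of_mem hz', hcard, Nat.pred_eq_sub_one]
    ring
  rw [← coe_revPoly, hpoly, hrev, ← Polynomial.coeToPowerSeries.ringHom_apply, map_sum,
    Finset.mul_sum]
  refine Finset.sum_congr rfl fun z hz => ?_
  rw [map_mul, Polynomial.coeToPowerSeries.ringHom_apply,
    Polynomial.coeToPowerSeries.ringHom_apply, Polynomial.coe_C, coe_prod_one_sub,
    revProd_erase (Multiset.mem_toFinset.1 hz)]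
  ring

lemma mom_full (X : Matrix V V ℂ) (p : V → Fin r → ℝ) (hp : ∀ v, ∑ i, cw p v i = 1)
    (f : V → Fin r) (hf : p = fun v => Pi.single (f v) 1) (k : V) (j : ℕ) :
    mom X (cw p) k j =
      (Matrix.of (fun a b => if f a = f b then X a b else 0) ^ j : Matrix V V ℂ) k k := by

  have hw : ∀ g : V → Fin r,
      (∏ v, PowerSeries.C (cw p v (g v))) = if g = f then 1 else 0 := by
    intro g
    split_ifs with h
    · subst h
      exact Finset.prod_eq_one fun v _ => by simp [cw, hf]
    · obtain ⟨v, hv⟩ := Function.ne_iff.1 h
      exact Finset.prod_eq_zero (Finset.mem_univ v) (by simp [cw, hf, hv])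
  have hrevS : ∀ S, revMix X (cw p) S =
      (block (X.map fun a => PowerSeries.C a * PowerSeries.X) f S fun _ => 1).det := by
    intro S
    simp [revMix, mixDet, hw]
  set M : Matrix V V ℂ := Matrix.of (fun a b => if f a = f b then X a b else 0) with hM
  set A : Matrix V V (PowerSeries ℂ) :=
    block (X.map fun a => PowerSeries.C a * PowerSeries.X) f univ fun _ => 1 with hA
  let N : Matrix V V (PowerSeries ℂ) :=
    Matrix.of fun a b => PowerSeries.mk fun n => (M ^ n) a b
  have hAN : A * N = 1 := by
    ext a b n
    have hent : ∀ c, A a c * N c b =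
        (if a = c then N c b else 0) - PowerSeries.C (M a c) * (PowerSeries.X * N c b) := by
      intro c
      simp only [hA, hM, block, Matrix.of_apply, Finset.mem_univ, and_self, if_true,
        Matrix.map_apply]
      split_ifs <;> simp [sub_mul, mul_assoc]
    rw [Matrix.mul_apply, Finset.sum_congr rfl fun c _ => hent c, Finset.sum_sub_distrib,
      Finset.sum_ite_eq, if_pos (Finset.mem_univ _), map_sub, map_sum]
    simp only [PowerSeries.coeff_C_mul]
    cases n with
    | zero =>
      simp only [N, Matrix.of_apply, PowerSeries.coeff_zero_X_mul, mul_zero,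
        Finset.sum_const_zero, sub_zero, PowerSeries.coeff_mk, pow_zero]
      rcases eq_or_ne a b with h | h <;> simp [Matrix.one_apply, h]
    | succ n =>
      simp only [N, Matrix.of_apply, PowerSeries.coeff_succ_X_mul, PowerSeries.coeff_mk,
        pow_succ' M n, Matrix.mul_apply, sub_self]
      rcases eq_or_ne a b with h | h <;> simp [Matrix.one_apply, h]
  have hadj : A.adjugate = A.det • N := by
    have h := congrArg (A.adjugate * ·) hAN
    simpa [← Matrix.mul_assoc, Matrix.adjugate_mul] using h.symm
  have hQ : revMix X (cw p) (univ.erase k) = A.adjugate k k := by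
    rw [hrevS, Matrix.adjugate_apply,
      det_unit_row A _ k (block_erase_row _ _ _ _)
        (fun a b ha hb => block_erase_apply _ _ _ _ _ _ ha hb),
      det_unit_row A (A.updateRow k (Pi.single k 1)) k (by simp)
        (fun a b ha hb => by simp [Matrix.updateRow_ne ha])]
  rw [mom_of_mul (g := N k k) hp ?_ j]
  · simp [N]
  rw [hQ, hadj, hrevS]
  simp [hA]

end Moments

open Moments Finset in
/-- Power sums, partial fractions, locality and full colourings for the moments. -/
theorem moment_ok : MomentStatement := by
  intro V _ _ r X p hprob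
  have hp : ∀ v, ∑ i, cw p v i = 1 := fun v => by
    have h := congrArg (Complex.ofReal) (hprob v).2
    simpa [cw] using h
  exact ⟨sum_mom X p hp, mom_partial X p hp,
    fun W _ _ ι hι k j h => mom_local (cw p) hp ι hι X k j h, mom_full X p hp⟩

end Vale.Agent.P078.MKS
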