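import Vale.Agent.P078.MKS.Gauge

/-!
The diagonal of the powers of a pinched window matrix comes from the powers of the pinched
operator.
-/

namespace Vale.Agent.P078.MKS.Op

open Singular
open scoped Classical

variable {H : Type} [NormedAddCommGroup H] [InnerProductSpace ℂ H] [CompleteSpace H]
  {M A : VonNeumannAlgebra H} {e : H →L[ℂ] H}

variable (hM : IsMASA M A) (he : IsPr A e)
include hM he

/-- Powers of a sum of monomials as sums of monomials, with the matching power of the window. -/
lemma exists_power (D : Gen M A e) {K : Type} [Fintype K] (a g : K → (H →L[ℂ] H))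
    (ha : ∀ i, a i ∈ A) (hg : ∀ i, g i ∈ normaliser M A) (hgc : ∀ i, e * g i * e = g i)
    (hstep : ∀ i (η ζ : Pt A), Moves (g i) η ζ → ∃ k, Moves (D.g k) η ζ) :
    ∀ j : ℕ, ∃ (L : Type) (_ : Fintype L) (b w : L → (H →L[ℂ] H)),
      (∀ l, b l ∈ A ∧ w l ∈ normaliser M A ∧ e * w l * e = w l ∧
        ∀ η ζ, Moves (w l) η ζ → D.Reaches j η ζ) ∧
      (∑ i, a i * g i) ^ j * e = ∑ l, b l * w l ∧
      ∀ (χ : Pt A) (U : Finset (Pt A)) (R : Pt A → (H →L[ℂ] H)), IsFrame M e χ U R →
        ∀ c : U, (∀ ζ, D.Reaches j c ζ → ζ ∈ U) → ∀ u : U,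
          ((wmat a g χ R U) ^ j : Matrix U U ℂ) u c = coef b w χ R u c
  | 0 => ⟨Unit, inferInstance, fun _ => 1, fun _ => e,
      fun _ => ⟨one_mem A, proj_mem_nor hM he,
        by rw [he.2.isIdempotentElem.eq, he.2.isIdempotentElem.eq],
        fun η ζ h => ⟨Fin.elim0, h⟩⟩,
      by simp,
      fun χ U R hR c _ u => by
        simp only [coef, pow_zero, Matrix.one_apply, Finset.univ_unique, Finset.sum_singleton,
          ev_one, one_mul, val_frame_self hM he hR u.2 c.2]
        exact if_congr Subtype.ext_iff rfl rfl⟩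
  | j + 1 => by
    obtain ⟨L, _, b, w, hbw, hsum, hpow⟩ := exists_power D a g ha hg hgc hstep j
    refine ⟨K × L, inferInstance, fun q => a q.1 * (g q.1 * b q.2 * star (g q.1)),
      fun q => g q.1 * w q.2, fun q => ⟨mul_mem (ha _) ((hg q.1).2.2 _ (hbw q.2).1).1,
        nor_mul_mem hM (hg _) (hbw q.2).2.1, ?_, fun η ζ h => ?_⟩, ?_, ?_⟩
    · have h1 := hgc q.1
      have h2 := (hbw q.2).2.2.1
      have h3 : e * g q.1 = g q.1 := by
        conv_lhs => rw [← h1]
        simp only [← mul_assoc, he.2.isIdempotentElem.eq]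
        exact h1
      have h4 : w q.2 * e = w q.2 := by
        conv_lhs => rw [← h2]
        simp only [mul_assoc, he.2.isIdempotentElem.eq]
        simpa only [mul_assoc] using h2
      rw [← mul_assoc e, h3, mul_assoc, h4]
    · obtain ⟨θ, h1, h2⟩ := moves_split hM (hg _) (hbw q.2).2.1 h
      exact (reaches_succ hM he D).2 ⟨θ, (hbw q.2).2.2.2 η θ h1, hstep _ θ ζ h2⟩
    · rw [pow_succ', mul_assoc, hsum, Fintype.sum_prod_type, Finset.sum_mul]
      refine Finset.sum_congr rfl fun i _ => ?_
      rw [Finset.mul_sum]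
      refine Finset.sum_congr rfl fun l _ => ?_
      calc a i * g i * (b l * w l) = a i * (g i * b l) * w l := by simp only [mul_assoc]
        _ = a i * (g i * b l * star (g i) * g i) * w l := by rw [← nor_mul hM (hg i) (hbw l).1]
        _ = _ := by simp only [mul_assoc]
    · intro χ U R hR c hc u
      have hprev := hpow χ U R hR c fun ζ hζ => hc ζ (reaches_mono hM he D j.le_succ hζ)
      rw [pow_succ', Matrix.mul_apply]
      simp only [hprev]
      simp only [wmat, Matrix.of_apply, coef, Finset.sum_mul, Finset.mul_sum]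
      rw [Fintype.sum_prod_type, Finset.sum_comm]
      refine Eq.trans ?_ Finset.sum_comm
      refine Finset.sum_congr rfl fun l _ => ?_
      rw [Finset.sum_comm]
      refine Finset.sum_congr rfl fun i _ => ?_
      obtain ⟨hbA, hwn, -, hwreach⟩ := hbw l
      obtain ⟨hRu, hum, -⟩ := hR u u.2
      obtain ⟨hRc, hcm, -⟩ := hR c c.2
      have hgb : g i * b l * star (g i) ∈ A := ((hg i).2.2 _ hbA).1
      show (∑ v : U, ev (u : Pt A) (a i) * val χ (star (R u) * g i * R v) *
          (ev (v : Pt A) (b l) * val χ (star (R v) * w l * R c))) =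
        ev (u : Pt A) (a i * (g i * b l * star (g i))) *
          val χ (star (R u) * (g i * w l) * R c)
      rw [ev_mul _ (ha i) hgb]
      by_cases hth : ∃ θ : Pt A, Moves (w l) (c : Pt A) θ ∧ Moves (g i) θ (u : Pt A)
      · obtain ⟨θ, h1, h2⟩ := hth
        have hθ : θ ∈ U := hc θ (reaches_mono hM he D j.le_succ (hwreach _ _ h1))
        obtain ⟨hRθ, hθm, -⟩ := hR θ hθ
        rw [Finset.sum_eq_single (⟨θ, hθ⟩ : U)]
        · have hr := moves_range hM hRθ hθm
          have hb : ev (u : Pt A) (g i * b l * star (g i)) = ev θ (b l) := by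
            rw [(moves_star hM (hg i) h2).2 _ hbA, star_star]
          have hn1 := nor_mul_mem hM (nor_mul_mem hM (nor_star hRu) (hg i)) hRθ
          have hn2 := nor_mul_mem hM (nor_mul_mem hM (nor_star hRθ) hwn) hRc
          have hv : val χ (star (R u) * (g i * w l) * R c) =
              val χ (star (R u) * g i * R θ) * val χ (star (R θ) * w l * R c) := by
            rw [← val_mul hM hn1 hn2 (moves_between hM hRu (hg i) hum hθm h2)
              (moves_between hM hRθ hwn hθm hcm h1)]
            calc val χ (star (R u) * (g i * w l) * R c)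
                = val χ (star (R u) * g i * (R θ * star (R θ)) * (w l * R c)) := by
                  rw [val_insert hM (nor_mul_mem hM (nor_star hRu) (hg i))
                    (nor_mul_mem hM hwn hRc) (moves_mul hM hwn hcm h1) hr.1 hr.2]
                  simp only [mul_assoc]
              _ = _ := by simp only [mul_assoc]
          rw [hb, hv]
          ring
        · intro v _ hv
          by_contra hne
          simp only [mul_eq_zero, not_or] at hne
          exact hv (Subtype.ext (moves_unique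
            (moves_of_val hM (hR v v.2).1 hRc hwn (hR v v.2).2.1 hcm hne.2.2) h1))
        · exact fun h => absurd (Finset.mem_univ _) h
      · have hv : val χ (star (R u) * (g i * w l) * R c) = 0 := by
          by_contra hne
          exact hth (moves_split hM (hg i) hwn
            (moves_of_val hM hRu hRc (nor_mul_mem hM (hg i) hwn) hum hcm hne))
        rw [hv, mul_zero]
        refine Finset.sum_eq_zero fun v _ => ?_
        by_contra hne
        simp only [mul_eq_zero, not_or] at hne
        obtain ⟨hRv, hvm, -⟩ := hR v v.2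
        exact hth ⟨v, moves_of_val hM hRv hRc hwn hvm hcm hne.2.2,
          moves_of_val hM hRu hRv (hg i) hum hvm hne.1.2⟩

/-- The monomials of a pinched element. -/
lemma pinched_coef {r : ℕ} {P : Fin r → (H →L[ℂ] H)} (hP : ∀ k, IsPr A (P k)) (D : Gen M A e)
    {χ : Pt A} {U : Finset (Pt A)} {R : Pt A → (H →L[ℂ] H)} (hR : IsFrame M e χ U R)
    (u v : U) :
    coef (fun q : Fin r × Fin D.N => P q.1 * D.a q.2) (fun q => D.g q.2 * P q.1) χ R u v =
      (∑ k : Fin r, ev (u : Pt A) (P k) * ev (v : Pt A) (P k)) * coef D.a D.g χ R u v := by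
  simp only [coef]
  rw [Fintype.sum_prod_type, Finset.sum_mul]
  refine Finset.sum_congr rfl fun k _ => ?_
  rw [Finset.mul_sum]
  refine Finset.sum_congr rfl fun i _ => ?_
  obtain ⟨hRu, -, -⟩ := hR u u.2
  obtain ⟨hRv, hvm, -⟩ := hR v v.2
  rw [ev_mul _ (hP k).1 (D.a_mem i), ← mul_assoc (star (R u)) (D.g i) (P k),
    val_proj_mid hM (nor_mul_mem hM (nor_star hRu) (D.g_mem i)) hRv hvm (hP k)]
  ring

/-- Powers of a pinching. -/
lemma exists_pinch_power {r : ℕ} {P : Fin r → (H →L[ℂ] H)} (hP : IsPartition A e P)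
    (D : Gen M A e) (j : ℕ) :
    ∃ (L : Type) (_ : Fintype L) (b w : L → (H →L[ℂ] H)),
      (∀ l, b l ∈ A ∧ w l ∈ normaliser M A ∧ e * w l * e = w l) ∧
      (pinch P D.op) ^ j * e = ∑ l, b l * w l ∧
      ∀ (χ : Pt A) (U : Finset (Pt A)) (R : Pt A → (H →L[ℂ] H)), IsFrame M e χ U R →
        ∀ c : U, (c : Pt A) = χ → (∀ ζ, D.Reaches j c ζ → ζ ∈ U) → ∀ f : U → Fin r,
          (∀ (u : U) (k : Fin r), ev (u : Pt A) (P k) = if f u = k then 1 else 0) →
          (Matrix.of (fun u v => if f u = f v then wmat D.a D.g χ R U u v else 0) ^ j :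
              Matrix U U ℂ) c c = ∑ l, ev χ (b l) * val χ (w l) := by
  have hPe : ∀ k, e * P k = P k := fun k => by
    rw [← hP.2.2, Finset.sum_mul, Finset.sum_eq_single k (fun i _ hi => hP.2.1 i k hi) (by simp),
      (hP.1 k).2.isIdempotentElem.eq]
  have hge : ∀ i, e * D.g i = D.g i ∧ D.g i * e = D.g i := fun i => by
    constructor <;> conv_lhs => rw [← D.g_corner i]
    · simp only [← mul_assoc, he.2.isIdempotentElem.eq]
      exact D.g_corner i
    · simp only [mul_assoc, he.2.isIdempotentElem.eq]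
      simpa only [mul_assoc] using D.g_corner i
  obtain ⟨L, hL, b, w, hbw, hsum, hpow⟩ := exists_power hM he D
    (fun q : Fin r × Fin D.N => P q.1 * D.a q.2) (fun q => D.g q.2 * P q.1)
    (fun q => mul_mem (hP.1 _).1 (D.a_mem _))
    (fun q => nor_mul_mem hM (D.g_mem _) (proj_mem_nor hM (hP.1 _)))
    (fun q => by
      show e * (D.g q.2 * P q.1) * e = D.g q.2 * P q.1
      rw [← mul_assoc e, (hge q.2).1, mul_assoc, ← hM.2.1 e he.1 _ (hP.1 _).1, hPe])
    (fun q η ζ h => by
      obtain ⟨θ, h1, h2⟩ := moves_split hM (D.g_mem _) (proj_mem_nor hM (hP.1 _)) h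
      exact ⟨q.2, moves_fix hM (hP.1 _) h1 ▸ h2⟩) j
  refine ⟨L, hL, b, w, fun l => ⟨(hbw l).1, (hbw l).2.1, (hbw l).2.2.1⟩, ?_,
    fun χ U R hR c hcχ hc f hf => ?_⟩
  · rw [← hsum]
    congr 2
    simp only [pinch, Gen.op, Finset.mul_sum, Finset.sum_mul, Fintype.sum_prod_type, mul_assoc]
  · have e1 : (Matrix.of fun u v => if f u = f v then wmat D.a D.g χ R U u v else 0) =
        wmat (fun q : Fin r × Fin D.N => P q.1 * D.a q.2) (fun q => D.g q.2 * P q.1) χ R U := by
      ext u v
      show _ = coef _ _ χ R u v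
      rw [pinched_coef hM he hP.1 D hR u v]
      simp [hf, wmat, eq_comm]
    rw [e1, hpow χ U R hR c hc c, coef]
    refine Finset.sum_congr rfl fun l _ => ?_
    obtain ⟨hRc, hcm, -⟩ := hR c c.2
    rw [hcχ] at hRc hcm ⊢
    rw [val_conj_self hM hRc (hbw l).2.1 hcm]

end Vale.Agent.P078.MKS.Op
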