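import Vale.Agent.P078.MKS.PassStatements
import Vale.Agent.P078.MKS.Powers
import Vale.Agent.P078.MKS.Moments
import Vale.Agent.P078.MKS.Assembly.Span

/-!
For one colour at every point and a constant scale the potential integrates to traces of powers
of the pinched element.
-/

namespace Vale.Agent.P078.MKS.Op

open Singular
open scoped Classical

variable {H : Type} [NormedAddCommGroup H] [InnerProductSpace ℂ H] [CompleteSpace H]
  {M A : VonNeumannAlgebra H} {e : H →L[ℂ] H} {τ : (H →L[ℂ] H) →ₗ[ℂ] ℂ}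

/-- The diagonal of a sum of monomials in the algebra, with the same trace. -/
lemma exists_diag_elt (hM : IsMASA M A) (he : IsPr A e) (hτ : IsTrace M e τ) {L : Type}
    [Fintype L] (b w : L → (H →L[ℂ] H))
    (hbw : ∀ l, b l ∈ A ∧ w l ∈ normaliser M A ∧ e * w l * e = w l) :
    ∃ F ∈ A, F * e = F ∧ τ F = τ (∑ l, b l * w l) ∧
      ∀ χ : Pt A, ev χ e = 1 → ev χ F = ∑ l, ev χ (b l) * val χ (w l) := by
  have hab := hM.2.1
  choose P hP hPw using fun l => exists_split hM (hbw l).2.1
  let Q : L → Fin 4 → (H →L[ℂ] H) := fun l i => P l i * e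
  have hQ : ∀ l i, IsPr A (Q l i) := fun l i => isPr_mul hab ((hP l).1 i) he
  have hQe : ∀ l i, Q l i * e = Q l i := fun l i => by
    simp only [Q, mul_assoc, he.2.isIdempotentElem.eq]
  have hQw : ∀ l i, Q l i * w l * Q l i ∈ A := fun l i => by
    have : Q l i * w l * Q l i = e * (P l i * w l * P l i) * e := by
      simp only [Q]
      calc P l i * e * w l * (P l i * e) = e * P l i * w l * (P l i * e) := by
            rw [hab _ ((hP l).1 i).1 e he.1]
        _ = _ := by simp only [mul_assoc]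
    rw [this]
    exact mul_mem (mul_mem he.1 (hPw l i)) he.1
  refine ⟨∑ l, ∑ i, b l * (Q l i * w l * Q l i),
    sum_mem fun l _ => sum_mem fun i _ => mul_mem (hbw l).1 (hQw l i), ?_, ?_, fun χ hχ => ?_⟩
  · simp only [Finset.sum_mul]
    refine Finset.sum_congr rfl fun l _ => Finset.sum_congr rfl fun i _ => ?_
    simp only [mul_assoc, hQe]
  · rw [map_sum, map_sum]
    refine Finset.sum_congr rfl fun l _ => ?_
    have hwc : Cor M e (w l) := ⟨(hbw l).2.1.1, (hbw l).2.2⟩
    have hbe : Cor M e (b l * e) := cor_of_alg hM he (hbw l).1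
    have hQc : ∀ i, Cor M e (Q l i) := fun i => cor_of_alg hM he ((hP l).1 i).1
    have hsum : ∑ i, Q l i = e := by
      simp only [Q, ← Finset.sum_mul, (hP l).2.2, one_mul]
    have e0 : b l * w l = ∑ i, b l * e * Q l i * w l := by
      rw [← Finset.sum_mul, ← Finset.mul_sum, hsum, mul_assoc (b l) e e,
        he.2.isIdempotentElem.eq, mul_assoc, hwc.mul_left he.2]
    rw [e0, map_sum, map_sum]
    refine Finset.sum_congr rfl fun i _ => ?_
    have hz : Cor M e (b l * e * Q l i * w l) := (hbe.mul he.2 (hQc i)).mul he.2 hwc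
    have e1 : b l * (Q l i * w l * Q l i) = b l * e * Q l i * w l * Q l i := by
      rw [mul_assoc (b l) e, (hQc i).mul_left he.2]; simp only [mul_assoc]
    have e2 : Q l i * (b l * e * Q l i * w l) = b l * e * Q l i * w l := by
      rw [← mul_assoc, ← mul_assoc,
        hab _ (hQ l i).1 _ (mul_mem (hbw l).1 he.1), mul_assoc (b l * e),
        (hQ l i).2.isIdempotentElem.eq]
    rw [e1, hτ.2.2.1 _ hz.1 _ (hQc i).1 hz.2 (hQc i).2, e2]
  · rw [ev_sum χ _ _ fun l _ => sum_mem fun i _ => mul_mem (hbw l).1 (hQw l i)]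
    refine Finset.sum_congr rfl fun l _ => ?_
    obtain ⟨j, hj⟩ := ev_partition χ (hP l) (ev_one χ)
    have hQj : ev χ (Q l j) = 1 := by rw [ev_mul χ ((hP l).1 j).1 he.1, hj, hχ, mul_one]
    rw [ev_sum χ _ _ fun i _ => mul_mem (hbw l).1 (hQw l i), Finset.sum_eq_single j]
    · rw [ev_mul χ (hbw l).1 (hQw l j), ev_cell_val hM (hbw l).2.1 (hQ l j) (hQw l j) hQj]
    · intro i _ hij
      have h0 : ev χ (P l i) = 0 := by
        have := congrArg (ev χ) ((hP l).2.1 i j hij)
        rwa [ev_mul χ ((hP l).1 i).1 ((hP l).1 j).1, hj, mul_one, ev_zero] at this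
      rw [show Q l i * w l * Q l i = Q l i * (Q l i * w l * Q l i) by
          simp only [← mul_assoc, (hQ l i).2.isIdempotentElem.eq],
        ev_mul χ (hbw l).1 (mul_mem (hQ l i).1 (hQw l i)), ev_mul χ (hQ l i).1 (hQw l i),
        ev_mul χ ((hP l).1 i).1 he.1, h0, zero_mul, zero_mul, mul_zero]
    · exact fun h => absurd (Finset.mem_univ j) h

omit [CompleteSpace H] in
/-- The trace of a polynomial in a multiple of an element. -/
lemma tr_aeval (c : ℝ) (T : H →L[ℂ] H) (q : Polynomial ℝ) :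
    (τ (e * Polynomial.aeval (c • T) q * e)).re =
      ∑ j ∈ Finset.range (q.natDegree + 1), q.coeff j * c ^ j * (τ (e * T ^ j * e)).re := by
  rw [Polynomial.aeval_eq_sum_range, Finset.mul_sum, Finset.sum_mul, map_sum, Complex.re_sum]
  refine Finset.sum_congr rfl fun j _ => ?_
  rw [smul_pow, smul_smul, mul_smul_comm, smul_mul_assoc, tr_rsmul]

/-- The final equality for the partition read off from the state. -/
theorem final_tied (hM : IsMASA M A) (he : IsPr A e) (hτ : IsTrace M e τ) (D : Gen M A e) {n : ℕ}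
    {q : Polynomial ℝ} (hq : q.natDegree ≤ n) {r : ℕ} (S : St A r) (d : ℝ) (hS : IsState A e S)
    (hfin : ∀ χ, ev χ e = 1 → ∃ s, S χ = (Pi.single s 1, d)) :
    ∃ P : Fin r → (H →L[ℂ] H), IsPartition A e P ∧
      (∀ χ s, ev χ e = 1 → ev χ (P s) = ((S χ).1 s : ℂ)) ∧
      (τ (e * Polynomial.aeval ((d ^ 2) • pinch P D.op) q * e)).re +
          (τ (e * Polynomial.aeval (-((d ^ 2) • pinch P D.op)) q * e)).re =
        int τ e (fun χ => (pot D n q S χ : ℂ)) := by
  have hab := hM.2.1
  choose a ha ha' using hS.2.1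
  let P : Fin r → (H →L[ℂ] H) := fun s => a s * e
  have hPA : ∀ s, P s ∈ A := fun s => mul_mem (ha s) he.1
  have hPev : ∀ (χ : Pt A) s, ev χ e = 1 → ev χ (P s) = ((S χ).1 s : ℂ) := fun χ s hχ => by
    rw [ev_mul χ (ha s) he.1, hχ, mul_one, ← ha' s χ hχ]
  have hP0 : ∀ (χ : Pt A) s, ev χ e = 0 → ev χ (P s) = 0 := fun χ s hχ => by
    rw [ev_mul χ (ha s) he.1, hχ, mul_zero]
  have hP : IsPartition A e P := by
    refine ⟨fun s => isPr_of_ev hab (hPA s) fun χ => ?_, fun s t hst => ?_, ?_⟩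
    · rcases ev_proj χ he with h | h
      · exact Or.inl (hP0 χ s h)
      · obtain ⟨k, hk⟩ := hfin χ h
        rw [hPev χ s h, hk]
        rcases eq_or_ne s k with rfl | hsk
        · exact Or.inr (by simp)
        · exact Or.inl (by simp [hsk])
    · refine eq_zero_of_ev hab (mul_mem (hPA s) (hPA t)) fun χ => ?_
      rw [ev_mul χ (hPA s) (hPA t)]
      rcases ev_proj χ he with h | h
      · rw [hP0 χ s h, zero_mul]
      · obtain ⟨k, hk⟩ := hfin χ h
        rw [hPev χ s h, hPev χ t h, hk]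
        rcases eq_or_ne s k with rfl | hsk
        · simp [Ne.symm hst]
        · simp [hsk]
    · refine eq_of_ev hab (sum_mem fun s _ => hPA s) he.1 fun χ => ?_
      rw [ev_sum χ _ _ fun s _ => hPA s]
      rcases ev_proj χ he with h | h
      · rw [h, Finset.sum_eq_zero fun s _ => hP0 χ s h]
      · obtain ⟨k, hk⟩ := hfin χ h
        simp only [hPev χ _ h, hk, h]
        rw [Finset.sum_eq_single k] <;> simp_all
  refine ⟨P, hP, hPev, ?_⟩
  choose L hL b w hbw hsum hdiag using exists_pinch_power hM he hP D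
  choose F hFA hFe hFτ hFev using fun j =>
    @exists_diag_elt H _ _ _ M A e τ hM he hτ (L j) (hL j) (b j) (w j) (hbw j)
  have hT : ∀ j, τ (e * pinch P D.op ^ j * e) = τ (F j) := fun j => by
    let _ := hL j
    rw [hFτ j, mul_assoc, hsum j, Finset.mul_sum]
    refine congrArg τ (Finset.sum_congr rfl fun l _ => ?_)
    obtain ⟨hb, hw, hwc⟩ := hbw j l
    rw [← mul_assoc, hab e he.1 _ hb, mul_assoc,
      Cor.mul_left he.2 (⟨hw.1, hwc⟩ : Cor M e (w j l))]
  set c : ℕ → ℝ := fun j => q.coeff j * ((d ^ 2) ^ j + (-(d ^ 2)) ^ j) with hc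
  set G := ∑ j ∈ Finset.range (q.natDegree + 1), c j • F j with hG
  have hGA : G ∈ A := sum_mem fun j _ => vn_smul A _ (hFA j)
  have hpot : ∀ χ : Pt A, ev χ e = 1 → pot D n q S χ = (ev χ G).re := by
    intro χ hχ
    have hmem : χ ∈ D.ball χ n := (mem_ball D).2 (reaches_self hM he D hχ n)
    have hR := frame_ball hM he D χ n
    set U := D.ball χ n with hUdef
    choose f hf using fun u : {x // x ∈ U} => hfin u (hR u u.2).2.2
    set Mf : Matrix U U ℂ :=
      Matrix.of fun u v => if f u = f v then wmat D.a D.g χ (rep M χ) U u v else 0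
    have hwt : wt S U = fun u => Pi.single (f u) 1 := funext fun u => by simp [wt, hf u]
    have hfP : ∀ (u : U) (k : Fin r), ev (u : Pt A) (P k) = if f u = k then 1 else 0 := by
      intro u k
      rw [hPev u k (hR u u.2).2.2, hf u]
      rcases eq_or_ne (f u) k with h | h
      · simp [h]
      · simp [h, Ne.symm h]
    have hMf : ∀ j ≤ n, (Mf ^ j) ⟨χ, hmem⟩ ⟨χ, hmem⟩ = ev χ (F j) := fun j hj => by
      rw [hFev j χ hχ]
      exact hdiag j χ U _ hR ⟨χ, hmem⟩ rfl
        (fun ζ hζ => (mem_ball D).2 (reaches_mono hM he D hj hζ)) f hfP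
    have hq' : ∀ σ : ℝ, qmom (wsc (σ : ℂ) D.a D.g χ U (rep M χ) S) (wt S U) ⟨χ, hmem⟩ q =
        ∑ j ∈ Finset.range (q.natDegree + 1), q.coeff j * (σ * d ^ 2) ^ j * (ev χ (F j)).re := by
      intro σ
      refine Finset.sum_congr rfl fun j hj => ?_
      have hjn : j ≤ n := le_trans (Nat.lt_succ_iff.1 (Finset.mem_range.1 hj)) hq
      have e1 : (Matrix.of fun u v : U => if f u = f v then
          wsc (σ : ℂ) D.a D.g χ U (rep M χ) S u v else 0) = ((σ * d ^ 2 : ℝ) : ℂ) • Mf := by
        ext u v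
        simp only [Mf, Matrix.of_apply, Matrix.smul_apply, wsc, wmat, hf u, hf v, smul_eq_mul]
        split_ifs <;> push_cast <;> ring
      rw [(moment_ok U r _ (wt S U) (isProb_wt hS.1 U)).2.2.2 f hwt, e1, smul_pow,
        Matrix.smul_apply, hMf j hjn, smul_eq_mul, ← Complex.ofReal_pow, Complex.re_ofReal_mul,
        mul_assoc]
    rw [ev_sum χ _ _ fun j _ => vn_smul A _ (hFA j), Complex.re_sum, pot, dif_pos hmem, both,
      show (1 : ℂ) = ((1 : ℝ) : ℂ) by simp, hq' 1,
      show -((1 : ℝ) : ℂ) = (((-1 : ℝ)) : ℂ) by simp, hq' (-1), ← Finset.sum_add_distrib]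
    refine Finset.sum_congr rfl fun j _ => ?_
    rw [RCLike.real_smul_eq_coe_smul (K := ℂ), ev_smul χ _ (hFA j)]
    simp only [hc, one_mul, neg_one_mul, Complex.coe_algebraMap, Complex.re_ofReal_mul]
    ring
  have hGe : G * e = G := by
    simp only [hG, Finset.sum_mul, smul_mul_assoc, hFe]
  set K := (1 / 2 : ℝ) • (G + star G) with hK
  have hKA : K ∈ A := vn_smul A _ (add_mem hGA (star_mem hGA))
  have hint : int τ e (fun χ => (pot D n q S χ : ℂ)) = (τ G).re := by
    rw [int_eq hM he hτ hKA fun χ hχ => by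
      rw [hK, RCLike.real_smul_eq_coe_smul (K := ℂ), ev_smul χ _ (add_mem hGA (star_mem hGA)),
        ev_add χ hGA (star_mem hGA), ev_star χ hGA, hpot χ hχ]
      simp [Complex.re_eq_add_conj]; ring]
    have hGc : Cor M e G := by rw [← hGe]; exact cor_of_alg hM he hGA
    have hsG : star G * e = star G := by
      rw [hab _ (star_mem hGA) _ he.1]; exact Cor.mul_left he.2 (hGc.star' he.2)
    have h := re_comm hτ he.2 hGc (cor_proj (hM.1 e he.1) he.2)
    rw [he.2.isSelfAdjoint.star_eq, Cor.mul_left he.2 hGc, hsG] at h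
    rw [hK, smul_mul_assoc, tr_rsmul, add_mul, map_add, Complex.add_re, hGe, hsG, ← h]
    ring
  rw [hint, tr_aeval, ← neg_smul, tr_aeval, ← Finset.sum_add_distrib, hG, map_sum, Complex.re_sum]
  refine Finset.sum_congr rfl fun j _ => ?_
  rw [tr_rsmul, hT j]
  simp only [hc]
  ring

/-- The module Final. -/
theorem final_ok : FinalStatement := by
  intro H _ _ _ M A e τ hM he hτ D n q hq r _hr S d hS hfin
  obtain ⟨P, hP, -, h⟩ := final_tied hM he hτ D hq S d hS hfin
  exact ⟨P, hP, h⟩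

end Vale.Agent.P078.MKS.Op
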