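import Vale.Agent.P078.MKS.Cells
import Vale.Agent.P078.MKS.Assembly.L2

/-!
Elements of an abelian von Neumann algebra are determined by their values at the points, and the
trace of a corner integrates functions represented by such elements.
-/

namespace Vale.Agent.P078.MKS.Op

open Singular

variable {H : Type} [NormedAddCommGroup H] [InnerProductSpace ℂ H] [CompleteSpace H]
  {M A : VonNeumannAlgebra H}

lemma csmul_mem (c : ℂ) {a : H →L[ℂ] H} (ha : a ∈ A) : c • a ∈ A :=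
  A.toStarSubalgebra.toSubalgebra.smul_mem ha c

section Abelian

variable (hab : ∀ y ∈ A, ∀ z ∈ A, y * z = z * y)
include hab

lemma exists_pt_of_spectrum {c : H →L[ℂ] H} (hc : c ∈ A) {z : ℂ} (hz : z ∈ spectrum ℂ c) :
    ∃ χ : Pt A, ev χ c = z := by
  have hcl : IsClosed (A.toStarSubalgebra : Set (H →L[ℂ] H)) := by
    rw [VonNeumannAlgebra.coe_toStarSubalgebra, ← VonNeumannAlgebra.centralizer_centralizer A]
    exact Set.isClosed_centralizer _
  let B : CommCStarAlgebra A.toStarSubalgebra :=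
    { StarSubalgebra.cstarAlgebra (h_closed := hcl) A.toStarSubalgebra with
      mul_comm := fun x y => Subtype.ext (hab x.1 x.2 y.1 y.2) }
  have h := AlgHom.spectrum_apply_subset A.toStarSubalgebra.subtype.toAlgHom
    (⟨c, hc⟩ : A.toStarSubalgebra) hz
  obtain ⟨f, hf⟩ := (@WeakDual.CharacterSpace.mem_spectrum_iff_exists A.toStarSubalgebra
    B.toNormedCommRing _ _ _ _).1 h
  refine ⟨{ toFun := fun a => f a
            map_one' := map_one f
            map_mul' := map_mul f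
            map_zero' := map_zero f
            map_add' := map_add f
            commutes' := AlgHomClass.commutes f
            map_star' := map_star f }, ?_⟩
  rw [ev_eq _ hc]
  exact hf

lemma nonneg_of_ev {c : H →L[ℂ] H} (hc : c ∈ A) (hsa : IsSelfAdjoint c)
    (h : ∀ χ : Pt A, 0 ≤ (ev χ c).re) : 0 ≤ c := by
  refine (StarOrderedRing.nonneg_iff_spectrum_nonneg (R := ℝ) c hsa).2 fun x hx => ?_
  obtain ⟨χ, hχ⟩ := exists_pt_of_spectrum hab hc ((spectrum.algebraMap_mem_iff ℂ).2 hx)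
  simpa [hχ] using h χ

lemma eq_zero_of_ev {c : H →L[ℂ] H} (hc : c ∈ A) (h : ∀ χ : Pt A, ev χ c = 0) : c = 0 := by
  have hd : star c * c ∈ A := mul_mem (star_mem hc) hc
  have h1 : ∀ χ : Pt A, ev χ (star c * c) = 0 := fun χ => by
    rw [ev_mul χ (star_mem hc) hc, h χ, mul_zero]
  have h2 := nonneg_of_ev hab (neg_mem hd) (IsSelfAdjoint.star_mul_self c).neg fun χ => by
    rw [← neg_one_smul ℂ, ev_smul χ _ hd, h1, mul_zero, Complex.zero_re]
  exact CStarRing.star_mul_self_eq_zero_iff c |>.1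
    (le_antisymm (neg_nonneg.1 h2) (star_mul_self_nonneg c))

lemma eq_of_ev {a b : H →L[ℂ] H} (ha : a ∈ A) (hb : b ∈ A) (h : ∀ χ : Pt A, ev χ a = ev χ b) :
    a = b :=
  sub_eq_zero.1 (eq_zero_of_ev hab (sub_mem ha hb) fun χ => by rw [ev_sub χ ha hb, h, sub_self])

lemma isPr_of_ev {a : H →L[ℂ] H} (ha : a ∈ A)
    (h : ∀ χ : Pt A, ev χ a = 0 ∨ ev χ a = 1) : IsPr A a := by
  refine ⟨ha, eq_of_ev hab (mul_mem ha ha) ha fun χ => ?_,
    eq_of_ev hab (star_mem ha) ha fun χ => ?_⟩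
  · rw [ev_mul χ ha ha]
    rcases h χ with h | h <;> simp [h]
  · rw [ev_star χ ha]
    rcases h χ with h | h <;> simp [h]

lemma le_of_ev {a b : H →L[ℂ] H} (ha : a ∈ A) (hb : b ∈ A) (has : IsSelfAdjoint a)
    (hbs : IsSelfAdjoint b) (h : ∀ χ : Pt A, (ev χ a).re ≤ (ev χ b).re) : a ≤ b := by
  refine sub_nonneg.1 (nonneg_of_ev hab (sub_mem hb ha) (hbs.sub has) fun χ => ?_)
  rw [ev_sub χ hb ha, Complex.sub_re]
  linarith [h χ]

end Abelian

lemma ev_nonneg (χ : Pt A) {z : H →L[ℂ] H} (hz : z ∈ A) (h0 : 0 ≤ z) :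
    0 ≤ (ev χ z).re := by
  set w := cfc Real.sqrt z with hw
  have hwA : w ∈ A := cfc_mem hz _
  have hww : w * w = z := by
    rw [hw, ← cfc_mul _ _ z]
    conv_rhs => rw [← cfc_id' ℝ z]
    exact cfc_congr fun x hx => Real.mul_self_sqrt (spectrum_nonneg_of_nonneg h0 hx)
  rw [← hww, ev_mul χ hwA hwA, Complex.mul_re,
    ev_im_eq_zero χ hwA (cfc_predicate _ _), mul_zero, sub_zero]
  exact mul_self_nonneg _

lemma ev_mono (χ : Pt A) {a b : H →L[ℂ] H} (ha : a ∈ A) (hb : b ∈ A) (h : a ≤ b) :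
    (ev χ a).re ≤ (ev χ b).re := by
  have := ev_nonneg χ (sub_mem hb ha) (sub_nonneg.2 h)
  rw [ev_sub χ hb ha, Complex.sub_re] at this
  linarith

/-- The functions on the points of `e` which come from the algebra. -/
def Rep (A : VonNeumannAlgebra H) (e : H →L[ℂ] H) : Subring (Pt A → ℂ) where
  carrier := {h | ∃ a ∈ A, ∀ χ : Pt A, ev χ e = 1 → h χ = ev χ a}
  one_mem' := ⟨1, one_mem A, fun χ _ => (ev_one χ).symm⟩
  zero_mem' := ⟨0, zero_mem A, fun χ _ => (ev_zero χ).symm⟩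
  mul_mem' := fun {f g} ⟨a, ha, ha'⟩ ⟨b, hb, hb'⟩ => ⟨a * b, mul_mem ha hb, fun χ h => by
    rw [ev_mul χ ha hb, Pi.mul_apply, ha' χ h, hb' χ h]⟩
  add_mem' := fun {f g} ⟨a, ha, ha'⟩ ⟨b, hb, hb'⟩ => ⟨a + b, add_mem ha hb, fun χ h => by
    rw [ev_add χ ha hb, Pi.add_apply, ha' χ h, hb' χ h]⟩
  neg_mem' := fun {f} ⟨a, ha, ha'⟩ => ⟨-a, neg_mem ha, fun χ h => by
    rw [← neg_one_smul ℂ a, ev_smul χ _ ha, Pi.neg_apply, ha' χ h, neg_one_mul]⟩

variable {e : H →L[ℂ] H}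

lemma rep_ev {a : H →L[ℂ] H} (ha : a ∈ A) : (fun χ : Pt A => ev χ a) ∈ Rep A e :=
  ⟨a, ha, fun _ _ => rfl⟩

lemma rep_const (c : ℂ) : (fun _ : Pt A => c) ∈ Rep A e :=
  ⟨c • 1, csmul_mem c (one_mem A), fun χ _ => by rw [ev_smul χ c (one_mem A), ev_one, mul_one]⟩

lemma rep_conj {f : Pt A → ℂ} (hf : f ∈ Rep A e) : (fun χ => star (f χ)) ∈ Rep A e := by
  obtain ⟨a, ha, h⟩ := hf
  exact ⟨star a, star_mem ha, fun χ he => by simp only [ev_star χ ha, h χ he]⟩

lemma rep_re {f : Pt A → ℂ} (hf : f ∈ Rep A e) : (fun χ => ((f χ).re : ℂ)) ∈ Rep A e := by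
  have h := mul_mem (rep_const (A := A) (e := e) (1 / 2)) (add_mem hf (rep_conj hf))
  convert h using 1
  funext χ
  simp [Complex.re_eq_add_conj]
  ring

/-- The integral of a represented function. -/
noncomputable def int (τ : (H →L[ℂ] H) →ₗ[ℂ] ℂ) (e : H →L[ℂ] H) (f : Pt A → ℂ) : ℝ :=
  open scoped Classical in
  if h : f ∈ Rep A e then (τ (h.choose * e)).re else 0

variable {τ : (H →L[ℂ] H) →ₗ[ℂ] ℂ} (hM : IsMASA M A) (he : IsPr A e) (hτ : IsTrace M e τ)

include hM he in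
lemma cor_of_alg {a : H →L[ℂ] H} (ha : a ∈ A) : Cor M e (a * e) := by
  refine ⟨hM.1 _ (mul_mem ha he.1), ?_⟩
  rw [← mul_assoc, hM.2.1 e he.1 a ha, mul_assoc (a * e) e e, he.2.isIdempotentElem.eq, mul_assoc,
    he.2.isIdempotentElem.eq]

include hM he hτ in
lemma trace_re_le {a b : H →L[ℂ] H} (ha : a ∈ A) (hb : b ∈ A)
    (h : ∀ χ : Pt A, ev χ e = 1 → (ev χ a).re ≤ (ev χ b).re) :
    (τ (a * e)).re ≤ (τ (b * e)).re := by
  have hd := sub_mem hb ha
  have hc := add_mem hd (star_mem hd)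
  have hcor := cor_of_alg hM he hd
  have hpos : 0 ≤ (b - a + star (b - a)) * e := by
    refine nonneg_of_ev hM.2.1 (mul_mem hc he.1) ?_ fun χ => ?_
    · rw [isSelfAdjoint_iff, star_mul, (IsSelfAdjoint.add_star_self _).star_eq,
        he.2.isSelfAdjoint.star_eq, hM.2.1 e he.1 _ hc]
    · rw [ev_mul χ hc he.1, ev_add χ hd (star_mem hd), ev_star χ hd, ev_sub χ hb ha]
      rcases ev_proj χ he with h0 | h0
      · simp [h0]
      · simp [h0]
        linarith [h χ h0]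
  have h1 := tr_nonneg hτ he.2 (cor_of_alg hM he hc) hpos
  have h2 : (τ (star (b - a) * e)).re = (τ ((b - a) * e)).re := by
    have hee : Cor M e e := cor_proj (hM.1 e he.1) he.2
    have := re_comm hτ he.2 hcor hee
    rw [he.2.isSelfAdjoint.star_eq, Cor.mul_left he.2 hcor, star_mul, he.2.isSelfAdjoint.star_eq,
      hM.2.1 e he.1 _ (star_mem hd), mul_assoc, he.2.isIdempotentElem.eq] at this
    exact this.symm
  rw [add_mul, map_add, Complex.add_re, h2, sub_mul, map_sub, Complex.sub_re] at h1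
  linarith

include hM he hτ in
lemma int_eq {f : Pt A → ℂ} {a : H →L[ℂ] H} (ha : a ∈ A)
    (h : ∀ χ : Pt A, ev χ e = 1 → f χ = ev χ a) : int τ e f = (τ (a * e)).re := by
  have hf : f ∈ Rep A e := ⟨a, ha, h⟩
  rw [int, dif_pos hf]
  obtain ⟨hb, hb'⟩ := hf.choose_spec
  exact le_antisymm (trace_re_le hM he hτ hb ha fun χ hχ => by rw [← hb' χ hχ, ← h χ hχ])
    (trace_re_le hM he hτ ha hb fun χ hχ => by rw [← hb' χ hχ, ← h χ hχ])

include hM he hτ in
lemma int_mono {f g : Pt A → ℂ} (hf : f ∈ Rep A e) (hg : g ∈ Rep A e)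
    (h : ∀ χ : Pt A, ev χ e = 1 → (f χ).re ≤ (g χ).re) : int τ e f ≤ int τ e g := by
  obtain ⟨a, ha, ha'⟩ := hf
  obtain ⟨b, hb, hb'⟩ := hg
  rw [int_eq hM he hτ ha ha', int_eq hM he hτ hb hb']
  exact trace_re_le hM he hτ ha hb fun χ hχ => by rw [← hb' χ hχ, ← ha' χ hχ]; exact h χ hχ

include hM he hτ in
lemma int_add {f g : Pt A → ℂ} (hf : f ∈ Rep A e) (hg : g ∈ Rep A e) :
    int τ e (f + g) = int τ e f + int τ e g := by
  obtain ⟨a, ha, ha'⟩ := hf
  obtain ⟨b, hb, hb'⟩ := hg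
  rw [int_eq hM he hτ ha ha', int_eq hM he hτ hb hb', int_eq hM he hτ (add_mem ha hb) fun χ hχ => by
    rw [ev_add χ ha hb, Pi.add_apply, ha' χ hχ, hb' χ hχ], add_mul, map_add, Complex.add_re]

include hM he hτ in
lemma int_const (c : ℝ) : int τ e (fun _ : Pt A => (c : ℂ)) = c * (τ e).re := by
  rw [int_eq hM he hτ (csmul_mem (c : ℂ) (one_mem A)) fun χ _ => by
    rw [ev_smul χ _ (one_mem A), ev_one, mul_one], smul_mul_assoc, one_mul, map_smul, smul_eq_mul,
    Complex.re_ofReal_mul]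

end Vale.Agent.P078.MKS.Op
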