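import Vale.Agent.P078.MKS.Windows
import Vale.Agent.P078.MKS.Gelfand

/-!
The window matrices of a self-adjoint element of the normaliser span: they are Hermitian, their
forms have the bounds of the element and their diagonals have the bounds of its diagonal.
-/

namespace Vale.Agent.P078.MKS.Op

open Singular
open scoped Classical

variable {H : Type} [NormedAddCommGroup H] [InnerProductSpace ℂ H] [CompleteSpace H]
  {M A : VonNeumannAlgebra H} {e : H →L[ℂ] H}

variable (hM : IsMASA M A) (he : IsPr A e)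

include hM he in
lemma exists_gen {y : H →L[ℂ] H} (hy : y ∈ normSpan M A e) : ∃ D : Gen M A e, D.op = y := by
  obtain ⟨n, c, z, hz⟩ := Submodule.mem_span_set'.1 hy
  have hmem : ∀ k, ∃ a ∈ A, ∃ v ∈ normaliser M A, e * (z k).1 * e = (z k).1 ∧ (z k).1 = a * v := by
    intro k
    obtain ⟨h, a, ha, v, hv, h'⟩ := (z k).2
    exact ⟨a, ha, v, hv, h, h'⟩
  choose a ha v hv hc hzv using hmem
  have hen := proj_mem_nor hM he
  have hes : star e = e := he.2.isSelfAdjoint.star_eq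
  have hee : e * e = e := he.2.isIdempotentElem.eq
  let w : Fin n → (H →L[ℂ] H) := fun k => e * v k * e
  have hw : ∀ k, w k ∈ normaliser M A := fun k => nor_mul_mem hM (nor_mul_mem hM hen (hv k)) hen
  have hwc : ∀ k, e * w k * e = w k := fun k => by
    simp only [w, mul_assoc, hee]
    simp only [← mul_assoc, hee]
  have hwz : ∀ k, (z k).1 = a k * w k := fun k => by
    conv_lhs => rw [← hc k, hzv k, ← mul_assoc e, hM.2.1 e he.1 _ (ha k)]
    simp only [w, mul_assoc]
  let ι := Fin n ⊕ Fin n ⊕ Unit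
  let σ := Fintype.equivFin ι
  let co : ι → (H →L[ℂ] H) := Sum.elim (fun k => c k • a k) fun _ => 0
  let ge : ι → (H →L[ℂ] H) := Sum.elim w (Sum.elim (fun k => star (w k)) fun _ => e)
  refine ⟨⟨Fintype.card ι, co ∘ σ.symm, ge ∘ σ.symm, fun i => ?_, fun i => ?_, fun i => ?_,
    ⟨σ (Sum.inr (Sum.inr ())), by simp [ge]⟩, fun i => ?_⟩, ?_⟩
  · rcases h : σ.symm i with k | k <;> simp only [Function.comp_apply, h, co, Sum.elim_inl,
      Sum.elim_inr]
    exacts [csmul_mem _ (ha k), zero_mem A]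
  · rcases h : σ.symm i with k | k | k <;> simp only [Function.comp_apply, h, ge, Sum.elim_inl,
      Sum.elim_inr]
    exacts [hw k, nor_star (hw k), hen]
  · rcases h : σ.symm i with k | k | k <;> simp only [Function.comp_apply, h, ge, Sum.elim_inl,
      Sum.elim_inr]
    · exact ⟨σ (Sum.inr (Sum.inl k)), by simp⟩
    · exact ⟨σ (Sum.inl k), by simp⟩
    · exact ⟨σ (Sum.inr (Sum.inr ())), by simp [hes]⟩
  · rcases h : σ.symm i with k | k | k <;> simp only [Function.comp_apply, h, ge, Sum.elim_inl,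
      Sum.elim_inr]
    · exact hwc k
    · conv_rhs => rw [← hwc k]
      simp only [star_mul, hes, mul_assoc]
    · rw [hee, hee]
  · rw [Gen.op]
    refine Eq.trans (Fintype.sum_equiv σ.symm _ (fun x => co x * ge x) fun _ => rfl) ?_
    simp [ι, co, ge, Fintype.sum_sum_type, ← hz, hwz]

include hM in
lemma exists_point_cell (χ : Pt A) (S : Finset (H →L[ℂ] H)) (hS : ∀ v ∈ S, v ∈ normaliser M A) :
    ∃ p, IsPr A p ∧ ev χ p = 1 ∧ ∀ v ∈ S, p * v * p ∈ A := by
  obtain ⟨n, E, hE, hEv⟩ := exists_cells hM ⟨one_mem A, IsStarProjection.one _⟩ S hS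
  obtain ⟨i, hi⟩ := ev_partition χ hE (ev_one χ)
  exact ⟨E i, hE.1 i, hi, fun v hv => hEv v hv i⟩

/-- A projection at the base point on which all entries of a window are in the algebra. -/
def Good (D : Gen M A e) (χ : Pt A) (U : Finset (Pt A)) (R : Pt A → (H →L[ℂ] H))
    (p : H →L[ℂ] H) : Prop :=
  IsPr A p ∧ ev χ p = 1 ∧ ∀ u ∈ U, ∀ v ∈ U, p * (star (R u) * e * R v) * p ∈ A ∧
    ∀ i, p * (star (R u) * D.g i * R v) * p ∈ A

variable (D : Gen M A e) {χ : Pt A} {U : Finset (Pt A)} {R : Pt A → (H →L[ℂ] H)}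
  (hR : IsFrame M e χ U R)

include hM he hR in
lemma exists_good : ∃ p, Good D χ U R p := by
  have hin : ∀ u ∈ U, ∀ v ∈ U, ∀ g ∈ normaliser M A, star (R u) * g * R v ∈ normaliser M A :=
    fun u hu v hv g hg =>
      nor_mul_mem hM (nor_mul_mem hM (nor_star (hR u hu).1) hg) (hR v hv).1
  obtain ⟨p, hp, hp1, hpS⟩ := exists_point_cell hM χ
    (((U ×ˢ U).image fun q => star (R q.1) * e * R q.2) ∪
      ((U ×ˢ U) ×ˢ (Finset.univ : Finset (Fin D.N))).image
        fun q => star (R q.1.1) * D.g q.2 * R q.1.2) fun v hv => by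
    simp only [Finset.mem_union, Finset.mem_image, Finset.mem_product] at hv
    rcases hv with ⟨q, hq, rfl⟩ | ⟨q, hq, rfl⟩
    exacts [hin _ hq.1 _ hq.2 _ (proj_mem_nor hM he), hin _ hq.1.1 _ hq.1.2 _ (D.g_mem _)]
  refine ⟨p, hp, hp1, fun u hu v hv => ⟨hpS _ ?_, fun i => hpS _ ?_⟩⟩
  · exact Finset.mem_union_left _ (Finset.mem_image.2 ⟨(u, v), by simp [hu, hv], rfl⟩)
  · exact Finset.mem_union_right _ (Finset.mem_image.2 ⟨((u, v), i), by simp [hu, hv], rfl⟩)

include hM hR in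
lemma entry_eq {p : H →L[ℂ] H} (hp : Good D χ U R p) {u v : Pt A} (hu : u ∈ U) (hv : v ∈ U) :
    p * (star (R u) * D.op * R v) * p ∈ A ∧
      ev χ (p * (star (R u) * D.op * R v) * p) = coef D.a D.g χ R u v := by
  have h := fun i => ev_monomial hM hR hu hv (D.a_mem i) (D.g_mem i) hp.1 hp.2.1
    ((hp.2.2 u hu v hv).2 i)
  have e1 : p * (star (R u) * D.op * R v) * p =
      ∑ i, p * (star (R u) * (D.a i * D.g i) * R v) * p := by
    simp only [Gen.op, Finset.mul_sum, Finset.sum_mul]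
  rw [e1]
  refine ⟨sum_mem fun i _ => (h i).1, ?_⟩
  rw [ev_sum χ _ _ fun i _ => (h i).1, coef]
  exact Finset.sum_congr rfl fun i _ => (h i).2

lemma ev_quad (T : U → ℂ) (z : H →L[ℂ] H) {p : H →L[ℂ] H}
    (hz : ∀ u ∈ U, ∀ v ∈ U, p * (star (R u) * z * R v) * p ∈ A) :
    p * (star (∑ u, T u • R u) * z * ∑ u, T u • R u) * p ∈ A ∧
      ev χ (p * (star (∑ u, T u • R u) * z * ∑ u, T u • R u) * p) =
        ∑ u : U, ∑ v : U, star (T u) * T v * ev χ (p * (star (R u) * z * R v) * p) := by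
  have e1 : p * (star (∑ u, T u • R u) * z * ∑ u, T u • R u) * p =
      ∑ u : U, ∑ v : U, (star (T u) * T v) • (p * (star (R u) * z * R v) * p) := by
    simp only [star_sum, star_smul, Finset.sum_mul, Finset.mul_sum, smul_mul_assoc,
      mul_smul_comm, Finset.smul_sum, smul_smul]
    rw [Finset.sum_comm]
    exact Finset.sum_congr rfl fun u _ => Finset.sum_congr rfl fun v _ => by rw [mul_comm (T v)]
  have h1 : ∀ u v : U, (star (T u) * T v) • (p * (star (R u) * z * R v) * p) ∈ A := fun u v =>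
    csmul_mem _ (hz u u.2 v v.2)
  rw [e1]
  refine ⟨sum_mem fun u _ => sum_mem fun v _ => h1 u v, ?_⟩
  rw [ev_sum χ _ _ fun u _ => sum_mem fun v _ => h1 u v]
  refine Finset.sum_congr rfl fun u _ => ?_
  rw [ev_sum χ _ _ fun v _ => h1 u v]
  exact Finset.sum_congr rfl fun v _ => ev_smul χ _ (hz u u.2 v v.2)

variable (hsa : IsSelfAdjoint D.op)

include hM he hR hsa in
lemma wmat_hermitian : (wmat D.a D.g χ R U).IsHermitian := by
  obtain ⟨p, hp⟩ := exists_good hM he D hR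
  refine Matrix.IsHermitian.ext fun u v => ?_
  obtain ⟨h1, h2⟩ := entry_eq hM D hR hp u.2 v.2
  obtain ⟨h3, h4⟩ := entry_eq hM D hR hp v.2 u.2
  show star (coef D.a D.g χ R v u) = coef D.a D.g χ R u v
  rw [← h4, ← ev_star χ h3, ← h2]
  congr 1
  simp only [star_mul, star_star, hp.1.2.isSelfAdjoint.star_eq, hsa.star_eq, mul_assoc]

include hM he hR in
lemma form_bounds {lo : ℝ} (hl : lo • e ≤ D.op) (hu : D.op ≤ e) (T : U → ℂ) :
    lo * ∑ a, ‖T a‖ ^ 2 ≤ (star T ⬝ᵥ (wmat D.a D.g χ R U).mulVec T).re ∧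
      (star T ⬝ᵥ (wmat D.a D.g χ R U).mulVec T).re ≤ ∑ a, ‖T a‖ ^ 2 := by
  obtain ⟨p, hp⟩ := exists_good hM he D hR
  obtain ⟨hy1, hy2⟩ := ev_quad (χ := χ) T D.op fun u hu v hv => (entry_eq hM D hR hp hu hv).1
  obtain ⟨he1, he2⟩ := ev_quad (χ := χ) (R := R) T e fun u hu v hv => (hp.2.2 u hu v hv).1
  have hqe : (ev χ (p * (star (∑ u, T u • R u) * e * ∑ u, T u • R u) * p)).re =
      ∑ a, ‖T a‖ ^ 2 := by
    have h : ∀ u v : U, ev χ (p * (star (R u) * e * R v) * p) = if u = v then 1 else 0 := by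
      intro u v
      rw [ev_cell_val hM (nor_mul_mem hM (nor_mul_mem hM (nor_star (hR u u.2).1)
        (proj_mem_nor hM he)) (hR v v.2).1) hp.1 (hp.2.2 u u.2 v v.2).1 hp.2.1,
        val_frame_self hM he hR u.2 v.2]
      exact if_congr Subtype.ext_iff.symm rfl rfl
    rw [he2]
    simp only [h, mul_ite, mul_one, mul_zero, Finset.sum_ite_eq, Finset.mem_univ, if_true,
      Complex.re_sum]
    refine Finset.sum_congr rfl fun a _ => ?_
    rw [Complex.star_def, ← Complex.normSq_eq_conj_mul_self, Complex.ofReal_re, Complex.sq_norm]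
  have hqy : (ev χ (p * (star (∑ u, T u • R u) * D.op * ∑ u, T u • R u) * p)).re =
      (star T ⬝ᵥ (wmat D.a D.g χ R U).mulVec T).re := by
    rw [hy2]
    congr 1
    simp only [dotProduct, Matrix.mulVec, Pi.star_apply, Finset.mul_sum]
    refine Finset.sum_congr rfl fun u _ => Finset.sum_congr rfl fun v _ => ?_
    rw [(entry_eq hM D hR hp u.2 v.2).2]
    show _ = star (T u) * (coef D.a D.g χ R u v * T v)
    ring
  set W := ∑ u, T u • R u with hW
  have hps : star p = p := hp.1.2.isSelfAdjoint.star_eq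
  have key : ∀ {x z : H →L[ℂ] H}, x ≤ z → p * (star W * x * W) * p ≤ p * (star W * z * W) * p :=
    fun {x z} h => by simpa [hps] using conj_le (conj_le h W) p
  have hlo : p * (star W * (lo • e) * W) * p = (lo : ℂ) • (p * (star W * e * W) * p) := by
    rw [← Complex.coe_smul lo e]
    simp only [mul_smul_comm, smul_mul_assoc]
  refine ⟨?_, ?_⟩
  · have := ev_mono χ (hlo ▸ csmul_mem _ he1) hy1 (key hl)
    rw [hlo, ev_smul χ _ he1, Complex.re_ofReal_mul, hqe, hqy] at this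
    exact this
  · have := ev_mono χ hy1 he1 (key hu)
    rwa [hqe, hqy] at this

/-- A bound on the form gives the norm bound. -/
lemma opBound_of_form {V : Type} [Fintype V] [DecidableEq V] {X : Matrix V V ℂ} {c : ℝ}
    (hX : X.IsHermitian) (hc0 : 0 < c)
    (habs : ∀ u : V → ℂ, |(star u ⬝ᵥ X.mulVec u).re| ≤ c * ∑ a, ‖u a‖ ^ 2) : OpBound X c := by
  intro v
  set w := X.mulVec v with hw
  have hn : ∀ u : V → ℂ, (star u ⬝ᵥ u).re = ∑ a, ‖u a‖ ^ 2 := fun u => by
    rw [dotProduct, Complex.re_sum]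
    refine Finset.sum_congr rfl fun a _ => ?_
    rw [Pi.star_apply, Complex.star_def, ← Complex.normSq_eq_conj_mul_self, Complex.ofReal_re,
      Complex.sq_norm]
  set t : ℝ := 1 / c
  have hs : (star v ⬝ᵥ X.mulVec w).re = (star w ⬝ᵥ w).re := by
    rw [Matrix.dotProduct_mulVec, ← hX.eq, ← Matrix.star_mulVec, ← hw]
  have hexp : ∀ s : ℝ, (star (v + (s : ℂ) • w) ⬝ᵥ X.mulVec (v + (s : ℂ) • w)).re =
      (star v ⬝ᵥ w).re + 2 * s * (∑ a, ‖w a‖ ^ 2) + s ^ 2 * (star w ⬝ᵥ X.mulVec w).re := by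
    intro s
    simp only [star_add, star_smul, Matrix.mulVec_add, Matrix.mulVec_smul, add_dotProduct,
      dotProduct_add, smul_dotProduct, dotProduct_smul, smul_eq_mul, Complex.add_re,
      Complex.star_def, Complex.conj_ofReal, Complex.re_ofReal_mul, hs, ← hw, hn]
    ring
  have hnorm : ∀ s : ℝ, ∑ a, ‖(v + (s : ℂ) • w) a‖ ^ 2 =
      (∑ a, ‖v a‖ ^ 2) + 2 * s * (star v ⬝ᵥ w).re + s ^ 2 * ∑ a, ‖w a‖ ^ 2 := by
    intro s
    rw [← hn, ← hn, ← hn]
    have hsw : (star w ⬝ᵥ v).re = (star v ⬝ᵥ w).re := by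
      rw [Matrix.star_dotProduct, Complex.star_def, Complex.conj_re]
    simp only [star_add, star_smul, add_dotProduct, dotProduct_add, smul_dotProduct,
      dotProduct_smul, smul_eq_mul, Complex.add_re, Complex.star_def, Complex.conj_ofReal,
      Complex.re_ofReal_mul, hsw]
    ring
  have h1 := (abs_le.1 (habs (v + (t : ℂ) • w))).2
  have h2 := (abs_le.1 (habs (v + ((-t : ℝ) : ℂ) • w))).1
  rw [hexp, hnorm] at h1 h2
  have htc : t * c = 1 := by simp only [t]; field_simp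
  have ht : 0 < t := by positivity
  set Sw := ∑ a, ‖w a‖ ^ 2
  set Sv := ∑ a, ‖v a‖ ^ 2
  show Sw ≤ c ^ 2 * Sv
  have h3 : 4 * t * Sw ≤ 2 * c * Sv + 2 * (t * c) * t * Sw := by nlinarith
  rw [htc] at h3
  have h4 : c * (2 * t * Sw) ≤ c * (2 * c * Sv) := mul_le_mul_of_nonneg_left (by linarith) hc0.le
  have h5 : c * (2 * t * Sw) = 2 * Sw := by
    calc c * (2 * t * Sw) = 2 * (t * c) * Sw := by ring
      _ = 2 * Sw := by rw [htc, mul_one]
  nlinarith

include hM he hR in
lemma diag_bounds {n : ℕ} {E : Fin n → (H →L[ℂ] H)} (hE : IsPartition A e E) {α : ℝ}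
    (h : ∀ i, E i * D.op * E i ∈ A ∧ 0 ≤ E i * D.op * E i ∧ E i * D.op * E i ≤ α • E i)
    (u : U) : 0 ≤ (wmat D.a D.g χ R U u u).re ∧ (wmat D.a D.g χ R U u u).re ≤ α := by
  obtain ⟨p, hp⟩ := exists_good hM he D hR
  obtain ⟨hRu, hum, hue⟩ := hR u u.2
  obtain ⟨hA, hval⟩ := entry_eq hM D hR hp u.2 u.2
  obtain ⟨i, hi⟩ := ev_partition (u : Pt A) hE hue
  obtain ⟨hEA, h0, hα⟩ := h i
  have hEi := hE.1 i
  set b := star (R u) * E i * R u with hb
  have hbP : IsPr A b := conj_pr hM hRu hEi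
  have hb1 : ev χ b = 1 := by rw [hb, ← hum.2 _ hEi.1, hi]
  have h1 : E i * R u = R u * b := mul_nor hM hRu hEi.1
  have h2 : star (R u) * E i = b * star (R u) := by
    simpa [star_mul, hEi.2.isSelfAdjoint.star_eq, hbP.2.isSelfAdjoint.star_eq] using congrArg star h1
  have e1 : p * (star (R u) * (E i * D.op * E i) * R u) * p =
      b * (p * (star (R u) * D.op * R u) * p) * b := by
    calc p * (star (R u) * (E i * D.op * E i) * R u) * p
        = p * (star (R u) * E i) * D.op * (E i * R u) * p := by simp only [mul_assoc]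
      _ = (p * b) * (star (R u) * D.op * R u) * (b * p) := by
          rw [h1, h2]; simp only [mul_assoc]
      _ = _ := by
          rw [hM.2.1 p hp.1.1 b hbP.1]
          conv_lhs => arg 2; rw [hM.2.1 b hbP.1 p hp.1.1]
          simp only [mul_assoc]
  have h3 : ev (u : Pt A) (E i * D.op * E i) = coef D.a D.g χ R u u := by
    have hc : star (R u) * (E i * D.op * E i) * R u ∈ A := (hRu.2.2 _ hEA).2
    have := congrArg (ev χ) e1
    rw [ev_mul χ (mul_mem hp.1.1 hc) hp.1.1, ev_mul χ hp.1.1 hc, hp.2.1, one_mul, mul_one,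
      ← hum.2 _ hEA, ev_mul χ (mul_mem hbP.1 hA) hbP.1, ev_mul χ hbP.1 hA, hb1, one_mul, mul_one,
      hval] at this
    exact this
  show 0 ≤ (coef D.a D.g χ R u u).re ∧ (coef D.a D.g χ R u u).re ≤ α
  rw [← h3]
  refine ⟨ev_nonneg _ hEA h0, ?_⟩
  have hαA : α • E i ∈ A := by rw [← Complex.coe_smul]; exact csmul_mem _ hEi.1
  have := ev_mono (u : Pt A) hEA hαA hα
  rwa [← Complex.coe_smul, ev_smul _ _ hEi.1, hi, mul_one, Complex.ofReal_re] at this

end Vale.Agent.P078.MKS.Op
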