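import Vale.Agent.P078.MKS.Form
import Vale.Agent.P078.MKS.MomentsLocal

/-!
Windows seen from different base points differ by a diagonal unitary; moments do not see it and
the entries of a window link neighbours only.
-/

namespace Vale.Agent.P078.MKS.Op

open Singular
open scoped Classical

/-- A diagonal change of phases does not change the mixed determinant. -/
lemma mixDet_gauge {V : Type} [Fintype V] [DecidableEq V] {R : Type} [CommRing R] {r : ℕ}
    (X : Matrix V V R) (p : V → Fin r → R) (S : Finset V) (y : V → R) (μ lam : V → R)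
    (h : ∀ a, μ a * lam a = 1) :
    mixDet (Matrix.of fun a b => μ a * X a b * lam b) p S y = mixDet X p S y := by
  simp only [mixDet]
  refine Finset.sum_congr rfl fun f _ => ?_
  have e : block (Matrix.of fun a b => μ a * X a b * lam b) f S y =
      Matrix.diagonal μ * block X f S y * Matrix.diagonal lam := by
    ext a b
    rw [Matrix.mul_diagonal, Matrix.diagonal_mul]
    simp only [block, Matrix.of_apply]
    by_cases hab : a = b
    · subst hab
      simp only [if_true]
      split_ifs
      · linear_combination (-(y a)) * h a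
      · linear_combination (-1 : R) * h a
    · simp only [hab, if_false]
      split_ifs <;> ring
  rw [e, Matrix.det_mul, Matrix.det_mul, Matrix.det_diagonal, Matrix.det_diagonal]
  congr 1
  have h1 : (∏ a, μ a) * ∏ a, lam a = 1 := by
    rw [← Finset.prod_mul_distrib]
    exact Finset.prod_eq_one fun a _ => h a
  linear_combination (block X f S y).det * h1

lemma mom_gauge {V : Type} [Fintype V] [DecidableEq V] {r : ℕ} (X : Matrix V V ℂ)
    (p : V → Fin r → ℂ) (lam : V → ℂ) (h : ∀ a, star (lam a) * lam a = 1) (k : V) (j : ℕ) :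
    mom (Matrix.of fun a b => star (lam a) * X a b * lam b) p k j = mom X p k j := by
  have h' : ∀ S : Finset V,
      revMix (Matrix.of fun a b => star (lam a) * X a b * lam b) p S = revMix X p S := by
    intro S
    have e : (Matrix.of fun a b => star (lam a) * X a b * lam b).map
        (fun z => PowerSeries.C z * PowerSeries.X) = Matrix.of fun a b =>
          PowerSeries.C (star (lam a)) * (X.map fun z => PowerSeries.C z * PowerSeries.X) a b *
            PowerSeries.C (lam b) := by
      ext1 a b
      simp only [Matrix.map_apply, Matrix.of_apply, map_mul]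
      ring
    rw [revMix, revMix, e]
    exact mixDet_gauge _ _ S _ _ _ fun a => by rw [← map_mul, h a, map_one]
  rw [mom, mom, h', h']

variable {H : Type} [NormedAddCommGroup H] [InnerProductSpace ℂ H] [CompleteSpace H]
  {M A : VonNeumannAlgebra H} {e : H →L[ℂ] H}

variable (hM : IsMASA M A)
include hM

lemma moves_range {v : H →L[ℂ] H} (hv : v ∈ normaliser M A) {χ η : Pt A} (h : Moves v χ η) :
    IsPr A (v * star v) ∧ ev η (v * star v) = 1 :=
  ⟨by simpa using nor_dom (nor_star hv), by simpa using (moves_star hM hv h).1⟩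

/-- A projection inside can be replaced by its value at the intermediate point. -/
lemma val_proj_mid {χ η : Pt A} {x y p : H →L[ℂ] H} (hx : x ∈ normaliser M A)
    (hy : y ∈ normaliser M A) (h : Moves y χ η) (hp : IsPr A p) :
    val χ (x * p * y) = val χ (x * y) * ev η p := by
  rw [mul_assoc, mul_nor hM hy hp.1, ← mul_assoc,
    val_mul_proj hM (nor_mul_mem hM hx hy) (conj_pr hM hy hp), ← h.2 p hp.1]

/-- Moving the base point. -/
lemma val_conj {χ η : Pt A} {h w : H →L[ℂ] H} (hh : h ∈ normaliser M A)
    (hw : w ∈ normaliser M A) (hm : Moves h χ η) : val χ (star h * w * h) = val η w := by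
  by_cases hwη : val η w = 0
  · rw [hwη]
    by_contra hne
    have hfix := moves_of_val hM hh hh hw hm hm hne
    have h1 := val_norm hM hw hfix
    rw [hwη, mul_zero] at h1
    exact zero_ne_one h1
  · obtain ⟨p, hp, hp1, hwp⟩ := support_of_fixed hM hw (moves_of_val_ne_zero hM hw hwη)
    have e1 : star h * w * h * (star h * p * h) = star h * (w * p) * h := by
      rw [mul_assoc (star h * w) h, ← mul_nor hM hh hp.1]
      simp only [mul_assoc]
    have hq1 : ev χ (star h * p * h) = 1 := by rw [← hm.2 p hp.1, hp1]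
    rw [val_eq hM (conj_pr hM hh hp) hq1 (by rw [e1]; exact (hh.2.2 _ hwp).2), e1,
      ← hm.2 _ hwp, val_eq hM hp hp1 hwp]

lemma val_conj_self {χ : Pt A} {R w : H →L[ℂ] H} (hR : R ∈ normaliser M A)
    (hw : w ∈ normaliser M A) (hm : Moves R χ χ) : val χ (star R * w * R) = val χ w :=
  val_conj hM hR hw hm

/-- The phases between the two frames. -/
lemma coef_gauge {K : Type} [Fintype K] {a g : K → (H →L[ℂ] H)}
    (hg : ∀ i, g i ∈ normaliser M A) {χ χ' : Pt A} {U U' : Finset (Pt A)}
    {R R' : Pt A → (H →L[ℂ] H)} (hR : IsFrame M e χ U R) (hR' : IsFrame M e χ' U' R')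
    (hsub : U' ⊆ U) {h : H →L[ℂ] H} (hh : h ∈ normaliser M A) (hm : Moves h χ χ') :
    ∃ lam : Pt A → ℂ, (∀ u ∈ U', star (lam u) * lam u = 1) ∧
      ∀ u ∈ U', ∀ v ∈ U', coef a g χ' R' u v = star (lam u) * coef a g χ R u v * lam v := by
  refine ⟨fun u => val χ (star (R u) * (R' u * h)), fun u hu => ?_, fun u hu v hv => ?_⟩
  · obtain ⟨hRu, hum, -⟩ := hR u (hsub hu)
    obtain ⟨hR'u, hum', -⟩ := hR' u hu
    exact val_norm hM (nor_mul_mem hM (nor_star hRu) (nor_mul_mem hM hR'u hh))
      (moves_mul hM (nor_star hRu) (moves_mul hM hR'u hm hum') (moves_star hM hRu hum))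
  · obtain ⟨hRu, hum, -⟩ := hR u (hsub hu)
    obtain ⟨hR'u, hum', -⟩ := hR' u hu
    obtain ⟨hRv, hvm, -⟩ := hR v (hsub hv)
    obtain ⟨hR'v, hvm', -⟩ := hR' v hv
    simp only [coef, Finset.mul_sum, Finset.sum_mul]
    refine Finset.sum_congr rfl fun i _ => ?_
    set A₁ := R' u * h
    set B₁ := R' v * h
    have hA₁ : A₁ ∈ normaliser M A := nor_mul_mem hM hR'u hh
    have hB₁ : B₁ ∈ normaliser M A := nor_mul_mem hM hR'v hh
    have hAm : Moves A₁ χ u := moves_mul hM hR'u hm hum'
    have hBm : Moves B₁ χ v := moves_mul hM hR'v hm hvm'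
    have e0 : val χ' (star (R' u) * g i * R' v) = val χ (star A₁ * g i * B₁) := by
      rw [← val_conj hM hh (nor_mul_mem hM (nor_mul_mem hM (nor_star hR'u) (hg i)) hR'v) hm]
      congr 1
      simp only [A₁, B₁, star_mul, mul_assoc]
    rw [e0]
    suffices hv' : val χ (star A₁ * g i * B₁) =
        star (val χ (star (R u) * A₁)) * val χ (star (R u) * g i * R v) *
          val χ (star (R v) * B₁) by
      rw [hv']; ring
    by_cases hgm : Moves (g i) v u
    · have hr := moves_range hM hRu hum
      have hs := moves_range hM hRv hvm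
      set s := star (R u) * A₁
      set m := star (R u) * g i * R v
      set t := star (R v) * B₁
      have hs' : s ∈ normaliser M A := nor_mul_mem hM (nor_star hRu) hA₁
      have hm' : m ∈ normaliser M A := nor_mul_mem hM (nor_mul_mem hM (nor_star hRu) (hg i)) hRv
      have ht' : t ∈ normaliser M A := nor_mul_mem hM (nor_star hRv) hB₁
      have hsm : Moves s χ χ := moves_mul hM (nor_star hRu) hAm (moves_star hM hRu hum)
      have hmm : Moves m χ χ := moves_between hM hRu (hg i) hum hvm hgm
      have htm : Moves t χ χ := moves_mul hM (nor_star hRv) hBm (moves_star hM hRv hvm)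
      have hsms : Moves (star s) χ χ := moves_star hM hs' hsm
      calc val χ (star A₁ * g i * B₁)
          = val χ (star A₁ * (R u * star (R u)) * (g i * B₁)) := by
            rw [val_insert hM (nor_star hA₁) (nor_mul_mem hM (hg i) hB₁)
              (moves_mul hM (hg i) hBm hgm) hr.1 hr.2, mul_assoc]
        _ = val χ (star A₁ * (R u * star (R u)) * g i * (R v * star (R v)) * B₁) := by
            rw [val_insert hM (nor_mul_mem hM (nor_mul_mem hM (nor_star hA₁)
              (proj_mem_nor hM hr.1)) (hg i)) hB₁ hBm hs.1 hs.2]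
            simp only [mul_assoc]
        _ = val χ (star s * m * t) := by
            congr 1
            simp only [s, m, t, star_mul, star_star, mul_assoc]
        _ = _ := by
            rw [val_mul hM (nor_mul_mem hM (nor_star hs') hm') ht'
              (moves_mul hM (nor_star hs') hmm hsms) htm,
              val_mul hM (nor_star hs') hm' hsms hmm, val_star hM hs' hsm]
    · have h1 : val χ (star A₁ * g i * B₁) = 0 := by
        by_contra hne
        exact hgm (moves_of_val hM hA₁ hB₁ (hg i) hAm hBm hne)
      have h2 : val χ (star (R u) * g i * R v) = 0 := by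
        by_contra hne
        exact hgm (moves_of_val hM hRu hRv (hg i) hum hvm hne)
      rw [h1, h2, mul_zero, zero_mul]

lemma moves_of_coef {K : Type} [Fintype K] {a g : K → (H →L[ℂ] H)}
    (hg : ∀ i, g i ∈ normaliser M A) {χ : Pt A} {U : Finset (Pt A)} {R : Pt A → (H →L[ℂ] H)}
    (hR : IsFrame M e χ U R) {u v : Pt A} (hu : u ∈ U) (hv : v ∈ U)
    (h : coef a g χ R u v ≠ 0) : ∃ i, Moves (g i) v u := by
  obtain ⟨i, -, hi⟩ := Finset.exists_ne_zero_of_sum_ne_zero h
  exact ⟨i, moves_of_val hM (hR u hu).1 (hR v hv).1 (hg i) (hR u hu).2.1 (hR v hv).2.1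
    (right_ne_zero_of_mul hi)⟩

lemma reach_le_reaches (he : IsPr A e) (D : Gen M A e) {χ : Pt A} {U : Finset (Pt A)}
    {R : Pt A → (H →L[ℂ] H)} (hR : IsFrame M e χ U R) (c : U) :
    ∀ (n : ℕ) (v : U), v ∈ reach (wmat D.a D.g χ R U) c n → D.Reaches n c v
  | 0, v, hv => by
    rw [show v = c from hv]
    exact reaches_self hM he D (hR c c.2).2.2 0
  | n + 1, v, hv => by
    rcases hv with hv | ⟨w, hw, hwv⟩
    · exact reaches_mono hM he D n.le_succ (reach_le_reaches he D hR c n v hv)
    have ih := reach_le_reaches he D hR c n w hw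
    rcases hwv with h | h
    · obtain ⟨i, hi⟩ := moves_of_coef hM D.g_mem hR w.2 v.2 h
      obtain ⟨j, hj⟩ := D.g_star i
      exact (reaches_succ hM he D).2 ⟨w, ih, j, hj ▸ moves_star hM (D.g_mem i) hi⟩
    · exact (reaches_succ hM he D).2 ⟨w, ih, moves_of_coef hM D.g_mem hR v.2 w.2 h⟩

end Vale.Agent.P078.MKS.Op
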