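import Vale.Agent.P078.MKS.Cells

/-!
Points of a MASA moved by normalising partial isometries, and the value of such an element at a
point it fixes.
-/

namespace Vale.Agent.P078.MKS.Op

open Singular

variable {H : Type} [NormedAddCommGroup H] [InnerProductSpace ℂ H] [CompleteSpace H]
  {M A : VonNeumannAlgebra H}

/-- `v` moves the point `χ` to `η`. -/
def Moves (v : H →L[ℂ] H) (χ η : Pt A) : Prop :=
  ev χ (star v * v) = 1 ∧ ∀ a ∈ A, ev η a = ev χ (star v * a * v)

lemma pt_ext {χ η : Pt A} (h : ∀ a ∈ A, ev χ a = ev η a) : χ = η :=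
  StarAlgHom.ext fun a => by
    have := h a.1 a.2
    rwa [ev_eq χ a.2, ev_eq η a.2] at this

lemma moves_unique {v : H →L[ℂ] H} {χ η ζ : Pt A} (h : Moves v χ η) (h' : Moves v χ ζ) : η = ζ :=
  pt_ext fun a ha => (h.2 a ha).trans (h'.2 a ha).symm

variable (hM : IsMASA M A)
include hM

lemma masa_conj_mul {v a b : H →L[ℂ] H} (hv : v ∈ normaliser M A) (ha : a ∈ A) (hb : b ∈ A) :
    star v * a * v * (star v * b * v) = star v * (a * b) * v := by
  calc star v * a * v * (star v * b * v) = star v * a * (v * (star v * b * v)) := by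
        simp only [mul_assoc]
    _ = star v * a * (b * v) := by rw [mul_nor hM hv hb]
    _ = star v * (a * b) * v := by simp only [mul_assoc]

lemma conj_pr {v p : H →L[ℂ] H} (hv : v ∈ normaliser M A) (hp : IsPr A p) :
    IsPr A (star v * p * v) := by
  refine ⟨(hv.2.2 p hp.1).2, ?_, ?_⟩
  · show star v * p * v * (star v * p * v) = star v * p * v
    rw [masa_conj_mul hM hv hp.1 hp.1, hp.2.isIdempotentElem.eq]
  · show star (star v * p * v) = star v * p * v
    simp only [star_mul, star_star, hp.2.isSelfAdjoint.star_eq, mul_assoc]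

lemma exists_moves {v : H →L[ℂ] H} (hv : v ∈ normaliser M A) {χ : Pt A}
    (h : ev χ (star v * v) = 1) : ∃ η, Moves v χ η := by
  have hc : ∀ {a : H →L[ℂ] H}, a ∈ A → star v * a * v ∈ A := fun {a} ha => (hv.2.2 a ha).2
  have key : ∀ a : A.toStarSubalgebra, ev χ (star v * (a : H →L[ℂ] H) * v) =
      ev χ (star v * a.1 * v) := fun a => rfl
  refine ⟨{ toFun := fun a => ev χ (star v * a.1 * v)
            map_one' := by simp [h]
            map_mul' := fun a b => by
              rw [← ev_mul χ (hc a.2) (hc b.2), masa_conj_mul hM hv a.2 b.2]; rfl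
            map_zero' := by simp [ev_zero]
            map_add' := fun a b => by
              rw [← ev_add χ (hc a.2) (hc b.2), ← add_mul, ← mul_add]; rfl
            commutes' := fun c => by
              have e : ((algebraMap ℂ A.toStarSubalgebra c : A.toStarSubalgebra) : H →L[ℂ] H) =
                  c • (1 : H →L[ℂ] H) := by
                rw [Algebra.algebraMap_eq_smul_one]; rfl
              show ev χ (star v * _ * v) = _
              rw [e, mul_smul_comm, mul_one, smul_mul_assoc, ev_smul χ c (nor_dom hv).1, h, mul_one]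
              rfl
            map_star' := fun a => by
              rw [← ev_star χ (hc a.2), star_mul, star_mul, star_star, mul_assoc]; rfl }, h,
    fun a ha => ?_⟩
  rw [ev_eq _ ha]
  rfl

lemma moves_mul {v w : H →L[ℂ] H} (hv : v ∈ normaliser M A) {χ η ζ : Pt A} (hw : Moves w χ η)
    (hv' : Moves v η ζ) : Moves (v * w) χ ζ := by
  refine ⟨?_, fun a ha => ?_⟩
  · rw [star_mul, show star w * star v * (v * w) = star w * (star v * v) * w by
      simp only [mul_assoc], ← hw.2 _ (nor_dom hv).1, hv'.1]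
  · rw [hv'.2 a ha, hw.2 _ (hv.2.2 a ha).2, star_mul]
    simp only [mul_assoc]

lemma moves_star {v : H →L[ℂ] H} (hv : v ∈ normaliser M A) {χ η : Pt A} (h : Moves v χ η) :
    Moves (star v) η χ := by
  have hd := (nor_dom hv).1
  refine ⟨?_, fun a ha => ?_⟩
  · rw [star_star, h.2 _ (by simpa using (hv.2.2 1 (one_mem A)).1),
      show star v * (v * star v) * v = star v * v * (star v * v) by simp only [mul_assoc],
      ev_mul χ hd hd, h.1, one_mul]
  · rw [star_star, h.2 _ (hv.2.2 a ha).1,
      show star v * (v * a * star v) * v = star v * v * a * (star v * v) by simp only [mul_assoc],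
      ev_mul χ (mul_mem hd ha) hd, ev_mul χ hd ha, h.1, one_mul, mul_one]

lemma moves_proj {p : H →L[ℂ] H} (hp : IsPr A p) {χ : Pt A} (h : ev χ p = 1) : Moves p χ χ := by
  refine ⟨?_, fun a ha => ?_⟩
  · rw [hp.2.isSelfAdjoint.star_eq, hp.2.isIdempotentElem.eq, h]
  · rw [hp.2.isSelfAdjoint.star_eq, ev_mul χ (mul_mem hp.1 ha) hp.1, ev_mul χ hp.1 ha, h,
      one_mul, mul_one]

open scoped Classical in
omit hM in
/-- The value at `χ` of a normalising element fixing `χ` (zero if it does not). -/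
noncomputable def val (χ : Pt A) (v : H →L[ℂ] H) : ℂ :=
  if h : ∃ p, IsPr A p ∧ ev χ p = 1 ∧ v * p ∈ A then ev χ (v * h.choose) else 0

lemma val_eq {χ : Pt A} {v p : H →L[ℂ] H} (hp : IsPr A p) (h1 : ev χ p = 1) (hvp : v * p ∈ A) :
    val χ v = ev χ (v * p) := by
  have h : ∃ p, IsPr A p ∧ ev χ p = 1 ∧ v * p ∈ A := ⟨p, hp, h1, hvp⟩
  rw [val, dif_pos h]
  obtain ⟨hq, hq1, hvq⟩ := h.choose_spec
  calc ev χ (v * h.choose) = ev χ (v * h.choose * p) := by rw [ev_mul χ hvq hp.1, h1, mul_one]
    _ = ev χ (v * p * h.choose) := by rw [mul_assoc, masa_comm hM hq.1 hp.1, ← mul_assoc]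
    _ = ev χ (v * p) := by rw [ev_mul χ hvp hq.1, hq1, mul_one]

lemma val_sq {χ : Pt A} {v p : H →L[ℂ] H} (hv : v ∈ normaliser M A) (hp : IsPr A p)
    (h1 : ev χ p = 1) (hvp : v * p ∈ A) :
    star (val χ v) * val χ v = ev χ (star v * v) := by
  rw [val_eq hM hp h1 hvp, ← ev_star χ hvp, ← ev_mul χ (star_mem hvp) hvp, star_mul,
    hp.2.isSelfAdjoint.star_eq, show p * star v * (v * p) = p * (star v * v) * p by
      simp only [mul_assoc], ev_mul χ (mul_mem hp.1 (nor_dom hv).1) hp.1,
    ev_mul χ hp.1 (nor_dom hv).1, h1, one_mul, mul_one]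

lemma moves_of_support {χ : Pt A} {v p : H →L[ℂ] H} (hv : v ∈ normaliser M A) (hp : IsPr A p)
    (h1 : ev χ p = 1) (hvp : v * p ∈ A) (hd : ev χ (star v * v) = 1) : Moves v χ χ := by
  refine ⟨hd, fun a ha => ?_⟩
  have hc := (hv.2.2 a ha).2
  have h := val_sq hM hv hp h1 hvp
  rw [hd, val_eq hM hp h1 hvp, ← ev_star χ hvp] at h
  calc ev χ a = ev χ (star (v * p)) * ev χ a * ev χ (v * p) := by
        rw [mul_right_comm, h, one_mul]
    _ = ev χ (p * (star v * a * v) * p) := by
        rw [← ev_mul χ (star_mem hvp) ha, ← ev_mul χ (mul_mem (star_mem hvp) ha) hvp, star_mul,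
          hp.2.isSelfAdjoint.star_eq]
        simp only [mul_assoc]
    _ = ev χ (star v * a * v) := by
        rw [ev_mul χ (mul_mem hp.1 hc) hp.1, ev_mul χ hp.1 hc, h1, one_mul, mul_one]

/-- A point moved inside a cell is fixed, with a witness. -/
lemma support_of_cell {χ η : Pt A} {v E : H →L[ℂ] H} (hv : v ∈ normaliser M A) (h : Moves v χ η)
    (hE : IsPr A E) (hEv : E * v * E ∈ A) (h1 : ev χ E = 1) (h2 : ev η E = 1) :
    ∃ p, IsPr A p ∧ ev χ p = 1 ∧ v * p ∈ A := by
  refine ⟨star v * E * v * E, isPr_mul hM.2.1 (conj_pr hM hv hE) hE, ?_, ?_⟩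
  · rw [ev_mul χ (hv.2.2 E hE.1).2 hE.1, ← h.2 E hE.1, h1, h2, mul_one]
  · rwa [← mul_assoc, ← mul_nor hM hv hE.1]

lemma eq_of_cell {χ η : Pt A} {v E : H →L[ℂ] H} (hv : v ∈ normaliser M A) (h : Moves v χ η)
    (hE : IsPr A E) (hEv : E * v * E ∈ A) (h1 : ev χ E = 1) (h2 : ev η E = 1) : η = χ := by
  obtain ⟨p, hp, hp1, hvp⟩ := support_of_cell hM hv h hE hEv h1 h2
  exact moves_unique h (moves_of_support hM hv hp hp1 hvp h.1)

lemma support_of_fixed {χ : Pt A} {v : H →L[ℂ] H} (hv : v ∈ normaliser M A) (h : Moves v χ χ) :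
    ∃ p, IsPr A p ∧ ev χ p = 1 ∧ v * p ∈ A := by
  obtain ⟨P, hP, hPv⟩ := exists_split hM hv
  obtain ⟨i, hi⟩ := ev_partition χ hP (ev_one χ)
  exact support_of_cell hM hv h (hP.1 i) (hPv i) hi hi

/-- A nonzero value means a fixed point. -/
lemma moves_of_val_ne_zero {χ : Pt A} {v : H →L[ℂ] H} (hv : v ∈ normaliser M A)
    (h : val χ v ≠ 0) : Moves v χ χ := by
  by_cases he : ∃ p, IsPr A p ∧ ev χ p = 1 ∧ v * p ∈ A
  · obtain ⟨p, hp, h1, hvp⟩ := he
    refine moves_of_support hM hv hp h1 hvp ((ev_proj χ (nor_dom hv)).resolve_left fun h0 => h ?_)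
    have := val_sq hM hv hp h1 hvp
    rw [h0, Complex.star_def, ← Complex.normSq_eq_conj_mul_self] at this
    exact Complex.normSq_eq_zero.1 (by exact_mod_cast this)
  · exact absurd (by rw [val, dif_neg he]) h

lemma val_norm {χ : Pt A} {v : H →L[ℂ] H} (hv : v ∈ normaliser M A) (h : Moves v χ χ) :
    star (val χ v) * val χ v = 1 := by
  obtain ⟨p, hp, h1, hvp⟩ := support_of_fixed hM hv h
  rw [val_sq hM hv hp h1 hvp, h.1]

lemma val_mul {χ : Pt A} {v w : H →L[ℂ] H} (hv : v ∈ normaliser M A) (hw : w ∈ normaliser M A)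
    (hv' : Moves v χ χ) (hw' : Moves w χ χ) : val χ (v * w) = val χ v * val χ w := by
  obtain ⟨p, hp, hp1, hvp⟩ := support_of_fixed hM hv hv'
  obtain ⟨q, hq, hq1, hwq⟩ := support_of_fixed hM hw hw'
  have e : v * w * (q * p) = v * p * (w * q) := by
    calc v * w * (q * p) = v * (w * q * p) := by simp only [mul_assoc]
      _ = v * (p * (w * q)) := by rw [masa_comm hM hwq hp.1]
      _ = v * p * (w * q) := by simp only [mul_assoc]
  rw [val_eq hM (isPr_mul hM.2.1 hq hp) (by rw [ev_mul χ hq.1 hp.1, hq1, hp1, one_mul])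
      (e ▸ mul_mem hvp hwq), e, ev_mul χ hvp hwq, val_eq hM hp hp1 hvp, val_eq hM hq hq1 hwq]

lemma val_star {χ : Pt A} {v : H →L[ℂ] H} (hv : v ∈ normaliser M A) (h : Moves v χ χ) :
    val χ (star v) = star (val χ v) := by
  obtain ⟨p, hp, hp1, hvp⟩ := support_of_fixed hM hv h
  have hd := (nor_dom hv).1
  have hps : star p = p := hp.2.isSelfAdjoint.star_eq
  have e : star v * (v * p * star v) = star (v * p) * 1 := by
    calc star v * (v * p * star v) = star v * v * p * star v := by simp only [mul_assoc]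
      _ = p * (star v * v) * star v := by rw [masa_comm hM hd hp.1]
      _ = p * (star v * v * star v) := by simp only [mul_assoc]
      _ = star (v * p) * 1 := by
          rw [show star v * v * star v = star v by simpa using (nor_star hv).2.1, star_mul, hps,
            mul_one]
  have hq : IsPr A (v * p * star v) := by simpa using conj_pr hM (nor_star hv) hp
  have hq1 : ev χ (v * p * star v) = 1 := by
    have := (moves_star hM hv h).2 p hp.1
    rw [star_star, hp1] at this
    exact this.symm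
  rw [val_eq hM hq hq1 (by rw [e]; exact mul_mem (star_mem hvp) (one_mem A)), e, mul_one,
    ev_star χ hvp, val_eq hM hp hp1 hvp]

/-- A projection on the right multiplies the value by its value. -/
lemma val_mul_proj {χ : Pt A} {x a : H →L[ℂ] H} (hx : x ∈ normaliser M A) (ha : IsPr A a) :
    val χ (x * a) = val χ x * ev χ a := by
  have hxa := nor_mul_mem hM hx (proj_mem_nor hM ha)
  rcases ev_proj χ ha with h | h
  · rw [h, mul_zero]
    by_contra hne
    have := (moves_of_val_ne_zero hM hxa hne).1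
    rw [star_mul, ha.2.isSelfAdjoint.star_eq,
      show a * star x * (x * a) = a * (star x * x) * a by simp only [mul_assoc],
      ev_mul χ (mul_mem ha.1 (nor_dom hx).1) ha.1, h, mul_zero] at this
    exact zero_ne_one this
  · rw [h, mul_one]
    by_cases he : ∃ p, IsPr A p ∧ ev χ p = 1 ∧ x * p ∈ A
    · obtain ⟨p, hp, hp1, hxp⟩ := he
      have e : x * a * p = x * p * a := by
        rw [mul_assoc, masa_comm hM ha.1 hp.1, ← mul_assoc]
      rw [val_eq hM hp hp1 (e ▸ mul_mem hxp ha.1), e, ev_mul χ hxp ha.1, h, mul_one,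
        val_eq hM hp hp1 hxp]
    · rw [val, val, dif_neg he, dif_neg]
      rintro ⟨p, hp, hp1, hxp⟩
      refine he ⟨a * p, isPr_mul hM.2.1 ha hp, ?_, by rwa [← mul_assoc]⟩
      rw [ev_mul χ ha.1 hp.1, h, hp1, one_mul]

/-- A projection containing the intermediate point can be left out. -/
lemma val_insert {χ η : Pt A} {x y p : H →L[ℂ] H} (hx : x ∈ normaliser M A)
    (hy : y ∈ normaliser M A) (h : Moves y χ η) (hp : IsPr A p) (hp1 : ev η p = 1) :
    val χ (x * p * y) = val χ (x * y) := by
  rw [mul_assoc, mul_nor hM hy hp.1, ← mul_assoc, val_mul_proj hM (nor_mul_mem hM hx hy)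
    (conj_pr hM hy hp), ← h.2 p hp.1, hp1, mul_one]

/-- Elements with a nonzero value between two representatives. -/
lemma moves_of_val {χ η ζ : Pt A} {R S g : H →L[ℂ] H} (hR : R ∈ normaliser M A)
    (hS : S ∈ normaliser M A) (hg : g ∈ normaliser M A) (hRm : Moves R χ ζ) (hSm : Moves S χ η)
    (h : val χ (star R * g * S) ≠ 0) : Moves g η ζ := by
  have hN := nor_mul_mem hM (nor_star hR) hg
  have hfix := moves_of_val_ne_zero hM (nor_mul_mem hM hN hS) h
  have hr : R * star R ∈ A := by simpa using (hR.2.2 1 (one_mem A)).1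
  have h1 : ev η (star g * (R * star R) * g) = 1 := by
    rw [hSm.2 _ (hg.2.2 _ hr).2]
    simpa [star_mul, mul_assoc] using hfix.1
  have hgd : ev η (star g * g) = 1 := by
    have e : star g * (R * star R) * g * (star g * g) = star g * (R * star R) * g := by
      calc star g * (R * star R) * g * (star g * g)
          = star g * (R * star R) * (g * star g * g) := by simp only [mul_assoc]
        _ = star g * (R * star R) * g := by rw [hg.2.1]
    have := congrArg (ev η) e
    rwa [ev_mul η (hg.2.2 _ hr).2 (nor_dom hg).1, h1, one_mul] at this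
  obtain ⟨θ, hθ⟩ := exists_moves hM hg hgd
  have hθR : ev θ (star (star R) * star R) = 1 := by rw [star_star, hθ.2 _ hr, h1]
  obtain ⟨κ, hκ⟩ := exists_moves hM (nor_star hR) hθR
  have hcomp : Moves (star R * g * S) χ κ := moves_mul hM hN hSm (moves_mul hM (nor_star hR) hθ hκ)
  rw [← moves_unique hfix hcomp] at hκ
  have hRθ := moves_star hM (nor_star hR) hκ
  rw [star_star] at hRθ
  rwa [moves_unique hRm hRθ]

lemma moves_between {χ η ζ : Pt A} {R S g : H →L[ℂ] H} (hR : R ∈ normaliser M A)
    (hg : g ∈ normaliser M A) (hRm : Moves R χ ζ) (hSm : Moves S χ η) (h : Moves g η ζ) :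
    Moves (star R * g * S) χ χ := by
  rw [mul_assoc]
  exact moves_mul hM (nor_star hR) (moves_mul hM hg hSm h) (moves_star hM hR hRm)

end Vale.Agent.P078.MKS.Op
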