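import Vale.Agent.P078.MKS.Transport

/-!
The greedy pass: cell after cell, every point gets an option which raises the sum of the potential
over its window by at most the allowed amount.
-/

namespace Vale.Agent.P078.MKS.Op

open Singular
open scoped Classical

variable {H : Type} [NormedAddCommGroup H] [InnerProductSpace ℂ H] [CompleteSpace H]
  {M A : VonNeumannAlgebra H} {e : H →L[ℂ] H} {τ : (H →L[ℂ] H) →ₗ[ℂ] ℂ}
  (hM : IsMASA M A) (he : IsPr A e) (hτ : IsTrace M e τ) (D : Gen M A e) {n r : ℕ}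
  {q : Polynomial ℝ} (hq : q.natDegree ≤ n) (hr : 0 < r)

include hM he

lemma exists_sep_cells (n : ℕ) :
    ∃ (N : ℕ) (E : Fin N → (H →L[ℂ] H)), IsPartition A e E ∧ ∀ k, Sep D n (E k) := by
  obtain ⟨N, E, hE, hEv⟩ := exists_cells hM he (Finset.univ.image (D.word (2 * n))) fun v hv => by
    obtain ⟨f, -, rfl⟩ := Finset.mem_image.1 hv
    exact word_mem hM he D _ f
  refine ⟨N, E, hE, fun k χ η hχ hη h => ?_⟩
  obtain ⟨f, hf⟩ := h
  exact eq_of_cell hM (word_mem hM he D _ f) hf (hE.1 k)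
    (hEv _ (Finset.mem_image_of_mem _ (Finset.mem_univ f)) k) hχ hη

/-- States differing at one point differ in the window sums by the change of the potential on the
ball of the point. -/
lemma window_diff {S S' : St A r} (hS : ∀ χ, Ok (S χ)) (hS' : ∀ χ, Ok (S' χ))
    {q : Polynomial ℝ} (hq : q.natDegree ≤ n) {c : Pt A}
    (h : ∀ η, D.Reaches (2 * n) c η → η ≠ c → S' η = S η) :
    ∑ u, both q D.a D.g c (D.ball c (2 * n)) (rep M c) S' u -
        ∑ u, both q D.a D.g c (D.ball c (2 * n)) (rep M c) S u =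
      ∑ η ∈ D.ball c n, (pot D n q S' η - pot D n q S η) := by
  set U := D.ball c (2 * n)
  have hR := frame_ball hM he D c (2 * n)
  have hin : ∀ η, D.Reaches n c η → η ∈ U := fun η hη =>
    (mem_ball D).2 (reaches_mono hM he D (by omega) hη)
  rw [← Finset.sum_sub_distrib]
  have hterm : ∀ u : U, both q D.a D.g c U (rep M c) S' u - both q D.a D.g c U (rep M c) S u =
      if D.Reaches n c (u : Pt A) then pot D n q S' u - pot D n q S u else 0 := by
    intro u
    split_ifs with hu
    · have hball : ∀ ζ, D.Reaches n (u : Pt A) ζ → ζ ∈ U := fun ζ hζ =>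
        (mem_ball D).2 (by rw [two_mul]; exact reaches_trans hM he D hu hζ)
      rw [both_eq_pot hM he D hR hS' hq u hball, both_eq_pot hM he D hR hS hq u hball]
    · have hv : ∀ v : U, D.Reaches n (u : Pt A) v → S' v = S v := fun v hv =>
        h v ((mem_ball D).1 v.2) fun hvc => hu (reaches_symm hM he D (hvc ▸ hv))
      rw [both, both, qmom_congr hM he D hR hS hS' hq 1 u hv,
        qmom_congr hM he D hR hS hS' hq (-1) u hv, sub_self]
  rw [Finset.sum_congr rfl fun u _ => hterm u, Finset.sum_coe_sort U fun η =>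
      if D.Reaches n c η then pot D n q S' η - pot D n q S η else 0, ← Finset.sum_filter]
  refine Finset.sum_congr (Finset.ext fun η => ?_) fun _ _ => rfl
  rw [Finset.mem_filter, mem_ball D (n := n)]
  exact ⟨fun h => h.2, fun h => ⟨hin η h, h⟩⟩

omit he in
/-- Choosing at every point of a cell one of finitely many small options, representably. -/
lemma exists_selection {ι : Type} {G : ι → (H →L[ℂ] H)} (hG : ∀ i, G i ∈ A) {K : H →L[ℂ] H}
    (hK : IsPr A K) {θ : ℝ} (h : ∀ c : Pt A, ev c K = 1 → ∃ i, (ev c (G i)).re < θ) :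
    ∃ pick : Pt A → Option ι, (∀ c, ev c K ≠ 1 → pick c = none) ∧
      (∀ c, ev c K = 1 → ∃ i, pick c = some i ∧ (ev c (G i)).re ≤ θ) ∧
      ∀ (φ : ι → ℂ) (f : Pt A → ℂ), f ∈ Rep A e →
        (fun c => (pick c).elim (f c) φ) ∈ Rep A e := by
  obtain ⟨F, hF⟩ := exists_finite_small hM.2.1 hG hK.1 θ h
  let l : Fin F.card → ι := fun j => (F.equivFin.symm j : F)
  let y : Fin F.card → (H →L[ℂ] H) := fun j =>
    (1 / 2 : ℂ) • (G (l j) + star (G (l j)))
  have hy : ∀ j, y j ∈ A := fun j => csmul_mem _ (add_mem (hG _) (star_mem (hG _)))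
  have hys : ∀ j, IsSelfAdjoint (y j) := fun j => by
    simp [y, IsSelfAdjoint, star_smul, add_comm]
  have hyval : ∀ j (c : Pt A), (ev c (y j)).re = (ev c (G (l j))).re := fun j c => by
    rw [ev_smul c _ (add_mem (hG _) (star_mem (hG _))), ev_add c (hG _) (star_mem (hG _)),
      ev_star c (hG _)]
    simp
    ring
  let b : Fin F.card → Pt A → ℂ := fun j χ => ev χ K * (1 - ev χ (spProj (y j) θ))
  have hb01 : ∀ j χ, b j χ = 0 ∨ b j χ = 1 := fun j χ => by
    rcases ev_proj χ hK with h | h <;>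
      rcases ev_proj χ (isPr_spProj (hy j) θ) with h' | h' <;> simp [b, h, h']
  have hbsmall : ∀ j χ, b j χ = 1 → ev χ K = 1 ∧ (ev χ (G (l j))).re ≤ θ := by
    intro j χ h
    rcases ev_proj χ hK with h0 | h1
    · exact absurd h (by simp [b, h0])
    · refine ⟨h1, le_of_not_gt fun hlt => ?_⟩
      have := (ev_spProj (hy j) (hys j) θ χ).1 (by rwa [hyval])
      simp [b, h1, this] at h
  have hbex : ∀ χ : Pt A, ev χ K = 1 → ∃ j, b j χ = 1 := fun χ hχ => by
    obtain ⟨i, hiF, hi⟩ := hF χ hχ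
    refine ⟨F.equivFin ⟨i, hiF⟩, ?_⟩
    have := (ev_spProj (hy (F.equivFin ⟨i, hiF⟩)) (hys _) θ χ).2 (by
      rw [hyval]; simpa [l] using hi)
    simp [b, hχ, this]
  have hbpt : ∀ χ j, first b j χ = first (fun i => b i χ) j := fun χ j => by
    simp [first, Finset.prod_apply]
  have hfrep : ∀ j, first b j ∈ Rep A e := fun j => first_mem (fun i =>
    mul_mem (rep_ev hK.1) (sub_mem (one_mem _) (rep_ev (isPr_spProj (hy i) _).1))) j
  let pick : Pt A → Option ι := fun χ =>
    if h : ∃ j, first (fun i => b i χ) j = 1 then some (l h.choose) else none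
  have hval : ∀ χ, (∀ j, first (fun i => b i χ) j = 0) ∧ pick χ = none ∧ ev χ K ≠ 1 ∨
      ∃ j, b j χ = 1 ∧ (∀ i, first (fun i => b i χ) i = if i = j then 1 else 0) ∧
        pick χ = some (l j) := by
    intro χ
    by_cases hex : ∃ j, b j χ = 1
    · obtain ⟨j, hj, hj1, hj0⟩ := sum_first (fun i => hb01 i χ) hex
      refine Or.inr ⟨j, hj, fun i => ?_, ?_⟩
      · split_ifs with h
        exacts [h ▸ hj1, hj0 i h]
      · have h : ∃ j, first (fun i => b i χ) j = 1 := ⟨j, hj1⟩
        simp only [pick, dif_pos h]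
        congr 2
        by_contra hne
        exact zero_ne_one ((hj0 _ hne).symm.trans h.choose_spec)
    · push Not at hex
      have h0 : ∀ j, first (fun i => b i χ) j = 0 := fun j => by
        simp [first, (hb01 j χ).resolve_right (hex j)]
      refine Or.inl ⟨h0, dif_neg fun ⟨j, hj⟩ => zero_ne_one ((h0 j).symm.trans hj), fun hK1 => ?_⟩
      obtain ⟨j, hj⟩ := hbex χ hK1
      exact hex j hj
  refine ⟨pick, fun c hc => ?_, fun c hc => ?_, fun φ f hf => ?_⟩
  · rcases hval c with ⟨-, hv, -⟩ | ⟨j, hj, -, -⟩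
    exacts [hv, absurd (hbsmall j c hj).1 hc]
  · rcases hval c with ⟨-, -, h⟩ | ⟨j, hj, -, hv⟩
    exacts [absurd hc h, ⟨_, hv, (hbsmall j c hj).2⟩]
  · have h := add_mem (sum_mem (fun j (_ : j ∈ Finset.univ) => mul_mem (hfrep j)
      (rep_const (φ (l j))))) (mul_mem (sub_mem (one_mem _)
        (sum_mem fun j (_ : j ∈ Finset.univ) => hfrep j)) hf)
    convert h using 1
    funext χ
    simp only [Pi.add_apply, Pi.mul_apply, Pi.sub_apply, Pi.one_apply, Finset.sum_apply, hbpt]
    rcases hval χ with ⟨h0, hv, -⟩ | ⟨j, -, h0, hv⟩ <;> simp [h0, hv]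

include hτ hq hr

/-- The change of the integrated potential for a change of state inside a cell. -/
lemma change_on_cell (hRP : RepPotStatement) {K : H →L[ℂ] H} (hK : IsPr A K) (hKs : Sep D n K)
    {S T : St A r} (hS : IsState A e S) (hT : IsState A e T)
    (hTS : ∀ χ, ev χ K ≠ 1 → T χ = S χ) :
    ∃ g ∈ A, int τ e (fun χ => (pot D n q T χ : ℂ)) =
        int τ e (fun χ => (pot D n q S χ : ℂ)) + (τ (g * e)).re ∧
      (∀ c : Pt A, ev c K ≠ 1 → ev c g = 0) ∧
      ∀ c : Pt A, ev c K = 1 →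
        (ev c g).re = ∑ η ∈ D.ball c n, (pot D n q T η - pot D n q S η) := by
  have hrep : ∀ U : St A r, IsState A e U → (fun χ => (pot D n q U χ : ℂ)) ∈ Rep A e :=
    hRP H M A e hM he D n q hq r hr
  have hd := sub_mem (hrep T hT) (hrep S hS)
  obtain ⟨g, hg, hint, hval⟩ := transport hM he hτ D n hK hKs hd fun η hη hno => by
    simp only [Pi.sub_apply]
    rw [pot_congr hM he D hS.1 hT.1 hq fun ζ hζ => hTS ζ (hno ζ hζ), sub_self]
  refine ⟨g, hg, ?_, fun c hc => by rw [hval c, if_neg hc], fun c hc => ?_⟩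
  · have := int_add hM he hτ (hrep S hS) hd
    rw [add_sub_cancel] at this
    rw [this, hint]
  · rw [hval c, if_pos hc]
    simp [Complex.re_sum]

/-- One cell of the pass. -/
lemma cell_step (hRP : RepPotStatement) {ι : Type} (opt : ι → (Fin r → ℝ) × ℝ)
    (hopt : ∀ i, Ok (opt i)) {κ ε : ℝ} (hε : 0 < ε) {K : H →L[ℂ] H} (hK : IsPr A K)
    (hKe : K * e = K) (hKs : Sep D n K) {S : St A r} (hS : IsState A e S)
    (hmove : ∀ c, ev c K = 1 → ∃ i,
      ∑ u, both q D.a D.g c (D.ball c (2 * n)) (rep M c) (Function.update S c (opt i)) u ≤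
        ∑ u, both q D.a D.g c (D.ball c (2 * n)) (rep M c) S u + κ) :
    ∃ S' : St A r, IsState A e S' ∧ (∀ χ, ev χ K ≠ 1 → S' χ = S χ) ∧
      (∀ χ, ev χ K = 1 → ∃ i, S' χ = opt i) ∧
      int τ e (fun χ => (pot D n q S' χ : ℂ)) ≤
        int τ e (fun χ => (pot D n q S χ : ℂ)) + (κ + ε) * (τ K).re := by
  let Si : ι → St A r := fun i χ => if ev χ K = 1 then opt i else S χ
  have hSi : ∀ i, IsState A e (Si i) := fun i => isState_ite hK hS (hopt i)
  choose G hGA hGint hGoff hGval using fun i => change_on_cell hM he hτ D hq hr hRP hK hKs hS (hSi i)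
    fun χ hχ => if_neg hχ
  have hgood : ∀ c : Pt A, ev c K = 1 → ∃ i, (ev c (G i)).re < κ + ε / 2 := by
    intro c hc
    obtain ⟨i, hi⟩ := hmove c hc
    refine ⟨i, ?_⟩
    have heq : ∀ u : D.ball c (2 * n), Si i u = Function.update S c (opt i) u := fun u => by
      by_cases huc : (u : Pt A) = c
      · simp only [Si, huc, hc, if_true, Function.update_self]
      · simp only [Si, Function.update_of_ne huc]
        rw [if_neg fun hu => huc (hKs c u hc hu ((mem_ball D).1 u.2))]
    have hw := window_diff hM he D hS.1 (hSi i).1 hq (c := c) fun η hη hne =>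
      if_neg fun hu => hne (hKs c η hc hu hη)
    rw [(hGval i c hc), ← hw]
    simp only [fun u => both_congr_fun q D.a D.g c (rep M c) heq u]
    linarith
  obtain ⟨pick, hpn, hps, hprep⟩ := exists_selection (e := e) hM hGA hK hgood
  let S' : St A r := fun χ => (pick χ).elim (S χ) opt
  have hS' : IsState A e S' := by
    refine ⟨fun χ => ?_, fun s => ?_, ?_⟩
    · show Ok ((pick χ).elim (S χ) opt)
      cases pick χ
      exacts [hS.1 χ, hopt _]
    · have := hprep (fun i => ((opt i).1 s : ℂ)) _ (hS.2.1 s)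
      convert this using 1
      funext χ
      cases h : pick χ <;> simp [S', h]
    · have := hprep (fun i => ((opt i).2 : ℂ)) _ hS.2.2
      convert this using 1
      funext χ
      cases h : pick χ <;> simp [S', h]
  have hoff : ∀ χ, ev χ K ≠ 1 → S' χ = S χ := fun χ hχ => by simp [S', hpn χ hχ]
  refine ⟨S', hS', hoff, fun χ hχ => ?_, ?_⟩
  · obtain ⟨i, hi, -⟩ := hps χ hχ
    exact ⟨i, by simp [S', hi]⟩
  obtain ⟨g, hgA, hgint, hgoff, hgval⟩ := change_on_cell hM he hτ D hq hr hRP hK hKs hS hS' hoff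
  rw [hgint]
  have hbound : (τ (g * e)).re ≤ (τ ((((κ + ε / 2 : ℝ) : ℂ) • K) * e)).re := by
    refine trace_re_le hM he hτ hgA (csmul_mem _ hK.1) fun c hc => ?_
    rw [ev_smul c _ hK.1]
    by_cases hc1 : ev c K = 1
    · obtain ⟨i, hi, hle⟩ := hps c hc1
      rw [hc1, mul_one, Complex.ofReal_re, (hgval c hc1)]
      refine le_trans (le_of_eq ?_) hle
      rw [(hGval i c hc1)]
      refine Finset.sum_congr rfl fun η hη => ?_
      have hstate : ∀ ζ, D.Reaches n η ζ → S' ζ = Si i ζ := fun ζ hζ => by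
        by_cases hζK : ev ζ K = 1
        · rw [sep_apply hM he D hKs hc1 hζK ((mem_ball D).1 hη) hζ]
          show (pick c).elim (S c) opt = if ev c K = 1 then opt i else S c
          rw [hi, if_pos hc1, Option.elim_some]
        · rw [hoff ζ hζK]
          exact (if_neg hζK).symm
      rw [pot_congr hM he D (hSi i).1 hS'.1 hq hstate]
    · rw [hgoff c hc1, (ev_proj c hK).resolve_right hc1, mul_zero]
  rw [smul_mul_assoc, hKe, map_smul, smul_eq_mul, Complex.re_ofReal_mul] at hbound
  have hK0 : 0 ≤ (τ K).re :=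
    tr_nonneg hτ he.2 (hKe ▸ cor_of_alg hM he hK.1) hK.2.nonneg
  nlinarith [mul_nonneg hε.le hK0]

omit hM he hτ hq hr in
/-- The module Pass. -/
theorem pass_ok (hRP : RepPotStatement) : PassStatement := by
  intro H _ _ _ M A e τ hM he hτ D n q hq r hr S₀ hS₀ ι opt hopt κ ε hε hmove
  obtain ⟨N, E, hE, hEs⟩ := exists_sep_cells hM he D n
  have hEe : ∀ k, E k * e = E k := fun k => by
    rw [← hE.2.2, Finset.mul_sum, Finset.sum_eq_single k
      (fun i _ hi => hE.2.1 k i (Ne.symm hi)) (by simp), (hE.1 k).2.isIdempotentElem.eq]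
  have hdisj : ∀ {χ : Pt A} {i j : Fin N}, ev χ (E i) = 1 → ev χ (E j) = 1 → i = j := by
    intro χ i j hi hj
    by_contra hne
    have := congrArg (ev χ) (hE.2.1 i j hne)
    rw [ev_mul χ (hE.1 i).1 (hE.1 j).1, hi, hj, one_mul, ev_zero] at this
    exact one_ne_zero this
  suffices h : ∀ s : Finset (Fin N), ∃ S : St A r, IsState A e S ∧
      (∀ χ, S χ = S₀ χ ∨ ∃ i, S χ = opt i) ∧
      (∀ k ∈ s, ∀ χ, ev χ (E k) = 1 → ∃ i, S χ = opt i) ∧
      (∀ k, k ∉ s → ∀ χ, ev χ (E k) = 1 → S χ = S₀ χ) ∧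
      int τ e (fun χ => (pot D n q S χ : ℂ)) ≤
        int τ e (fun χ => (pot D n q S₀ χ : ℂ)) + (κ + ε) * ∑ k ∈ s, (τ (E k)).re by
    obtain ⟨S, hS, hinv, hdone, -, hint⟩ := h Finset.univ
    refine ⟨S, hS, hinv, fun χ hχ => ?_, ?_⟩
    · obtain ⟨k, hk⟩ := ev_partition χ hE hχ
      exact hdone k (Finset.mem_univ k) χ hk
    · rwa [← Complex.re_sum, ← map_sum, hE.2.2] at hint
  intro s
  induction s using Finset.induction_on with
  | empty => exact ⟨S₀, hS₀, fun χ => Or.inl rfl, fun k hk => absurd hk (Finset.notMem_empty k),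
      fun k _ χ _ => rfl, by simp⟩
  | insert k s hks ih =>
    obtain ⟨S, hS, hinv, hdone, hrest, hint⟩ := ih
    obtain ⟨S', hS', hoff, hon, hle⟩ := cell_step hM he hτ D hq hr hRP opt hopt hε (hE.1 k)
      (hEe k) (hEs k) hS fun c hc => by
        have hce : ev c e = 1 := by
          have := congrArg (ev c) (hEe k)
          rwa [ev_mul c (hE.1 k).1 he.1, hc, one_mul] at this
        exact hmove S hS hinv c _ _ (frame_ball hM he D c (2 * n))
          ⟨c, (mem_ball D).2 (reaches_self hM he D hce _)⟩ (hrest k hks c hc)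
    refine ⟨S', hS', fun χ => ?_, fun j hj χ hχ => ?_, fun j hj χ hχ => ?_, ?_⟩
    · by_cases hχ : ev χ (E k) = 1
      · exact Or.inr (hon χ hχ)
      · rw [hoff χ hχ]; exact hinv χ
    · rcases Finset.mem_insert.1 hj with rfl | hj
      · exact hon χ hχ
      · rw [hoff χ fun h => hks (hdisj h hχ ▸ hj)]
        exact hdone j hj χ hχ
    · rw [hoff χ fun h => hj (Finset.mem_insert.2 (Or.inl (hdisj hχ h)))]
      exact hrest j (fun h => hj (Finset.mem_insert_of_mem h)) χ hχ
    · rw [Finset.sum_insert hks]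
      linarith

end Vale.Agent.P078.MKS.Op
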