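import Vale.Agent.P078.MKS.Potential

/-!
Statements of the greedy passes over a MASA for the two-sided potential.
-/

namespace Vale.Agent.P078.MKS.Op

open Singular
open scoped Classical

/-- The potential of a state is represented in the algebra. -/
def RepPotStatement : Prop :=
  ∀ (H : Type) [NormedAddCommGroup H] [InnerProductSpace ℂ H] [CompleteSpace H]
    (M A : VonNeumannAlgebra H) (e : H →L[ℂ] H), IsMASA M A → IsPr A e →
    ∀ (D : Gen M A e) (n : ℕ) (q : Polynomial ℝ), q.natDegree ≤ n →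
    ∀ (r : ℕ), 0 < r → ∀ S : St A r, IsState A e S →
      (fun χ => (pot D n q S χ : ℂ)) ∈ Rep A e

/-- One greedy pass: when at every point still in its initial state some option raises the sum
over the window by at most `κ`, all points can be given options, raising the integral of the
potential by at most `(κ + ε) τ(e)`. -/
def PassStatement : Prop :=
  ∀ (H : Type) [NormedAddCommGroup H] [InnerProductSpace ℂ H] [CompleteSpace H]
    (M A : VonNeumannAlgebra H) (e : H →L[ℂ] H) (τ : (H →L[ℂ] H) →ₗ[ℂ] ℂ),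
    IsMASA M A → IsPr A e → IsTrace M e τ →
    ∀ (D : Gen M A e) (n : ℕ) (q : Polynomial ℝ), q.natDegree ≤ n →
    ∀ (r : ℕ), 0 < r → ∀ S₀ : St A r, IsState A e S₀ →
    ∀ (ι : Type) (opt : ι → (Fin r → ℝ) × ℝ), (∀ i, Ok (opt i)) →
    ∀ (κ ε : ℝ), 0 < ε →
    (∀ S : St A r, IsState A e S → (∀ χ, S χ = S₀ χ ∨ ∃ i, S χ = opt i) →
      ∀ (χ : Pt A) (U : Finset (Pt A)) (R : Pt A → (H →L[ℂ] H)), IsFrame M e χ U R →
        ∀ k : U, S k = S₀ k → ∃ i,
          ∑ u, both q D.a D.g χ U R (Function.update S (k : Pt A) (opt i)) u ≤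
            ∑ u, both q D.a D.g χ U R S u + κ) →
    ∃ S : St A r, IsState A e S ∧ (∀ χ, S χ = S₀ χ ∨ ∃ i, S χ = opt i) ∧
      (∀ χ, ev χ e = 1 → ∃ i, S χ = opt i) ∧
      int τ e (fun χ => (pot D n q S χ : ℂ)) ≤
        int τ e (fun χ => (pot D n q S₀ χ : ℂ)) + (κ + ε) * (τ e).re

/-- For one colour at every point and a constant scale `d`, the potential integrates to the
traces of `q (± d² S_P(y))`. -/
def FinalStatement : Prop :=
  ∀ (H : Type) [NormedAddCommGroup H] [InnerProductSpace ℂ H] [CompleteSpace H]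
    (M A : VonNeumannAlgebra H) (e : H →L[ℂ] H) (τ : (H →L[ℂ] H) →ₗ[ℂ] ℂ),
    IsMASA M A → IsPr A e → IsTrace M e τ →
    ∀ (D : Gen M A e) (n : ℕ) (q : Polynomial ℝ), q.natDegree ≤ n →
    ∀ (r : ℕ), 0 < r → ∀ (S : St A r) (d : ℝ), IsState A e S →
    (∀ χ, ev χ e = 1 → ∃ s, S χ = (Pi.single s 1, d)) →
    ∃ P : Fin r → (H →L[ℂ] H), IsPartition A e P ∧
      (τ (e * Polynomial.aeval ((d ^ 2) • pinch P D.op) q * e)).re +
          (τ (e * Polynomial.aeval (-((d ^ 2) • pinch P D.op)) q * e)).re =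
        int τ e (fun χ => (pot D n q S χ : ℂ))

end Vale.Agent.P078.MKS.Op
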