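import Vale.Agent.P078.MKS.Gauge
import Vale.Agent.P078.MKS.Average

/-!
States of weights and scales on the points, and the two-sided potential of a state at a point,
which is the same in every window around the point.
-/

namespace Vale.Agent.P078.MKS.Op

open Singular
open scoped Classical

variable {H : Type} [NormedAddCommGroup H] [InnerProductSpace ℂ H] [CompleteSpace H]
  {M A : VonNeumannAlgebra H} {e : H →L[ℂ] H} {r : ℕ}

/-- Weights and a scale at every point. -/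
abbrev St (A : VonNeumannAlgebra H) (r : ℕ) : Type := Pt A → (Fin r → ℝ) × ℝ

/-- An admissible pair of weights and scale. -/
def Ok (v : (Fin r → ℝ) × ℝ) : Prop :=
  ((∀ s, 0 ≤ v.1 s) ∧ ∑ s, v.1 s = 1) ∧ 0 ≤ v.2 ∧ v.2 ≤ 1

/-- The state is admissible and represented in the algebra. -/
def IsState (A : VonNeumannAlgebra H) (e : H →L[ℂ] H) (S : St A r) : Prop :=
  (∀ χ, Ok (S χ)) ∧ (∀ s, (fun χ => ((S χ).1 s : ℂ)) ∈ Rep A e) ∧
    (fun χ => ((S χ).2 : ℂ)) ∈ Rep A e

/-- The weights on a window. -/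
def wt (S : St A r) (U : Finset (Pt A)) : U → Fin r → ℝ := fun u => (S u).1

/-- A window scaled by the state, with the sign `σ`. -/
noncomputable def wsc {K : Type} [Fintype K] (σ : ℂ) (a g : K → (H →L[ℂ] H)) (χ : Pt A)
    (U : Finset (Pt A)) (R : Pt A → (H →L[ℂ] H)) (S : St A r) : Matrix U U ℂ :=
  Matrix.of fun u v =>
    σ * (((S u).2 : ℂ) * coef a g χ R u v * ((S v).2 : ℂ))

/-- The two-sided average of `q` in a window. -/
noncomputable def both {K : Type} [Fintype K] (q : Polynomial ℝ) (a g : K → (H →L[ℂ] H))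
    (χ : Pt A) (U : Finset (Pt A)) (R : Pt A → (H →L[ℂ] H)) (S : St A r) (u : U) : ℝ :=
  qmom (wsc 1 a g χ U R S) (wt S U) u q + qmom (wsc (-1) a g χ U R S) (wt S U) u q

/-- The potential of a state at a point. -/
noncomputable def pot (D : Gen M A e) (n : ℕ) (q : Polynomial ℝ) (S : St A r) (χ : Pt A) : ℝ :=
  if h : χ ∈ D.ball χ n then both q D.a D.g χ (D.ball χ n) (rep M χ) S ⟨χ, h⟩ else 0

lemma isProb_wt {S : St A r} (hS : ∀ χ, Ok (S χ)) (U : Finset (Pt A)) : IsProb (wt S U) :=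
  fun u => (hS u).1

variable (hM : IsMASA M A) (he : IsPr A e) (D : Gen M A e) (S : St A r) {n : ℕ}
include hM he

lemma reach_wsc {χ : Pt A} {U : Finset (Pt A)} {R : Pt A → (H →L[ℂ] H)}
    (hR : IsFrame M e χ U R) (σ : ℂ) (c : U) (v : U)
    (h : v ∈ reach (wsc σ D.a D.g χ U R S) c n) : D.Reaches n c v :=
  reach_le_reaches hM he D hR c n v (Moments.reach_of_le _ _ c (fun a b hab h0 => hab (by
    show σ * (((S a).2 : ℂ) * coef D.a D.g χ R a b * ((S b).2 : ℂ)) = 0
    rw [show coef D.a D.g χ R a b = 0 from h0, mul_zero, zero_mul, mul_zero])) n h)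

variable {S}

/-- The average at a vertex depends on the state at the points reached from it only. -/
lemma qmom_congr {χ : Pt A} {U : Finset (Pt A)} {R : Pt A → (H →L[ℂ] H)}
    (hR : IsFrame M e χ U R) {S' : St A r} (hS : ∀ χ, Ok (S χ)) (hS' : ∀ χ, Ok (S' χ))
    {q : Polynomial ℝ} (hq : q.natDegree ≤ n) (σ : ℂ) (u : U)
    (h : ∀ v : U, D.Reaches n u v → S' v = S v) :
    qmom (wsc σ D.a D.g χ U R S') (wt S' U) u q = qmom (wsc σ D.a D.g χ U R S) (wt S U) u q := by
  let W : Type := {v : U // D.Reaches n (u : Pt A) (v : Pt A)}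
  let u₀ : W := ⟨u, reaches_self hM he D (hR u u.2).2.2 n⟩
  have key : ∀ T : St A r, (∀ χ, Ok (T χ)) →
      qmom (wsc σ D.a D.g χ U R T) (wt T U) u q =
        qmom ((wsc σ D.a D.g χ U R T).submatrix (Subtype.val : W → U) Subtype.val)
          (wt T U ∘ (Subtype.val : W → U)) u₀ q := fun T hT =>
    qmom_local (isProb_wt hT U) (Subtype.val : W → U) Subtype.val_injective u₀ q hq
      fun v hv => ⟨⟨v, reach_wsc hM he D T hR σ u v hv⟩, rfl⟩
  rw [key S' hS', key S hS]
  congr 1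
  · ext a b
    simp only [Matrix.submatrix_apply, wsc, Matrix.of_apply, h a.1 a.2, h b.1 b.2]
  · funext a
    simp only [Function.comp_apply, wt, h a.1 a.2]

/-- The average at a vertex is the same in all windows around it. -/
lemma qmom_window {χ χ' : Pt A} {U U' : Finset (Pt A)} {R R' : Pt A → (H →L[ℂ] H)}
    (hR : IsFrame M e χ U R) (hR' : IsFrame M e χ' U' R') (hsub : U' ⊆ U) {h : H →L[ℂ] H}
    (hh : h ∈ normaliser M A) (hm : Moves h χ χ') (hS : ∀ χ, Ok (S χ)) {q : Polynomial ℝ}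
    (hq : q.natDegree ≤ n) (σ : ℂ) (u : U') (hball : ∀ ζ, D.Reaches n u ζ → ζ ∈ U') :
    qmom (wsc σ D.a D.g χ U R S) (wt S U) ⟨u, hsub u.2⟩ q =
      qmom (wsc σ D.a D.g χ' U' R' S) (wt S U') u q := by
  let ι : U' → U := fun v => ⟨v, hsub v.2⟩
  have hι : Function.Injective ι := fun a b hab => Subtype.ext (Subtype.ext_iff.1 hab : _)
  rw [show (⟨u, hsub u.2⟩ : U) = ι u from rfl,
    qmom_local (isProb_wt hS U) ι hι u q hq fun v hv =>
      ⟨⟨v, hball v (reach_wsc hM he D S hR σ (ι u) v hv)⟩, rfl⟩]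
  obtain ⟨lam, hlam, hcoef⟩ := coef_gauge hM (a := D.a) D.g_mem hR hR' hsub hh hm
  have e : (wsc σ D.a D.g χ' U' R' S) = Matrix.of fun a b : U' =>
      star (lam a) * (wsc σ D.a D.g χ U R S).submatrix ι ι a b * lam b := by
    ext a b
    show σ * (((S a).2 : ℂ) * coef D.a D.g χ' R' a b * ((S b).2 : ℂ)) =
      star (lam a) * (σ * (((S a).2 : ℂ) * coef D.a D.g χ R a b * ((S b).2 : ℂ))) * lam b
    rw [hcoef a a.2 b b.2]
    ring
  rw [e]
  unfold qmom
  refine Finset.sum_congr rfl fun j _ => ?_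
  rw [mom_gauge _ _ (fun a : U' => lam a) (fun a => hlam a a.2) u j,
    show wt S U ∘ ι = wt S U' from rfl]

/-- The potential in any window containing the ball of the point. -/
lemma both_eq_pot {χ : Pt A} {U : Finset (Pt A)} {R : Pt A → (H →L[ℂ] H)}
    (hR : IsFrame M e χ U R) (hS : ∀ χ, Ok (S χ)) {q : Polynomial ℝ} (hq : q.natDegree ≤ n)
    (u : U) (hball : ∀ ζ, D.Reaches n (u : Pt A) ζ → ζ ∈ U) :
    both q D.a D.g χ U R S u = pot D n q S u := by
  obtain ⟨hRu, hum, hue⟩ := hR u u.2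
  have hmem : (u : Pt A) ∈ D.ball u n := (mem_ball D).2 (reaches_self hM he D hue n)
  rw [pot, dif_pos hmem, both, both]
  have hsub : D.ball (u : Pt A) n ⊆ U := fun ζ hζ => hball ζ ((mem_ball D).1 hζ)
  have hw := fun σ => qmom_window hM he D hR (frame_ball hM he D (u : Pt A) n) hsub hRu hum hS hq σ
    ⟨u, hmem⟩ fun ζ hζ => (mem_ball D).2 hζ
  rw [← hw 1, ← hw (-1)]

/-- The potential at a point depends on the state in its ball only. -/
lemma pot_congr {S' : St A r} (hS : ∀ χ, Ok (S χ)) (hS' : ∀ χ, Ok (S' χ)) {q : Polynomial ℝ}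
    (hq : q.natDegree ≤ n) {χ : Pt A} (h : ∀ η, D.Reaches n χ η → S' η = S η) :
    pot D n q S' χ = pot D n q S χ := by
  rw [pot, pot]
  split_ifs with hmem
  · rw [both, both]
    rw [qmom_congr hM he D (frame_ball hM he D χ n) hS hS' hq 1 ⟨χ, hmem⟩ fun v hv => h v hv,
      qmom_congr hM he D (frame_ball hM he D χ n) hS hS' hq (-1) ⟨χ, hmem⟩ fun v hv => h v hv]
  · rfl

omit hM he in
lemma both_congr_fun {K : Type} [Fintype K] (q : Polynomial ℝ) (a g : K → (H →L[ℂ] H))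
    (χ : Pt A) {U : Finset (Pt A)} (R : Pt A → (H →L[ℂ] H)) {S' : St A r}
    (h : ∀ v : U, S' v = S v) (u : U) : both q a g χ U R S' u = both q a g χ U R S u := by
  have h1 : wt S' U = wt S U := funext fun v => by simp only [wt, h v]
  have h2 : ∀ σ : ℂ, wsc σ a g χ U R S' = wsc σ a g χ U R S := fun σ => by
    ext v w
    simp only [wsc, Matrix.of_apply, h v, h w]
  rw [both, both, h1, h2, h2]

section Bounds

variable {χ : Pt A} {U : Finset (Pt A)} {R : Pt A → (H →L[ℂ] H)} (hR : IsFrame M e χ U R)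
  (hsa : IsSelfAdjoint D.op)
include hR hsa

lemma wsc_hermitian {σ : ℂ} (hσ : σ = 1 ∨ σ = -1) :
    (wsc σ D.a D.g χ U R S).IsHermitian := by
  refine Matrix.IsHermitian.ext fun u v => ?_
  have h := (wmat_hermitian hM he D hR hsa).apply u v
  simp only [wmat, Matrix.of_apply] at h
  simp only [wsc, Matrix.of_apply, star_mul', Complex.star_def, Complex.conj_ofReal]
  rw [← h]
  rcases hσ with rfl | rfl <;> simp <;> ring

lemma wsc_opBound (hl : (-1 : ℝ) • e ≤ D.op) (hu : D.op ≤ e) (hS : ∀ χ, Ok (S χ)) {σ : ℂ}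
    (hσ : σ = 1 ∨ σ = -1) : OpBound (wsc σ D.a D.g χ U R S) 1 := by
  have hb := opBound_of_form (wmat_hermitian hM he D hR hsa) one_pos fun w => by
    obtain ⟨h1, h2⟩ := form_bounds hM he D hR hl hu w
    rw [abs_le, one_mul]
    constructor <;> linarith
  intro v
  have hd : ∀ (a : U) (z : ℂ), ‖((S a).2 : ℂ) * z‖ ^ 2 ≤ ‖z‖ ^ 2 := fun a z => by
    obtain ⟨-, h0, h1⟩ := hS a
    rw [norm_mul, Complex.norm_real, Real.norm_eq_abs, abs_of_nonneg h0]
    exact pow_le_pow_left₀ (by positivity) (mul_le_of_le_one_left (norm_nonneg _) h1) 2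
  have e1 : ∀ a, ‖(wsc σ D.a D.g χ U R S).mulVec v a‖ =
      ‖((S a).2 : ℂ) * (wmat D.a D.g χ R U).mulVec (fun b => ((S b).2 : ℂ) * v b) a‖ := by
    intro a
    have hs : (wsc σ D.a D.g χ U R S).mulVec v a =
        σ * (((S a).2 : ℂ) * (wmat D.a D.g χ R U).mulVec (fun b => ((S b).2 : ℂ) * v b) a) := by
      simp only [Matrix.mulVec, dotProduct, wsc, wmat, Matrix.of_apply, Finset.mul_sum]
      exact Finset.sum_congr rfl fun b _ => by ring
    rw [hs, norm_mul σ]
    rcases hσ with rfl | rfl <;> simp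
  simp only [e1]
  calc ∑ a : U, ‖((S a).2 : ℂ) * (wmat D.a D.g χ R U).mulVec (fun b => ((S b).2 : ℂ) * v b) a‖ ^ 2
      ≤ ∑ a : U, ‖(wmat D.a D.g χ R U).mulVec (fun b => ((S b).2 : ℂ) * v b) a‖ ^ 2 :=
        Finset.sum_le_sum fun a _ => hd a _
    _ ≤ 1 ^ 2 * ∑ a : U, ‖((S a).2 : ℂ) * v a‖ ^ 2 := hb _
    _ ≤ 1 ^ 2 * ∑ a, ‖v a‖ ^ 2 := by
        gcongr with a
        obtain ⟨-, h0, h1⟩ := hS (a : Pt A)
        rw [norm_mul, Complex.norm_real, Real.norm_eq_abs, abs_of_nonneg h0]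
        exact mul_le_of_le_one_left (norm_nonneg _) h1

lemma wsc_diag {m : ℕ} {E : Fin m → (H →L[ℂ] H)} (hE : IsPartition A e E)
    (h0 : ∀ i, E i * D.op * E i = 0) (σ : ℂ) (u : U) : wsc σ D.a D.g χ U R S u u = 0 := by
  have h := diag_bounds hM he D hR hE (α := 0) (fun i => by
    rw [h0]; exact ⟨zero_mem A, le_rfl, by rw [zero_smul]⟩) u
  have him : (wmat D.a D.g χ R U u u).im = 0 :=
    Complex.conj_eq_iff_im.1 ((wmat_hermitian hM he D hR hsa).apply u u)
  have hz : coef D.a D.g χ R u u = 0 := Complex.ext (le_antisymm h.2 h.1) him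
  simp [wsc, hz]

end Bounds

end Vale.Agent.P078.MKS.Op
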