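import Vale.Agent.P078.MKS.PassStatements

/-!
The potential of a state is represented in the algebra: the window of every point is cut out of
one matrix of functions indexed by the words.
-/

namespace Vale.Agent.P078.MKS.Op

open Singular
open scoped Classical

variable {H : Type} [NormedAddCommGroup H] [InnerProductSpace ℂ H] [CompleteSpace H]
  {M A : VonNeumannAlgebra H} {e : H →L[ℂ] H}

section Ring

variable {R : Type} [CommRing R] {m : ℕ}

/-- The indicator of `b j` and no earlier one. -/
def first (b : Fin m → R) (j : Fin m) : R :=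
  b j * ∏ i ∈ Finset.univ.filter (· < j), (1 - b i)

lemma first_mem {S : Subring R} {b : Fin m → R} (hb : ∀ i, b i ∈ S) (j : Fin m) : first b j ∈ S :=
  mul_mem (hb j) (prod_mem fun i _ => sub_mem (one_mem S) (hb i))

lemma first_cases {b : Fin m → R} (hb : ∀ i, b i = 0 ∨ b i = 1) (j : Fin m) :
    (first b j = 1 ∧ b j = 1 ∧ ∀ i < j, b i = 0) ∨
      (first b j = 0 ∧ (b j = 0 ∨ ∃ i < j, b i = 1)) := by
  rcases hb j with h | h
  · exact Or.inr ⟨by rw [first, h, zero_mul], Or.inl h⟩
  by_cases hex : ∃ i < j, b i = 1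
  · obtain ⟨i, hi, hi'⟩ := hex
    refine Or.inr ⟨?_, Or.inr ⟨i, hi, hi'⟩⟩
    rw [first, Finset.prod_eq_zero (Finset.mem_filter.2 ⟨Finset.mem_univ i, hi⟩)
      (by rw [hi', sub_self]), mul_zero]
  · push Not at hex
    have h0 : ∀ i < j, b i = 0 := fun i hi => (hb i).resolve_right (hex i hi)
    refine Or.inl ⟨?_, h, h0⟩
    rw [first, h, one_mul]
    exact Finset.prod_eq_one fun i hi => by rw [h0 i (Finset.mem_filter.1 hi).2, sub_zero]

lemma first_eq_one {b : Fin m → R} {j : Fin m} (hj : b j = 1) (h : ∀ i < j, b i = 0) :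
    first b j = 1 := by
  rw [first, hj, one_mul]
  exact Finset.prod_eq_one fun i hi => by rw [h i (Finset.mem_filter.1 hi).2, sub_zero]

/-- Exactly one first index as soon as there is one. -/
lemma sum_first {b : Fin m → R} (hb : ∀ i, b i = 0 ∨ b i = 1) (h : ∃ i, b i = 1) :
    ∃ j, b j = 1 ∧ first b j = 1 ∧ ∀ i, i ≠ j → first b i = 0 := by
  set s := Finset.univ.filter fun i => b i = 1 with hs
  have hne : s.Nonempty := by
    obtain ⟨i, hi⟩ := h
    exact ⟨i, Finset.mem_filter.2 ⟨Finset.mem_univ i, hi⟩⟩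
  set j := s.min' hne with hj
  have hj1 : b j = 1 := (Finset.mem_filter.1 (s.min'_mem hne)).2
  have hlt : ∀ i < j, b i = 0 := fun i hi => (hb i).resolve_right fun h1 =>
    not_le.2 hi (Finset.min'_le _ i (Finset.mem_filter.2 ⟨Finset.mem_univ i, h1⟩))
  refine ⟨j, hj1, first_eq_one hj1 hlt, fun i hij => ?_⟩
  rcases lt_or_gt_of_ne hij with hlt' | hgt
  · rw [first, hlt i hlt', zero_mul]
  · rw [first, Finset.prod_eq_zero (Finset.mem_filter.2 ⟨Finset.mem_univ j, hgt⟩)
      (by rw [hj1, sub_self]), mul_zero]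

end Ring

variable (hM : IsMASA M A) (he : IsPr A e)
include hM

/-- The value of a normalising element is represented. -/
lemma exists_val_elt {w : H →L[ℂ] H} (hw : w ∈ normaliser M A) :
    ∃ a ∈ A, ∀ χ : Pt A, ev χ a = val χ w := by
  obtain ⟨P, hP, hPw⟩ := exists_split hM hw
  refine ⟨∑ i, P i * w * P i, sum_mem fun i _ => hPw i, fun χ => ?_⟩
  obtain ⟨j, hj⟩ := ev_partition χ hP (ev_one χ)
  rw [ev_sum χ _ _ fun i _ => hPw i, Finset.sum_eq_single j]
  · exact ev_cell_val hM hw (hP.1 j) (hPw j) hj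
  · intro i _ hij
    have h0 : ev χ (P i) = 0 := by
      have := congrArg (ev χ) (hP.2.1 i j hij)
      rwa [ev_mul χ (hP.1 i).1 (hP.1 j).1, hj, mul_one, ev_zero] at this
    rw [show P i * w * P i = P i * (P i * w * P i) by
      simp only [← mul_assoc, (hP.1 i).2.isIdempotentElem.eq], ev_mul χ (hP.1 i).1 (hPw i), h0,
      zero_mul]
  · exact fun h => absurd (Finset.mem_univ j) h

lemma rep_val {w : H →L[ℂ] H} (hw : w ∈ normaliser M A) :
    (fun χ : Pt A => val χ w) ∈ Rep A e := by
  obtain ⟨a, ha, h⟩ := exists_val_elt hM hw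
  exact ⟨a, ha, fun χ _ => (h χ).symm⟩

omit hM in
lemma rep_conj_ev {w a : H →L[ℂ] H} (hw : w ∈ normaliser M A) (ha : a ∈ A) :
    (fun χ : Pt A => ev χ (star w * a * w)) ∈ Rep A e :=
  rep_ev (hw.2.2 a ha).2

omit hM in
lemma conj_of_not_dom {w a : H →L[ℂ] H} (hw : w ∈ normaliser M A) (ha : a ∈ A) {χ : Pt A}
    (h : ev χ (star w * w) = 0) : ev χ (star w * a * w) = 0 := by
  have e1 : star w * w * (star w * a * w) = star w * a * w := by
    calc star w * w * (star w * a * w) = star w * w * star w * a * w := by simp only [mul_assoc]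
      _ = star w * a * w := by
          rw [show star w * w * star w = star w by simpa using (nor_star hw).2.1]
  rw [← e1, ev_mul χ (nor_dom hw).1 (hw.2.2 a ha).2, h, zero_mul]

section Words

/-- The unit word, then all words of length `n`. -/
noncomputable def words (D : Gen M A e) (n : ℕ) :
    Fin (Fintype.card (Fin n → Fin D.N) + 1) → (H →L[ℂ] H) :=
  Fin.cons e fun k => D.word n ((Fintype.equivFin (Fin n → Fin D.N)).symm k)

include he

variable (D : Gen M A e) (n : ℕ)

lemma words_nor (a) : words D n a ∈ normaliser M A := by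
  refine Fin.cases ?_ (fun k => ?_) a
  · exact proj_mem_nor hM he
  · simpa [words] using word_mem hM he D n _

lemma words_reach (a) {χ η : Pt A} (h : Moves (words D n a) χ η) : D.Reaches n χ η := by
  refine Fin.cases (motive := fun a => Moves (words D n a) χ η → D.Reaches n χ η) ?_
    (fun k h => ?_) a h
  · intro h
    have h' : Moves e χ η := by simpa [words] using h
    rw [moves_fix hM he h']
    exact reaches_self hM he D (moves_corner hM he (proj_mem_nor hM he)
      (by rw [he.2.isIdempotentElem.eq, he.2.isIdempotentElem.eq]) h').1 n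
  · exact ⟨_, by simpa [words] using h⟩

lemma words_zero {χ : Pt A} (h : ev χ e = 1) : Moves (words D n 0) χ χ := by
  simpa [words] using moves_proj hM he h

omit hM he in
lemma words_surj {χ η : Pt A} (h : D.Reaches n χ η) : ∃ a, Moves (words D n a) χ η := by
  obtain ⟨f, hf⟩ := h
  exact ⟨(Fintype.equivFin (Fin n → Fin D.N) f).succ, by simpa [words] using hf⟩

/-- Indicator that two words have the same end, in a form represented in the algebra. -/
noncomputable def same (a b : Fin (Fintype.card (Fin n → Fin D.N) + 1)) : Pt A → ℂ := fun χ =>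
  ev χ (star (words D n a) * words D n a) * ev χ (star (words D n b) * words D n b) *
    (star (val χ (star (words D n a) * e * words D n b)) *
      val χ (star (words D n a) * e * words D n b))

/-- Indicator that a word is defined and the first with its end. -/
noncomputable def sel (b : Fin (Fintype.card (Fin n → Fin D.N) + 1)) : Pt A → ℂ :=
  (fun χ => ev χ (star (words D n b) * words D n b)) *
    ∏ a ∈ Finset.univ.filter (· < b), (1 - same D n a b)

lemma same_eq {a b} {χ η ζ : Pt A} (ha : Moves (words D n a) χ η)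
    (hb : Moves (words D n b) χ ζ) : same D n a b χ = if η = ζ then 1 else 0 := by
  have hna := words_nor hM he D n a
  have hnb := words_nor hM he D n b
  rw [same, ha.1, hb.1, one_mul, one_mul]
  split_ifs with h
  · subst h
    exact val_norm hM (nor_mul_mem hM (nor_mul_mem hM (nor_star hna) (proj_mem_nor hM he)) hnb)
      (moves_between hM hna (proj_mem_nor hM he) ha hb (moves_proj hM he
        (reaches_ev hM he D (words_reach hM he D n a ha)).2))
  · have : val χ (star (words D n a) * e * words D n b) = 0 := by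
      by_contra hne
      exact h (moves_fix hM he (moves_of_val hM hna hnb (proj_mem_nor hM he) ha hb hne))
    rw [this, mul_zero]

lemma sel_mem (b) : sel D n b ∈ Rep A e := by
  have hn := words_nor hM he D n
  refine mul_mem (rep_ev (nor_dom (hn b)).1) (prod_mem fun a _ => sub_mem (one_mem _) ?_)
  have hw := nor_mul_mem hM (nor_mul_mem hM (nor_star (hn a)) (proj_mem_nor hM he)) (hn b)
  exact mul_mem (mul_mem (rep_ev (nor_dom (hn a)).1) (rep_ev (nor_dom (hn b)).1))
    (mul_mem (rep_conj (rep_val hM hw)) (rep_val hM hw))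

/-- A word is selected exactly when it is the first one to its end. -/
lemma sel_eq (b) (χ : Pt A) :
    sel D n b χ = if ∃ η, Moves (words D n b) χ η ∧ ∀ a < b, ¬ Moves (words D n a) χ η
      then 1 else 0 := by
  have hn := words_nor hM he D n
  have hdef : sel D n b χ = ev χ (star (words D n b) * words D n b) *
      ∏ a ∈ Finset.univ.filter (· < b), (1 - same D n a b χ) := by
    simp [sel, Finset.prod_apply]
  rw [hdef]
  split_ifs with h
  · obtain ⟨η, hη, hmin⟩ := h
    rw [hη.1, one_mul]
    refine Finset.prod_eq_one fun a ha => ?_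
    rcases ev_proj χ (nor_dom (hn a)) with h0 | h1
    · simp [same, h0]
    · obtain ⟨ζ, hζ⟩ := exists_moves hM (hn a) h1
      rw [same_eq hM he D n hζ hη, if_neg fun hh : ζ = η => hmin a (Finset.mem_filter.1 ha).2 (hh ▸ hζ),
        sub_zero]
  · rcases ev_proj χ (nor_dom (hn b)) with h0 | h1
    · rw [h0, zero_mul]
    · obtain ⟨η, hη⟩ := exists_moves hM (hn b) h1
      push Not at h
      obtain ⟨a, ha, haη⟩ := h η hη
      rw [Finset.prod_eq_zero (Finset.mem_filter.2 ⟨Finset.mem_univ a, ha⟩)
        (by rw [same_eq hM he D n haη hη, if_pos rfl, sub_self]), mul_zero]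

omit hM he in
lemma exists_pick {χ η : Pt A} (h : D.Reaches n χ η) :
    ∃ b : Fin (Fintype.card (Fin n → Fin D.N) + 1),
      Moves (words D n b) χ η ∧ ∀ a < b, ¬ Moves (words D n a) χ η := by
  obtain ⟨a, ha⟩ := words_surj D n h
  set t := Finset.univ.filter fun a : Fin (Fintype.card (Fin n → Fin D.N) + 1) =>
    Moves (words D n a) χ η with ht
  have hne : t.Nonempty := ⟨a, Finset.mem_filter.2 ⟨Finset.mem_univ a, ha⟩⟩
  exact ⟨t.min' hne, (Finset.mem_filter.1 (t.min'_mem hne)).2, fun c hc hc' =>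
    not_le.2 hc (t.min'_le c (Finset.mem_filter.2 ⟨Finset.mem_univ c, hc'⟩))⟩

end Words

omit hM in
/-- The module RepPot. -/
theorem rep_pot_ok : RepPotStatement := by
  intro H _ _ _ M A e hM he D n q hq r hr S hS
  let T := Fin (Fintype.card (Fin n → Fin D.N) + 1)
  let W : T → (H →L[ℂ] H) := words D n
  have hn : ∀ a, W a ∈ normaliser M A := words_nor hM he D n
  choose π hπ hπ' using hS.2.1
  obtain ⟨δ, hδ, hδ'⟩ := hS.2.2
  let x : T → Fin r → (Pt A → ℂ) := fun a s χ => ev χ (star (W a) * π s * W a)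
  let pw : T → Fin r → (Pt A → ℂ) := fun a s => x a s + (fun _ => (r : ℂ)⁻¹) * (1 - ∑ t, x a t)
  let sc : T → (Pt A → ℂ) := fun a χ => ev χ (star (W a) * δ * W a)
  let cf : T → T → (Pt A → ℂ) := fun a b =>
    ∑ i, (fun χ : Pt A => ev χ (star (W a) * D.a i * W a)) *
      fun χ : Pt A => val χ (star (W a) * D.g i * W b)
  let X : ℂ → Matrix T T (Pt A → ℂ) := fun σ => Matrix.of fun a b =>
    (fun _ => σ) * (sel D n a * sel D n b * (sc a * cf a b * sc b))
  have hx : ∀ a s, x a s ∈ Rep A e := fun a s => rep_conj_ev (hn a) (hπ s)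
  have hpw : ∀ a s, pw a s ∈ Rep A e := fun a s =>
    add_mem (hx a s) (mul_mem (rep_const _) (sub_mem (one_mem _) (sum_mem fun t _ => hx a t)))
  have hX : ∀ σ a b, X σ a b ∈ Rep A e := fun σ a b =>
    mul_mem (rep_const σ) (mul_mem (mul_mem (sel_mem hM he D n a) (sel_mem hM he D n b))
      (mul_mem (mul_mem (rep_conj_ev (hn a) hδ) (sum_mem fun i _ =>
        mul_mem (rep_conj_ev (hn a) (D.a_mem i))
          (rep_val hM (nor_mul_mem hM (nor_mul_mem hM (nor_star (hn a)) (D.g_mem i)) (hn b)))))
        (rep_conj_ev (hn b) hδ)))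
  have hsum : ∀ a, ∑ s, pw a s = 1 := fun a => by
    funext χ
    have hrne : (r : ℂ) ≠ 0 := Nat.cast_ne_zero.2 hr.ne'
    simp only [pw, Finset.sum_apply, Pi.add_apply, Pi.mul_apply, Pi.sub_apply, Pi.one_apply,
      Finset.sum_add_distrib, Finset.sum_const, Finset.card_univ, Fintype.card_fin, nsmul_eq_mul]
    field_simp
    ring
  have hmom : ∀ σ j, mom (X σ) pw 0 j ∈ Rep A e := fun σ j => by
    let X' : Matrix T T (Rep A e) := Matrix.of fun a b => ⟨X σ a b, hX σ a b⟩
    let pw' : T → Fin r → Rep A e := fun a s => ⟨pw a s, hpw a s⟩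
    have hsum' : ∀ a, ∑ s, pw' a s = 1 := fun a => Subtype.ext (by
      rw [AddSubmonoidClass.coe_finsetSum]
      exact hsum a)
    have h : X'.map (Rep A e).subtype = X σ := rfl
    have h2 : (fun a s => (Rep A e).subtype (pw' a s)) = pw := rfl
    rw [← h, ← h2, ← Moments.map_mom (Rep A e).subtype X' pw' hsum' 0 j]
    exact (mom X' pw' 0 j).2
  let tot : ℂ → (Pt A → ℂ) := fun σ => ∑ j ∈ Finset.range (q.natDegree + 1),
    (fun _ => (q.coeff j : ℂ)) * fun χ => (((mom (X σ) pw 0 j) χ).re : ℂ)
  obtain ⟨c, hc, hc'⟩ := add_mem (sum_mem fun j _ => mul_mem (rep_const _) (rep_re (hmom 1 j)) :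
    tot 1 ∈ Rep A e) (sum_mem fun j _ => mul_mem (rep_const _) (rep_re (hmom (-1) j)) :
    tot (-1) ∈ Rep A e)
  refine ⟨c, hc, fun χ hχ => ?_⟩
  rw [← hc' χ hχ]
  -- the weights and the frame at `χ`
  let pR : T → Fin r → ℝ := fun a s =>
    if h : ∃ η, Moves (W a) χ η then (S h.choose).1 s else (r : ℝ)⁻¹
  have hpR : IsProb pR := fun a => by
    by_cases h : ∃ η, Moves (W a) χ η
    · simp only [pR, dif_pos h]
      exact (hS.1 h.choose).1
    · simp only [pR, dif_neg h]
      exact ⟨fun _ => by positivity, by simp [hr.ne']⟩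
  have hend : ∀ a η, Moves (W a) χ η → ev η e = 1 := fun a η h =>
    (reaches_ev hM he D (words_reach hM he D n a h)).2
  have hpval : ∀ a s, pw a s χ = (pR a s : ℂ) := fun a s => by
    simp only [pw, x, pR, Pi.add_apply, Pi.mul_apply, Pi.sub_apply, Pi.one_apply,
      Finset.sum_apply]
    by_cases h : ∃ η, Moves (W a) χ η
    · have hη := h.choose_spec
      rw [dif_pos h]
      have e1 : ∀ t, ev χ (star (W a) * π t * W a) = ((S h.choose).1 t : ℂ) := fun t => by
        rw [← hη.2 _ (hπ t), ← hπ' t h.choose (hend a _ hη)]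
      simp only [e1, ← Complex.ofReal_sum, (hS.1 h.choose).1.2, Complex.ofReal_one, sub_self,
        mul_zero, add_zero]
    · rw [dif_neg h]
      have h0 : ev χ (star (W a) * W a) = 0 :=
        (ev_proj χ (nor_dom (hn a))).resolve_right fun h1 => h (exists_moves hM (hn a) h1)
      simp [conj_of_not_dom (hn a) (hπ _) h0]
  let U := D.ball χ n
  choose pick hpick hmin using fun η : U => exists_pick D n ((mem_ball D).1 η.2)
  let R : Pt A → (H →L[ℂ] H) := fun η => if h : η ∈ U then W (pick ⟨η, h⟩) else 0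
  have hRu : ∀ u : U, R u = W (pick u) := fun u => dif_pos u.2
  have hR : IsFrame M e χ U R := fun η hη => by
    rw [hRu ⟨η, hη⟩]
    exact ⟨hn _, hpick ⟨η, hη⟩, (reaches_ev hM he D ((mem_ball D).1 hη)).2⟩
  have hmem : χ ∈ U := (mem_ball D).2 (reaches_self hM he D hχ n)
  show ((pot D n q S χ : ℝ) : ℂ) = _
  rw [← both_eq_pot hM he D hR hS.1 hq ⟨χ, hmem⟩ fun ζ hζ => (mem_ball D).2 hζ]
  have hinj : Function.Injective pick := fun u v huv =>
    Subtype.ext (moves_unique (hpick u) (huv ▸ hpick v))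
  have hpick0 : pick ⟨χ, hmem⟩ = 0 := by
    refine le_antisymm (not_lt.1 fun hlt => ?_) (Fin.zero_le _)
    exact hmin ⟨χ, hmem⟩ 0 hlt (words_zero hM he D n hχ)
  have hsel : ∀ u : U, sel D n (pick u) χ = 1 := fun u => by
    rw [sel_eq hM he D n (pick u) χ, if_pos ⟨u, hpick u, hmin u⟩]
  have hrange : ∀ a : T, sel D n a χ ≠ 0 → a ∈ Set.range pick := fun a ha => by
    rw [sel_eq hM he D n a χ] at ha
    split_ifs at ha with h
    · obtain ⟨η, hη, hη'⟩ := h
      refine ⟨⟨η, (mem_ball D).2 (words_reach hM he D n a hη)⟩, ?_⟩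
      rcases lt_trichotomy (pick ⟨η, (mem_ball D).2 (words_reach hM he D n a hη)⟩) a with
        hlt | heq | hgt
      · exact absurd (hpick _) (hη' _ hlt)
      · exact heq
      · exact absurd hη (hmin _ a hgt)
    · exact absurd rfl ha
  have key : ∀ σ, qmom (wsc σ D.a D.g χ U R S) (wt S U) ⟨χ, hmem⟩ q =
      ∑ j ∈ Finset.range (q.natDegree + 1), q.coeff j * ((mom (X σ) pw 0 j) χ).re := by
    intro σ
    set Xv : Matrix T T ℂ := (X σ).map (Pi.evalRingHom (fun _ => ℂ) χ) with hXv
    have hreach : ∀ i, reach Xv 0 i ⊆ Set.range pick := by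
      intro i
      induction i with
      | zero => rintro v rfl; exact ⟨_, hpick0⟩
      | succ i ih =>
        rintro v (hv | ⟨a, -, hav⟩)
        · exact ih hv
        have hentry : ∀ a b, Xv a b ≠ 0 → sel D n a χ ≠ 0 ∧ sel D n b χ ≠ 0 := fun a b h => by
          constructor <;> intro h0 <;> exact h (by simp [hXv, X, h0])
        rcases hav with h | h
        exacts [hrange v (hentry _ _ h).2, hrange v (hentry _ _ h).1]
    have hsub : Xv.submatrix pick pick = wsc σ D.a D.g χ U R S := by
      ext u v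
      have hd : ∀ w : U, ev χ (star (W (pick w)) * δ * W (pick w)) = ((S w).2 : ℂ) := fun w => by
        rw [← (hpick w).2 δ hδ, ← hδ' w (hend _ _ (hpick w))]
      have ha : ∀ i, ev χ (star (W (pick u)) * D.a i * W (pick u)) = ev (u : Pt A) (D.a i) :=
        fun i => ((hpick u).2 _ (D.a_mem i)).symm
      simp [hXv, X, sc, cf, wsc, coef, hsel, hd, ha, hRu, Finset.sum_apply]
    have hwt : pR ∘ pick = wt S U := by
      funext u s
      have h : ∃ η, Moves (W (pick u)) χ η := ⟨u, hpick u⟩
      simp only [Function.comp_apply, pR, dif_pos h, wt,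
        moves_unique h.choose_spec (hpick u)]
    have hloc := qmom_local (X := Xv) hpR pick hinj ⟨χ, hmem⟩ q hq (by
      rw [hpick0]; exact hreach n)
    rw [hsub, hwt, hpick0] at hloc
    rw [← hloc, qmom]
    refine Finset.sum_congr rfl fun j _ => ?_
    have hev := Moments.map_mom (Pi.evalRingHom (fun _ => ℂ) χ) (X σ) pw hsum 0 j
    rw [show cw pR = fun v i => (Pi.evalRingHom (fun _ => ℂ) χ) (pw v i) from
      funext fun v => funext fun i => (hpval v i).symm]
    rw [← hev]
    rfl
  show ((both q D.a D.g χ U R S ⟨χ, hmem⟩ : ℝ) : ℂ) = (tot 1 + tot (-1)) χ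
  simp only [both, key, tot, Pi.add_apply, Finset.sum_apply, Pi.mul_apply, Complex.ofReal_add,
    Complex.ofReal_sum, Complex.ofReal_mul]

end Vale.Agent.P078.MKS.Op
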