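import Vale.Agent.P078.MKS.Statements

/-!
Expected characteristic polynomials do not vanish on the upper half-plane.
-/

noncomputable section

namespace Vale.Agent.P078.MKS

open Finset
open scoped ComplexConjugate

variable {V : Type} [Fintype V] [DecidableEq V] {r : ℕ}

section Ring

variable {R : Type} [CommRing R]

/-- Two matrices with the same unit row at `k` and equal outside column `k` have the same
determinant. -/
lemma det_congr_unit_row {M N : Matrix V V R} {k : V} (hM : ∀ b, b ≠ k → M k b = 0)
    (hN : ∀ b, b ≠ k → N k b = 0) (hkk : M k k = N k k)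
    (h : ∀ a b, a ≠ k → b ≠ k → M a b = N a b) : M.det = N.det := by
  rw [Matrix.det_apply, Matrix.det_apply]
  refine Finset.sum_congr rfl fun σ _ => ?_
  by_cases hσ : σ k = k
  · congr 1
    refine Finset.prod_congr rfl fun i _ => ?_
    by_cases hi : i = k
    · subst hi; rw [hσ, hkk]
    · exact h _ _ (fun he => hi (σ.injective (he.trans hσ.symm))) hi
  · have hz : ∀ A : Matrix V V R, (∀ b, b ≠ k → A k b = 0) → ∏ i, A (σ i) i = 0 := fun A hA => by
      refine Finset.prod_eq_zero (Finset.mem_univ (σ.symm k)) ?_
      rw [σ.apply_symm_apply]
      exact hA _ fun he => hσ (by rw [← he, σ.apply_symm_apply, he])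
    rw [hz M hM, hz N hN]

lemma block_apply (X : Matrix V V R) (f : V → Fin r) (S : Finset V) (y : V → R) (a b : V) :
    block X f S y a b = if a ∈ S ∧ b ∈ S then
      (if a = b then y a else 0) - (if f a = f b then X a b else 0)
    else if a = b then 1 else 0 := rfl

/-- The determinant is affine in each variable. -/
lemma det_block_affine (X : Matrix V V R) (f : V → Fin r) {S : Finset V} {k : V} (hk : k ∈ S)
    (y : V → R) :
    (block X f S y).det = y k * (block X f (S.erase k) y).det +
      (block X f S (Function.update y k 0)).det := by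
  set M := block X f S (Function.update y k 0) with hM
  have e : block X f S y = M.updateRow k (y k • Pi.single k 1 + M k) := by
    ext a b
    rw [Matrix.updateRow_apply, hM]
    by_cases ha : a = k
    · subst ha
      by_cases hb : b ∈ S
      · by_cases hab : b = a
        · subst hab; simp [block_apply, hk, sub_eq_add_neg]
        · simp [block_apply, hk, hb, hab, Ne.symm hab, sub_eq_add_neg]
      · have hab : b ≠ a := fun h => hb (h ▸ hk)
        simp [block_apply, hb, hab, Ne.symm hab]
    · simp [block_apply, ha]
  rw [e, Matrix.det_updateRow_add, Matrix.det_updateRow_smul, Matrix.updateRow_eq_self]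
  congr 2
  refine det_congr_unit_row (k := k) (fun b hb => ?_) (fun b hb => ?_) ?_ (fun a b ha hb => ?_)
  · simp [hb]
  · simp [block_apply, Ne.symm hb]
  · simp [block_apply]
  · simp [Matrix.updateRow_apply, ha, hM, block_apply, hb]

lemma block_congr_colour (X : Matrix V V R) {f g : V → Fin r} {S : Finset V}
    (h : ∀ v ∈ S, f v = g v) (y : V → R) : block X f S y = block X g S y := by
  ext a b
  rw [block_apply, block_apply]
  by_cases hab : a ∈ S ∧ b ∈ S
  · rw [if_pos hab, if_pos hab, h a hab.1, h b hab.2]
  · rw [if_neg hab, if_neg hab]

lemma mixDet_affine (X : Matrix V V R) (p : V → Fin r → R) {S : Finset V} {k : V} (hk : k ∈ S)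
    (y : V → R) :
    mixDet X p S y = y k * mixDet X p (S.erase k) y + mixDet X p S (Function.update y k 0) := by
  unfold mixDet
  rw [Finset.mul_sum, ← Finset.sum_add_distrib]
  refine Finset.sum_congr rfl fun f _ => ?_
  rw [det_block_affine X f hk y]
  ring

/-- The weights with vertex `v` given colour `s`. -/
def point (p : V → Fin r → R) (v : V) (s : Fin r) : V → Fin r → R :=
  Function.update p v (Pi.single s 1)

lemma sum_weight_split (p : V → Fin r → R) (v : V) (g : (V → Fin r) → R) :
    ∑ f : V → Fin r, (∏ u, p u (f u)) * g f =
      ∑ s, p v s * ∑ f : V → Fin r, (∏ u, point p v s u (f u)) * g f := by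
  simp only [Finset.mul_sum]
  rw [Finset.sum_comm]
  refine Finset.sum_congr rfl fun f _ => ?_
  rw [Finset.sum_eq_single (f v) ?_ (by simp)]
  · rw [← mul_assoc]
    congr 1
    rw [← Finset.mul_prod_erase _ _ (Finset.mem_univ v),
      ← Finset.mul_prod_erase _ _ (Finset.mem_univ v)]
    simp only [point, Function.update_self, Pi.single_eq_same, one_mul]
    congr 1
    exact Finset.prod_congr rfl fun u hu => by
      rw [Function.update_of_ne (Finset.ne_of_mem_erase hu)]
  · intro s _ hs
    rw [Finset.prod_eq_zero (Finset.mem_univ v) (by simp [point, Ne.symm hs])]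
    simp

lemma mixDet_split (X : Matrix V V R) (p : V → Fin r → R) (v : V) (S : Finset V) (y : V → R) :
    mixDet X p S y = ∑ s, p v s * mixDet X (point p v s) S y :=
  sum_weight_split p v fun f => (block X f S y).det

lemma mixDet_point_notMem (X : Matrix V V R) (p : V → Fin r → R) {v : V} {S : Finset V}
    (hv : v ∉ S) (s t : Fin r) (y : V → R) :
    mixDet X (point p v s) S y = mixDet X (point p v t) S y := by
  refine Fintype.sum_equiv
    (Equiv.piCongrRight fun u => if u = v then Equiv.swap s t else Equiv.refl (Fin r)) _ _ fun f => ?_
  congr 1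
  · refine Finset.prod_congr rfl fun u _ => ?_
    by_cases hu : u = v
    · subst hu
      simp only [point, Function.update_self, Equiv.piCongrRight_apply, Pi.map_apply, if_pos rfl,
        Pi.single_apply]
      refine if_congr ?_ rfl rfl
      rw [if_pos trivial, Equiv.swap_apply_eq_iff, Equiv.swap_apply_right]
    · simp [point, hu]
  · rw [block_congr_colour X (g := _) (fun u hu => ?_) y]
    simp [show u ≠ v from fun h => hv (h ▸ hu)]

lemma mixDet_single (X : Matrix V V R) (f : V → Fin r) (S : Finset V) (y : V → R) :
    mixDet X (fun v => Pi.single (f v) (1 : R)) S y = (block X f S y).det := by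
  unfold mixDet
  rw [Finset.sum_eq_single f ?_ (by simp)]
  · simp
  · intro g _ hg
    obtain ⟨u, hu⟩ := Function.ne_iff.1 hg
    rw [Finset.prod_eq_zero (Finset.mem_univ u) (by simp [hu]), zero_mul]

end Ring

lemma isProb_setColour {p : V → Fin r → ℝ} (hp : IsProb p) (k : V) (s : Fin r) :
    IsProb (setColour p k s) := by
  intro v
  by_cases hv : v = k
  · subst hv
    simp only [setColour, Function.update_self]
    refine ⟨fun i => ?_, by simp⟩
    by_cases hi : i = s <;> simp [hi]
  · simp only [setColour, Function.update_of_ne hv]
    exact hp v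

lemma cw_setColour (p : V → Fin r → ℝ) (k : V) (s : Fin r) :
    cw (setColour p k s) = point (cw p) k s := by
  funext v i
  by_cases hv : v = k
  · subst hv
    by_cases hi : i = s <;> simp [cw, setColour, point, hi]
  · simp [cw, setColour, point, hv]

lemma sum_cw {p : V → Fin r → ℝ} (hp : IsProb p) (v : V) : ∑ i, cw p v i = 1 := by
  simp only [cw, ← Complex.ofReal_sum, (hp v).2, Complex.ofReal_one]

/-- The vertices with a random colour. -/
def mixed (p : V → Fin r → ℝ) : Finset V :=
  open Classical in {v | ∀ i, p v ≠ Pi.single i 1}

lemma mixed_setColour_lt {p : V → Fin r → ℝ} {v : V} (hv : v ∈ mixed p) (s : Fin r) :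
    (mixed (setColour p v s)).card < (mixed p).card := by
  classical
  refine Finset.card_lt_card (Finset.ssubset_iff_of_subset (fun u hu => ?_) |>.2 ⟨v, hv, ?_⟩)
  · simp only [mixed, Finset.mem_filter, Finset.mem_univ, true_and] at hu ⊢
    by_cases huv : u = v
    · subst huv; exact absurd (by simp [setColour]) (hu s)
    · simpa [setColour, Function.update_of_ne huv] using hu
  · simp only [mixed, Finset.mem_filter, Finset.mem_univ, true_and]
    exact fun h => h s (by simp [setColour])

variable {X : Matrix V V ℂ}

lemma det_block_ne_zero (hX : X.IsHermitian) (f : V → Fin r) (S : Finset V) (y : V → ℂ)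
    (hy : ∀ v ∈ S, 0 < (y v).im) : (block X f S y).det ≠ 0 := by
  intro h0
  obtain ⟨x, hx0, hx⟩ := Matrix.exists_mulVec_eq_zero_iff.2 h0
  set K : V → V → ℂ := fun a b =>
    if a ∈ S ∧ b ∈ S then (if f a = f b then X a b else 0) else 0 with hK
  have hKstar : ∀ a b, conj (K a b) = K b a := fun a b => by
    simp only [hK, apply_ite (starRingEnd ℂ), map_zero, and_comm (a := a ∈ S), eq_comm (a := f a)]
    rw [show conj (X a b) = X b a from hX.apply b a]
  have hrow : ∀ a, (a ∈ S → y a * x a = ∑ b, K a b * x b) ∧ (a ∉ S → x a = 0) := fun a => by
    have h := congrFun hx a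
    simp only [Matrix.mulVec, dotProduct, Pi.zero_apply] at h
    constructor
    · intro ha
      have e : ∀ b, block X f S y a b * x b =
          (if a = b then y a * x b else 0) - K a b * x b := fun b => by
        rw [block_apply, hK]
        by_cases hb : b ∈ S
        · simp only [ha, hb, and_self, if_true, sub_mul, ite_mul, zero_mul]
        · have hab : a ≠ b := fun h => hb (h ▸ ha)
          simp [ha, hb, hab]
      simp only [e, Finset.sum_sub_distrib, Finset.sum_ite_eq, Finset.mem_univ, if_true] at h
      exact sub_eq_zero.1 h
    · intro ha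
      simpa [block_apply, ha] using h
  set T : ℂ := ∑ a, ∑ b, conj (x a) * K a b * x b with hT
  have hTreal : T.im = 0 := by
    rw [← Complex.conj_eq_iff_im, hT, map_sum]
    simp only [map_sum, map_mul, Complex.conj_conj, hKstar]
    rw [Finset.sum_comm]
    exact Finset.sum_congr rfl fun a _ => Finset.sum_congr rfl fun b _ => by ring
  have hS : T = ∑ a ∈ S, y a * (Complex.normSq (x a) : ℂ) := by
    rw [hT, ← Finset.sum_subset (Finset.subset_univ S) fun a _ ha => by
      simp [(hrow a).2 ha]]
    refine Finset.sum_congr rfl fun a ha => ?_
    rw [Complex.normSq_eq_conj_mul_self, mul_left_comm, (hrow a).1 ha, Finset.mul_sum]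
    exact Finset.sum_congr rfl fun b _ => by ring
  rw [hS, Complex.im_sum] at hTreal
  simp only [Complex.mul_im, Complex.ofReal_re, Complex.ofReal_im, mul_zero, zero_add] at hTreal
  have hz := (Finset.sum_eq_zero_iff_of_nonneg fun a ha =>
    mul_nonneg (hy a ha).le (Complex.normSq_nonneg _)).1 hTreal
  apply hx0
  funext a
  by_cases ha : a ∈ S
  · exact Complex.normSq_eq_zero.1 ((mul_eq_zero.1 (hz a ha)).resolve_left (hy a ha).ne')
  · exact (hrow a).2 ha

/-- Nonvanishing gives that the ratio to the deleted vertex is in the closed upper half-plane. -/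
lemma im_rest_nonneg {P Q : ℂ} {y₀ : ℂ} (hQ : Q ≠ 0)
    (h : ∀ w : ℂ, 0 < w.im → w * Q + P ≠ 0) (hy₀ : 0 < y₀.im) :
    0 < ((y₀ * Q + P) / Q).im ∧ 0 ≤ (P / Q).im := by
  have h2 : 0 ≤ (P / Q).im := by
    by_contra hneg
    refine h (-(P / Q)) (by simp only [Complex.neg_im]; linarith) ?_
    rw [neg_mul, div_mul_cancel₀ P hQ, neg_add_cancel]
  refine ⟨?_, h2⟩
  rw [add_div, mul_div_cancel_right₀ _ hQ, Complex.add_im]
  linarith

lemma mixDet_ne_zero (hX : X.IsHermitian) :
    ∀ (m : ℕ) (S : Finset V), S.card = m → ∀ (d : ℕ) (p : V → Fin r → ℝ), (mixed p).card = d →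
      IsProb p → ∀ y : V → ℂ, (∀ v ∈ S, 0 < (y v).im) → mixDet X (cw p) S y ≠ 0 := by
  intro m
  induction m using Nat.strong_induction_on with
  | _ m ihm =>
    intro S hS d
    induction d using Nat.strong_induction_on with
    | _ d ihd =>
      intro p hd hp y hy
      rcases (mixed p).eq_empty_or_nonempty with he | ⟨v, hv⟩
      · classical
        have : ∀ v, ∃ i, p v = Pi.single i 1 := fun v => by
          by_contra h
          push Not at h
          exact Finset.notMem_empty v (he ▸ Finset.mem_filter.2 ⟨Finset.mem_univ _, h⟩)
        choose f hf using this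
        have e : cw p = fun v => Pi.single (f v) (1 : ℂ) := by
          funext v i
          rw [cw, hf v]
          by_cases hi : i = f v <;> simp [hi]
        rw [e, mixDet_single]
        exact det_block_ne_zero hX f S y hy
      · have hs : ∀ s (y : V → ℂ), (∀ v ∈ S, 0 < (y v).im) →
            mixDet X (point (cw p) v s) S y ≠ 0 := fun s y hy => by
          rw [← cw_setColour]
          exact ihd _ (hd ▸ mixed_setColour_lt hv s) _ rfl (isProb_setColour hp v s) y hy
        rw [mixDet_split X (cw p) v S y]
        by_cases hvS : v ∈ S
        · have hlt : (S.erase v).card < m := hS ▸ Finset.card_erase_lt_of_mem hvS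
          set Q := mixDet X (cw p) (S.erase v) y with hQ
          have hQ0 : Q ≠ 0 := ihm _ hlt _ rfl _ p rfl hp y fun u hu =>
            hy u (Finset.mem_of_mem_erase hu)
          have hQs : ∀ s w, mixDet X (point (cw p) v s) (S.erase v) (Function.update y v w) = Q := by
            intro s w
            rw [hQ, mixDet_split X (cw p) v (S.erase v) y,
              Finset.sum_congr rfl fun t _ => by
                rw [mixDet_point_notMem X (cw p) (Finset.notMem_erase v S) t s],
              ← Finset.sum_mul, sum_cw hp v, one_mul]
            unfold mixDet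
            refine Finset.sum_congr rfl fun f _ => ?_
            congr 2
            ext a b
            by_cases hav : a = v <;> simp [block_apply, hav]
          have key : ∀ s, 0 < (mixDet X (point (cw p) v s) S y / Q).im := fun s => by
            have hyv : Function.update y v (y v) = y := Function.update_eq_self v y
            have haff := mixDet_affine X (point (cw p) v s) hvS y
            rw [show mixDet X (point (cw p) v s) (S.erase v) y = Q by
              rw [← hQs s (y v), hyv]] at haff
            rw [haff]
            refine (im_rest_nonneg hQ0 (fun w hw => ?_) (hy v hvS)).1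
            have h2 := hs s (Function.update y v w) fun u hu => by
              by_cases hu' : u = v
              · subst hu'; simpa using hw
              · rw [Function.update_of_ne hu']; exact hy u hu
            rwa [mixDet_affine X (point (cw p) v s) hvS (Function.update y v w),
              Function.update_self, Function.update_idem, hQs s w] at h2
          intro h0
          have h1 : (∑ s, cw p v s * mixDet X (point (cw p) v s) S y) / Q = 0 := by rw [h0, zero_div]
          rw [Finset.sum_div] at h1
          have h2 := congrArg Complex.im h1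
          simp only [mul_div_assoc, Complex.im_sum, Complex.zero_im, cw, Complex.im_ofReal_mul] at h2
          obtain ⟨s, hs'⟩ : ∃ s, 0 < p v s := by
            by_contra h
            push Not at h
            have := (hp v).2
            linarith [Finset.sum_nonpos fun i (_ : i ∈ Finset.univ) => h i]
          linarith [Finset.sum_pos' (fun i _ => mul_nonneg ((hp v).1 i) (key i).le)
            ⟨s, Finset.mem_univ _, mul_pos hs' (key s)⟩]
        · obtain ⟨s, -⟩ : ∃ s : Fin r, True := by
            rcases isEmpty_or_nonempty (Fin r) with h | ⟨⟨s⟩⟩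
            · have := (hp v).2; simp at this
            · exact ⟨s, trivial⟩
          rw [Finset.sum_congr rfl fun t _ => by rw [mixDet_point_notMem X (cw p) hvS t s],
            ← Finset.sum_mul, sum_cw hp v, one_mul]
          exact hs s y hy

lemma mixDet_erase_update (X : Matrix V V ℂ) (p : V → Fin r → ℂ) (S : Finset V) (k : V)
    (y : V → ℂ) (w : ℂ) :
    mixDet X p (S.erase k) (Function.update y k w) = mixDet X p (S.erase k) y := by
  unfold mixDet
  refine Finset.sum_congr rfl fun f _ => ?_
  congr 2
  ext a b
  by_cases hak : a = k <;> simp [block_apply, hak]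

theorem stable_ok : StableStatement := by
  intro V _ _ r X p hX hp S y hy
  have hne := fun (T : Finset V) (y : V → ℂ) (h : ∀ v ∈ T, 0 < (y v).im) =>
    mixDet_ne_zero hX _ T rfl _ p rfl hp y h
  refine ⟨hne S y hy, fun k hk => ?_⟩
  rw [mixDet_affine X (cw p) hk y]
  refine (im_rest_nonneg (hne _ y fun v hv => hy v (Finset.mem_of_mem_erase hv))
    (fun w hw => ?_) (hy k hk)).1
  have h2 := hne S (Function.update y k w) fun u hu => by
    by_cases hu' : u = k
    · subst hu'; simpa using hw
    · rw [Function.update_of_ne hu']; exact hy u hu
  rwa [mixDet_affine X (cw p) hk (Function.update y k w), Function.update_self,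
    Function.update_idem, mixDet_erase_update] at h2

end Vale.Agent.P078.MKS
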