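import Vale.Agent.P078.MKS.Defs

/-!
Statements of the finite-dimensional steps of measurable paving.
-/

namespace Vale.Agent.P078.MKS

open Finset

/-- Expected characteristic polynomials do not vanish for variables in the upper half-plane and
the ratio to a deleted vertex is in the upper half-plane. -/
def StableStatement : Prop :=
  ∀ (V : Type) [Fintype V] [DecidableEq V] (r : ℕ) (X : Matrix V V ℂ) (p : V → Fin r → ℝ),
    X.IsHermitian → IsProb p → ∀ (S : Finset V) (y : V → ℂ), (∀ v ∈ S, 0 < (y v).im) →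
      mixDet X (cw p) S y ≠ 0 ∧
        ∀ k ∈ S, 0 < (mixDet X (cw p) S y / mixDet X (cw p) (S.erase k) y).im

/-- The roots are real and bounded by the norm. -/
def RootStatement : Prop :=
  ∀ (V : Type) [Fintype V] [DecidableEq V] (r : ℕ) (X : Matrix V V ℂ) (p : V → Fin r → ℝ),
    X.IsHermitian → IsProb p → ∀ c : ℝ, 0 ≤ c → OpBound X c → ∀ S : Finset V,
      (charMix X p S).Monic ∧ (charMix X p S).natDegree = S.card ∧
        ∀ z ∈ (charMix X p S).roots, z.im = 0 ∧ |z.re| ≤ c

/-- Some colour at `k` does not increase a polynomial which is `η`-close in `C¹` to the smoothed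
indicator, up to `4 c η`. -/
def StepStatement : Prop :=
  ∀ (V : Type) [Fintype V] [DecidableEq V] (r : ℕ) (X : Matrix V V ℂ) (p : V → Fin r → ℝ),
    X.IsHermitian → IsProb p → ∀ (c : ℝ), 0 ≤ c → OpBound X c →
      ∀ (t g η : ℝ) (q : Polynomial ℝ), 0 < g →
        (∀ x ∈ Set.Icc (-c) c, |(Polynomial.derivative q).eval x - deriv (soft t g) x| ≤ η) →
        ∀ k : V, ∃ s : Fin r, 0 < p k s ∧
          rootSum (fun x => q.eval x) (charMix X (setColour p k s) univ) ≤
            rootSum (fun x => q.eval x) (charMix X p univ) + 4 * c * η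

/-- The root measure seen from a vertex is a probability measure on the roots. -/
def PartialFractionStatement : Prop :=
  ∀ (V : Type) [Fintype V] [DecidableEq V] (r : ℕ) (X : Matrix V V ℂ) (p : V → Fin r → ℝ),
    X.IsHermitian → IsProb p → ∀ k : V, ∃ w : ℂ → ℝ, (∀ z, 0 ≤ w z) ∧
      ∑ z ∈ (charMix X p univ).roots.toFinset, w z = 1 ∧
        charMix X p (univ.erase k) = ∑ z ∈ (charMix X p univ).roots.toFinset,
          Polynomial.C (w z : ℂ) * (charMix X p univ /ₘ (Polynomial.X - Polynomial.C z))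

/-- Moments add up to power sums of the roots, follow the partial fractions, are local, and are
diagonal entries of powers for a full colouring. -/
def MomentStatement : Prop :=
  ∀ (V : Type) [Fintype V] [DecidableEq V] (r : ℕ) (X : Matrix V V ℂ) (p : V → Fin r → ℝ),
    IsProb p →
    (∀ j, ∑ k, mom X (cw p) k j = ((charMix X p univ).roots.map fun z => z ^ j).sum) ∧
    (∀ (k : V) (w : ℂ → ℂ),
      charMix X p (univ.erase k) = ∑ z ∈ (charMix X p univ).roots.toFinset,
          Polynomial.C (w z) * (charMix X p univ /ₘ (Polynomial.X - Polynomial.C z)) →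
      ∀ j, mom X (cw p) k j = ∑ z ∈ (charMix X p univ).roots.toFinset, w z * z ^ j) ∧
    (∀ (W : Type) [Fintype W] [DecidableEq W] (ι : W → V), Function.Injective ι →
      ∀ (k : W) (j : ℕ), reach X (ι k) j ⊆ Set.range ι →
        mom X (cw p) (ι k) j = mom (X.submatrix ι ι) (cw (p ∘ ι)) k j) ∧
    ∀ f : V → Fin r, p = (fun v => Pi.single (f v) 1) →
      ∀ k j, mom X (cw p) k j =
        (Matrix.of (fun a b => if f a = f b then X a b else 0) ^ j : Matrix V V ℂ) k k

/-- The Marcus–Spielman–Srivastava bound for the uniform colouring with `r` colours, for a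
matrix with spectrum in `[lo, 1]` and diagonal in `[0, α]`: for every `b > 1` the roots are at most
`b - 1 / Φ + b / r`, where `Φ` bounds the diagonal of `(b - X)⁻¹` by the chord. -/
def EdgeStatement : Prop :=
  ∀ (V : Type) [Fintype V] [DecidableEq V] (r : ℕ) (X : Matrix V V ℂ) (lo α b : ℝ),
    0 < r → X.IsHermitian → lo ≤ 0 → 0 ≤ α → α ≤ 1 → 1 < b →
    (∀ v : V → ℂ, lo * ∑ a, ‖v a‖ ^ 2 ≤ (star v ⬝ᵥ X.mulVec v).re ∧
      (star v ⬝ᵥ X.mulVec v).re ≤ ∑ a, ‖v a‖ ^ 2) →
    (∀ a, 0 ≤ (X a a).re ∧ (X a a).re ≤ α) →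
      ∀ z ∈ (charMix X (fun _ (_ : Fin r) => (1 / r : ℝ)) univ).roots,
        z.re ≤ edge lo α b r

end Vale.Agent.P078.MKS
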