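import Vale.Agent.P078.MKS.RepPot

/-!
Tools for the greedy passes: finite subcovers and selection by spectral projections at the points,
and moving the integral of a function supported near a cell onto the cell.
-/

namespace Vale.Agent.P078.MKS.Op

open Singular
open scoped Classical

variable {H : Type} [NormedAddCommGroup H] [InnerProductSpace ℂ H] [CompleteSpace H]
  {M A : VonNeumannAlgebra H} {e : H →L[ℂ] H}

/-- Finitely many elements are enough to be small somewhere at every point of a projection. -/
lemma exists_finite_small (hab : ∀ y ∈ A, ∀ z ∈ A, y * z = z * y) {ι : Type}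
    {G : ι → (H →L[ℂ] H)} (hG : ∀ i, G i ∈ A) {K : H →L[ℂ] H} (hK : K ∈ A) (θ : ℝ)
    (h : ∀ χ : Pt A, ev χ K = 1 → ∃ i, (ev χ (G i)).re < θ) :
    ∃ F : Finset ι, ∀ χ : Pt A, ev χ K = 1 → ∃ i ∈ F, (ev χ (G i)).re < θ := by
  have hcl : IsClosed (A.toStarSubalgebra : Set (H →L[ℂ] H)) := by
    rw [VonNeumannAlgebra.coe_toStarSubalgebra, ← VonNeumannAlgebra.centralizer_centralizer A]
    exact Set.isClosed_centralizer _
  let B : CommCStarAlgebra A.toStarSubalgebra :=
    { StarSubalgebra.cstarAlgebra (h_closed := hcl) A.toStarSubalgebra with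
      mul_comm := fun x y => Subtype.ext (hab x.1 x.2 y.1 y.2) }
  let Ω := WeakDual.characterSpace ℂ A.toStarSubalgebra
  have hcont : ∀ a : A.toStarSubalgebra, Continuous fun f : Ω => f a := fun a =>
    (WeakDual.eval_continuous a).comp continuous_subtype_val
  have hval : ∀ (f : Ω) (χ : Pt A), (∀ a, χ a = f a) → ∀ {z : H →L[ℂ] H} (hz : z ∈ A),
      ev χ z = f ⟨z, hz⟩ := fun f χ hfχ z hz => by rw [ev_eq χ hz, hfχ]
  let O : Option ι → Set Ω := fun o => o.elim {f | f ⟨K, hK⟩ ≠ 1}
    fun i => {f | (f ⟨G i, hG i⟩).re < θ}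
  have hopen : ∀ o, IsOpen (O o) := by
    intro o
    cases o with
    | none => exact isOpen_ne_fun (hcont _) continuous_const
    | some i => exact isOpen_lt (Complex.continuous_re.comp (hcont _)) continuous_const
  have hcov : Set.univ ⊆ ⋃ o, O o := by
    intro f _
    let χ : Pt A :=
      { toFun := fun a => f a
        map_one' := map_one f
        map_mul' := map_mul f
        map_zero' := map_zero f
        map_add' := map_add f
        commutes' := AlgHomClass.commutes f
        map_star' := map_star f }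
    by_cases hf : f ⟨K, hK⟩ = 1
    · obtain ⟨i, hi⟩ := h χ (by rw [hval f χ (fun _ => rfl) hK, hf])
      rw [hval f χ (fun _ => rfl) (hG i)] at hi
      exact Set.mem_iUnion.2 ⟨some i, hi⟩
    · exact Set.mem_iUnion.2 ⟨none, hf⟩
  obtain ⟨F, hF⟩ := isCompact_univ.elim_finite_subcover O hopen hcov
  refine ⟨Finset.eraseNone F, fun χ hχ => ?_⟩
  let f : Ω := WeakDual.CharacterSpace.equivAlgHom.symm χ.toAlgHom
  have hf : ∀ a, χ a = f a := fun a => rfl
  obtain ⟨o, ho, hfo⟩ := Set.mem_iUnion₂.1 (hF (Set.mem_univ f))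
  cases o with
  | none => exact absurd ((hval f χ hf hK).symm.trans hχ) hfo
  | some i => exact ⟨i, Finset.mem_eraseNone.2 ho, by rw [hval f χ hf (hG i)]; exact hfo⟩

/-- The values of a spectral projection. -/
lemma ev_spProj {y : H →L[ℂ] H} (hy : y ∈ A) (hs : IsSelfAdjoint y) (t : ℝ) (χ : Pt A) :
    (t < (ev χ y).re → ev χ (spProj y t) = 1) ∧
      ((ev χ y).re < t → ev χ (spProj y t) = 0) := by
  have hp := (isPr_spProj hy t).1
  set a := cfc (fun x : ℝ => max (x - t) 0) y with ha
  set b := cfc (fun x : ℝ => max (t - x) 0) y with hb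
  have haA : a ∈ A := cfc_mem hy _
  have hbA : b ∈ A := cfc_mem hy _
  have hab : b * a = 0 := by
    rw [ha, hb, ← cfc_mul _ _ y, ← cfc_const_zero ℝ y]
    refine cfc_congr fun x _ => ?_
    rcases le_total x t with h | h <;> simp [h]
  have hsub : a - b = y - (t : ℂ) • 1 := by
    rw [ha, hb, ← cfc_sub _ _ y, Complex.coe_smul]
    rw [cfc_congr (g := fun x : ℝ => x - t) fun x _ => by
      rcases le_total x t with h | h <;> simp [h], cfc_sub _ _ y, cfc_id' ℝ y, cfc_const t y,
      Algebra.algebraMap_eq_smul_one]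
  have hv : ev χ a - ev χ b = ev χ y - t := by
    rw [← ev_sub χ haA hbA, hsub, ev_sub χ hy (csmul_mem _ (one_mem A)),
      ev_smul χ _ (one_mem A), ev_one, mul_one]
  have hz : ev χ b * ev χ a = 0 := by rw [← ev_mul χ hbA haA, hab, ev_zero]
  have ha0 := ev_nonneg χ haA (cfc_nonneg fun x _ => le_max_right _ _)
  have hb0 := ev_nonneg χ hbA (cfc_nonneg fun x _ => le_max_right _ _)
  have hre : (ev χ a).re - (ev χ b).re = (ev χ y).re - t := by
    rw [← Complex.sub_re, hv, Complex.sub_re, Complex.ofReal_re]
  have h1 : ev χ (spProj y t) * ev χ a = ev χ a := by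
    rw [← ev_mul χ hp haA, spProj_mul]
  have h2 : ev χ b * ev χ (spProj y t) = 0 := by
    rw [← ev_mul χ hbA hp, mul_spProj_eq_zero hab, ev_zero]
  refine ⟨fun h => ?_, fun h => ?_⟩
  · have : ev χ a ≠ 0 := fun h0 => by rw [h0, Complex.zero_re] at hre; linarith
    exact mul_right_cancel₀ this (h1.trans (one_mul _).symm)
  · refine (mul_eq_zero.1 h2).resolve_left fun h0 => ?_
    rw [h0, Complex.zero_re] at hre
    linarith

lemma rep_ite {K : H →L[ℂ] H} (hK : IsPr A K) {f g : Pt A → ℂ} (hf : f ∈ Rep A e)
    (hg : g ∈ Rep A e) : (fun χ => if ev χ K = 1 then f χ else g χ) ∈ Rep A e := by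
  have h := add_mem (mul_mem (rep_ev hK.1) hf) (mul_mem (sub_mem (one_mem _) (rep_ev hK.1)) hg)
  convert h using 1
  funext χ
  simp only [Pi.add_apply, Pi.mul_apply, Pi.sub_apply, Pi.one_apply]
  rcases ev_proj χ hK with h0 | h0 <;> simp [h0]

lemma isState_ite {r : ℕ} {K : H →L[ℂ] H} (hK : IsPr A K) {S : St A r} (hS : IsState A e S)
    {v : (Fin r → ℝ) × ℝ} (hv : Ok v) :
    IsState A e fun χ => if ev χ K = 1 then v else S χ := by
  refine ⟨fun χ => ?_, fun s => ?_, ?_⟩
  · show Ok (if ev χ K = 1 then v else S χ)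
    split_ifs
    exacts [hv, hS.1 χ]
  · have := rep_ite hK (rep_const (v.1 s : ℂ)) (hS.2.1 s)
    convert this using 1
    funext χ
    beta_reduce
    split_ifs <;> rfl
  · have := rep_ite hK (rep_const (v.2 : ℂ)) hS.2.2
    convert this using 1
    funext χ
    beta_reduce
    split_ifs <;> rfl

variable {τ : (H →L[ℂ] H) →ₗ[ℂ] ℂ} (hM : IsMASA M A) (he : IsPr A e) (hτ : IsTrace M e τ)

/-- Within `2 n` steps a projection `K` meets no two different points. -/
def Sep (D : Gen M A e) (n : ℕ) (K : H →L[ℂ] H) : Prop :=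
  ∀ χ η : Pt A, ev χ K = 1 → ev η K = 1 → D.Reaches (2 * n) χ η → η = χ

include hM he in
lemma sep_apply (D : Gen M A e) {n : ℕ} {K : H →L[ℂ] H} (hKs : Sep D n K) {c η c' : Pt A}
    (hc : ev c K = 1) (hc' : ev c' K = 1) (h1 : D.Reaches n c η) (h2 : D.Reaches n η c') :
    c' = c :=
  hKs c c' hc hc' (by rw [two_mul]; exact reaches_trans hM he D h1 h2)

include hM he hτ in
/-- A function which vanishes away from a cell integrates to the integral over the cell of its
sums over balls. -/
lemma transport (D : Gen M A e) (n : ℕ) {K : H →L[ℂ] H} (hK : IsPr A K)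
    (hKs : Sep D n K) {h : Pt A → ℂ} (hh : h ∈ Rep A e)
    (hvan : ∀ η, ev η e = 1 → (∀ c, D.Reaches n η c → ev c K ≠ 1) → h η = 0) :
    ∃ g ∈ A, int τ e h = (τ (g * e)).re ∧
      ∀ c : Pt A, ev c g = if ev c K = 1 then ∑ η ∈ D.ball c n, h η else 0 := by
  let T := Fin (Fintype.card (Fin n → Fin D.N) + 1)
  let W : T → (H →L[ℂ] H) := words D n
  have hn : ∀ a, W a ∈ normaliser M A := words_nor hM he D n
  have hcor : ∀ a, Cor M e (W a) := fun a => ⟨(hn a).1, by
    refine Fin.cases ?_ (fun k => ?_) a
    · simp [W, words, he.2.isIdempotentElem.eq]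
    · simpa [W, words] using word_corner D he n _⟩
  have hWe : ∀ a, W a * e = W a := fun a => (hcor a).mul_right he.2
  have heW : ∀ a, e * W a = W a := fun a => (hcor a).mul_left he.2
  let b : T → (H →L[ℂ] H) := fun a => star (W a) * K * W a
  have hb : ∀ a, IsPr A (b a) := fun a => conj_pr hM (hn a) hK
  obtain ⟨h₀, hh₀, hh'⟩ := hh
  have hfirst : ∀ a, ∃ t ∈ A, ∀ χ : Pt A, ev χ e = 1 →
      first (fun i (χ : Pt A) => ev χ (b i)) a χ = ev χ t :=
    fun a => first_mem (fun i => rep_ev (hb i).1) a
  choose t ht ht' using hfirst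
  let x : T → (H →L[ℂ] H) := fun a => b a * (t a * h₀)
  have hx : ∀ a, x a ∈ A := fun a => mul_mem (hb a).1 (mul_mem (ht a) hh₀)
  have hxe : ∀ a, x a * e = x a := fun a => by
    show b a * (t a * h₀) * e = b a * (t a * h₀)
    rw [mul_assoc, hM.2.1 (t a * h₀) (mul_mem (ht a) hh₀) e he.1, ← mul_assoc]
    congr 1
    show star (W a) * K * W a * e = _
    rw [mul_assoc, hWe]
  have hxd : ∀ a, x a * (star (W a) * W a) = x a := fun a => by
    show b a * (t a * h₀) * (star (W a) * W a) = b a * (t a * h₀)
    rw [mul_assoc, hM.2.1 (t a * h₀) (mul_mem (ht a) hh₀) _ (nor_dom (hn a)).1, ← mul_assoc]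
    congr 1
    calc star (W a) * K * W a * (star (W a) * W a)
        = star (W a) * K * (W a * star (W a) * W a) := by simp only [mul_assoc]
      _ = b a := by rw [(hn a).2.1]
  have hfcases : ∀ (η : Pt A) (a : T),
      first (fun i (χ : Pt A) => ev χ (b i)) a η = first (fun i => ev η (b i)) a := fun η a => by
    simp [first, Finset.prod_apply]
  have hevx : ∀ (a : T) (η : Pt A), ev η (x a) =
      if ev η (b a) = 1 then first (fun i => ev η (b i)) a * h η else 0 := fun a η => by
    rw [show ev η (x a) = ev η (b a) * (ev η (t a) * ev η h₀) by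
      rw [← ev_mul η (ht a) hh₀, ← ev_mul η (hb a).1 (mul_mem (ht a) hh₀)]]
    rcases ev_proj η (hb a) with h0 | h1
    · simp [h0]
    · have hηe : ev η e = 1 := by
        have := congrArg (ev η) (show b a * e = b a by
          show star (W a) * K * W a * e = _
          rw [mul_assoc, hWe])
        rwa [ev_mul η (hb a).1 he.1, h1, one_mul] at this
      rw [h1, one_mul, if_pos rfl, ← ht' a η hηe, ← hh' η hηe, hfcases]
  refine ⟨∑ a, W a * x a * star (W a), sum_mem fun a _ => ((hn a).2.2 _ (hx a)).1, ?_, fun c => ?_⟩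
  · rw [int_eq hM he hτ (a := ∑ a, x a) (sum_mem fun a _ => hx a) fun η hη => ?_]
    · simp only [Finset.sum_mul, map_sum, Complex.re_sum]
      refine Finset.sum_congr rfl fun a _ => ?_
      rw [hxe, show W a * x a * star (W a) * e = W a * (x a * star (W a)) by
        rw [mul_assoc, show star (W a) * e = star (W a) by
          simpa [star_mul, he.2.isSelfAdjoint.star_eq] using congrArg star (heW a), mul_assoc]]
      conv_lhs => rw [← hxd a, ← mul_assoc]
      have h1 : Cor M e (x a) := hxe a ▸ cor_of_alg hM he (hx a)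
      have h2 : Cor M e (x a * star (W a)) := h1.mul he.2 ((hcor a).star' he.2)
      rw [hτ.2.2.1 _ h2.1 _ (hcor a).1 h2.2 (hcor a).2]
    · rw [ev_sum η _ _ fun a _ => hx a]
      simp only [hevx]
      by_cases hex : ∃ a, ev η (b a) = 1
      · obtain ⟨j, hj, hj1, hj0⟩ := sum_first (fun i => ev_proj η (hb i)) hex
        rw [Finset.sum_eq_single j]
        · rw [if_pos hj, hj1, one_mul]
        · intro a _ ha
          split_ifs
          · rw [hj0 a ha, zero_mul]
          · rfl
        · exact fun h => absurd (Finset.mem_univ j) h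
      · push Not at hex
        rw [hvan η hη fun c hc hcK => ?_]
        · exact (Finset.sum_eq_zero fun a _ => if_neg (hex a)).symm
        · obtain ⟨a, ha⟩ := words_surj D n hc
          exact hex a (by rw [show ev η (b a) = ev c K from (ha.2 K hK.1).symm, hcK])
  · rw [ev_sum c _ _ fun a _ => ((hn a).2.2 _ (hx a)).1]
    by_cases hc : ev c K = 1
    · rw [if_pos hc]
      have hterm : ∀ a, ev c (W a * x a * star (W a)) = ∑ η ∈ D.ball c n,
          if Moves (W a) η c then first (fun i => ev η (b i)) a * h η else 0 := fun a => by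
        by_cases hd : ev c (W a * star (W a)) = 1
        · obtain ⟨θ, hθ⟩ := exists_moves hM (nor_star (hn a)) (by rwa [star_star])
          have hW := moves_star hM (nor_star (hn a)) hθ
          rw [star_star] at hW
          have hθb : ev θ (b a) = 1 := by rw [← hW.2 K hK.1, hc]
          rw [Finset.sum_eq_single θ]
          · rw [if_pos hW, show ev c (W a * x a * star (W a)) = ev θ (x a) by
              rw [hθ.2 _ (hx a), star_star], hevx, if_pos hθb]
          · intro η _ hη
            rw [if_neg fun hm => hη (moves_unique (moves_star hM (hn a) hm) hθ)]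
          · intro hnot
            exact absurd ((mem_ball D).2 (reaches_symm hM he D (words_reach hM he D n a hW))) hnot
        · have h0 : ev c (star (star (W a)) * star (W a)) = 0 := by
            rw [star_star]
            exact (ev_proj c (by simpa using nor_dom (nor_star (hn a)))).resolve_right hd
          rw [show ev c (W a * x a * star (W a)) = 0 by
            simpa using conj_of_not_dom (nor_star (hn a)) (hx a) h0]
          refine (Finset.sum_eq_zero fun η _ => if_neg fun hm => hd ?_).symm
          exact (moves_range hM (hn a) hm).2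
      simp only [hterm]
      rw [Finset.sum_comm]
      refine Finset.sum_congr rfl fun η hη => ?_
      have hηc := (mem_ball D).1 hη
      obtain ⟨a₀, ha₀⟩ := words_surj D n (reaches_symm hM he D hηc)
      have hiff : ∀ a, ev η (b a) = 1 → Moves (W a) η c := fun a ha => by
        have hd : ev η (star (W a) * W a) = 1 := by
          rcases ev_proj η (nor_dom (hn a)) with h0 | h1
          · rw [show ev η (b a) = 0 from conj_of_not_dom (hn a) hK.1 h0] at ha
            exact absurd ha zero_ne_one
          · exact h1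
        obtain ⟨c', hc'⟩ := exists_moves hM (hn a) hd
        have hc'K : ev c' K = 1 := by rw [hc'.2 K hK.1]; exact ha
        rwa [sep_apply hM he D hKs hc hc'K hηc (words_reach hM he D n a hc')] at hc'
      obtain ⟨j, hj, hj1, hj0⟩ := sum_first (fun i => ev_proj η (hb i))
        ⟨a₀, show ev η (b a₀) = 1 by rw [show ev η (b a₀) = ev c K from (ha₀.2 K hK.1).symm, hc]⟩
      rw [Finset.sum_eq_single j]
      · rw [if_pos (hiff j hj), hj1, one_mul]
      · intro a _ ha
        split_ifs
        · rw [hj0 a ha, zero_mul]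
        · rfl
      · exact fun h => absurd (Finset.mem_univ j) h
    · rw [if_neg hc]
      refine Finset.sum_eq_zero fun a _ => ?_
      by_cases hd : ev c (W a * star (W a)) = 1
      · obtain ⟨θ, hθ⟩ := exists_moves hM (nor_star (hn a)) (by rwa [star_star])
        have hW := moves_star hM (nor_star (hn a)) hθ
        rw [star_star] at hW
        rw [show ev c (W a * x a * star (W a)) = ev θ (x a) by rw [hθ.2 _ (hx a), star_star],
          hevx, if_neg]
        rw [← hW.2 K hK.1]
        exact hc
      · have h0 : ev c (star (star (W a)) * star (W a)) = 0 := by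
          rw [star_star]
          exact (ev_proj c (by simpa using nor_dom (nor_star (hn a)))).resolve_right hd
        simpa using conj_of_not_dom (nor_star (hn a)) (hx a) h0

end Vale.Agent.P078.MKS.Op
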