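import Vale.Agent.P078.MKS.Germ
import Vale.Agent.P078.MKS.Statements

/-!
Finite windows of the groupoid of a MASA seen from a point: the Hermitian matrix of an element of
the normaliser span, its form bounds, powers, and independence of the choice of representatives.
-/

namespace Vale.Agent.P078.MKS.Op

open Singular
open scoped Classical

variable {H : Type} [NormedAddCommGroup H] [InnerProductSpace ℂ H] [CompleteSpace H]
  {M A : VonNeumannAlgebra H} {e : H →L[ℂ] H}

/-- An element written with finitely many normalising generators, closed under the adjoint and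
containing the corner projection. -/
structure Gen (M A : VonNeumannAlgebra H) (e : H →L[ℂ] H) where
  N : ℕ
  a : Fin N → (H →L[ℂ] H)
  g : Fin N → (H →L[ℂ] H)
  a_mem : ∀ i, a i ∈ A
  g_mem : ∀ i, g i ∈ normaliser M A
  g_star : ∀ i, ∃ j, g j = star (g i)
  g_unit : ∃ i, g i = e
  g_corner : ∀ i, e * g i * e = g i

/-- The element written by the data. -/
def Gen.op (D : Gen M A e) : H →L[ℂ] H := ∑ i, D.a i * D.g i

/-- A product of `n` generators. -/
def Gen.word (D : Gen M A e) : (n : ℕ) → (Fin n → Fin D.N) → (H →L[ℂ] H)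
  | 0, _ => e
  | n + 1, f => D.g (f 0) * Gen.word D n fun i => f i.succ

/-- `η` is reached from `χ` by at most `n` generators. -/
def Gen.Reaches (D : Gen M A e) (n : ℕ) (χ η : Pt A) : Prop :=
  ∃ f : Fin n → Fin D.N, Moves (D.word n f) χ η

variable (hM : IsMASA M A) (he : IsPr A e)

include hM in
lemma moves_split {v w : H →L[ℂ] H} (hv : v ∈ normaliser M A) (hw : w ∈ normaliser M A)
    {χ ζ : Pt A} (h : Moves (v * w) χ ζ) : ∃ η, Moves w χ η ∧ Moves v η ζ := by
  have hd := (nor_dom hv).1
  have e1 : star (v * w) * (v * w) = star w * (star v * v) * w := by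
    rw [star_mul]; simp only [mul_assoc]
  have hwd : ev χ (star w * w) = 1 := by
    have e2 : star w * (star v * v) * w * (star w * w) = star w * (star v * v) * w := by
      calc star w * (star v * v) * w * (star w * w)
          = star w * (star v * v) * (w * star w * w) := by simp only [mul_assoc]
        _ = star w * (star v * v) * w := by rw [hw.2.1]
    have := congrArg (ev χ) e2
    rwa [ev_mul χ (hw.2.2 _ hd).2 (nor_dom hw).1, ← e1, h.1, one_mul] at this
  obtain ⟨η, hη⟩ := exists_moves hM hw hwd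
  obtain ⟨θ, hθ⟩ := exists_moves hM hv (χ := η) (by rw [hη.2 _ hd, ← e1, h.1])
  exact ⟨η, hη, moves_unique (moves_mul hM hv hη hθ) h ▸ hθ⟩

include hM in
lemma moves_fix {p : H →L[ℂ] H} (hp : IsPr A p) {χ η : Pt A} (h : Moves p χ η) : η = χ := by
  refine moves_unique h (moves_proj hM hp ?_)
  simpa [hp.2.isSelfAdjoint.star_eq, hp.2.isIdempotentElem.eq] using h.1

section Words

variable (D : Gen M A e)

include hM he in
lemma word_mem : ∀ n f, D.word n f ∈ normaliser M A
  | 0, _ => proj_mem_nor hM he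
  | n + 1, f => nor_mul_mem hM (D.g_mem _) (word_mem n _)

lemma word_corner (he : IsPr A e) : ∀ n f, e * D.word n f * e = D.word n f
  | 0, _ => by
    show e * e * e = e
    rw [he.2.isIdempotentElem.eq, he.2.isIdempotentElem.eq]
  | n + 1, f => by
    show e * (D.g (f 0) * D.word n _) * e = D.g (f 0) * D.word n _
    have h1 : e * D.g (f 0) = D.g (f 0) := by
      conv_lhs => rw [← D.g_corner (f 0)]
      simp only [← mul_assoc, he.2.isIdempotentElem.eq]
      exact D.g_corner (f 0)
    have h2 : D.word n (fun i => f i.succ) * e = D.word n (fun i => f i.succ) := by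
      conv_lhs => rw [← word_corner he n]
      simp only [mul_assoc, he.2.isIdempotentElem.eq]
      simpa only [mul_assoc] using word_corner he n _
    rw [← mul_assoc e, h1, mul_assoc, h2]

include hM he in
lemma moves_corner {v : H →L[ℂ] H} (hv : v ∈ normaliser M A) (hc : e * v * e = v) {χ η : Pt A}
    (h : Moves v χ η) : ev χ e = 1 ∧ ev η e = 1 := by
  have hev : e * v = v := by
    conv_lhs => rw [← hc]
    simp only [← mul_assoc, he.2.isIdempotentElem.eq]
    exact hc
  have hve : v * e = v := by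
    conv_lhs => rw [← hc]
    simp only [mul_assoc, he.2.isIdempotentElem.eq]
    simpa only [mul_assoc] using hc
  have hd := (nor_dom hv).1
  refine ⟨?_, ?_⟩
  · have := ev_mul χ hd he.1
    rw [mul_assoc, hve, h.1, one_mul] at this
    exact this.symm
  · rw [h.2 e he.1, mul_assoc, hev, h.1]

include hM he in
lemma reaches_zero {χ η : Pt A} : D.Reaches 0 χ η ↔ η = χ ∧ ev χ e = 1 := by
  constructor
  · rintro ⟨f, h⟩
    exact ⟨moves_fix hM he h, (moves_corner hM he (proj_mem_nor hM he)
      (word_corner D he 0 f) h).1⟩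
  · rintro ⟨rfl, h⟩
    exact ⟨Fin.elim0, moves_proj hM he h⟩

include hM he in
lemma reaches_succ {n : ℕ} {χ η : Pt A} :
    D.Reaches (n + 1) χ η ↔ ∃ θ, D.Reaches n χ θ ∧ ∃ i, Moves (D.g i) θ η := by
  constructor
  · rintro ⟨f, h⟩
    obtain ⟨θ, h1, h2⟩ := moves_split hM (D.g_mem _) (word_mem hM he D n _) h
    exact ⟨θ, ⟨_, h1⟩, f 0, h2⟩
  · rintro ⟨θ, ⟨f, h1⟩, i, h2⟩
    exact ⟨Fin.cons i f, by
      show Moves (D.g ((Fin.cons i f : Fin (n + 1) → Fin D.N) 0) * _) χ η
      simpa using moves_mul hM (D.g_mem i) h1 h2⟩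

include hM he in
lemma reaches_ev {n : ℕ} {χ η : Pt A} (h : D.Reaches n χ η) : ev χ e = 1 ∧ ev η e = 1 :=
  let ⟨f, hf⟩ := h
  moves_corner hM he (word_mem hM he D n f) (word_corner D he n f) hf

include hM he in
lemma reaches_self {χ : Pt A} (h : ev χ e = 1) : ∀ n, D.Reaches n χ χ
  | 0 => (reaches_zero hM he D).2 ⟨rfl, h⟩
  | n + 1 => by
    obtain ⟨i, hi⟩ := D.g_unit
    exact (reaches_succ hM he D).2 ⟨χ, reaches_self h n, i, by rw [hi]; exact moves_proj hM he h⟩

include hM he in
lemma reaches_trans {m : ℕ} {χ η : Pt A} (h : D.Reaches m χ η) :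
    ∀ {n : ℕ} {ζ : Pt A}, D.Reaches n η ζ → D.Reaches (m + n) χ ζ
  | 0, _, h' => by rw [((reaches_zero hM he D).1 h').1]; exact h
  | n + 1, _, h' => by
    obtain ⟨θ, h1, hi⟩ := (reaches_succ hM he D).1 h'
    exact (reaches_succ hM he D).2 ⟨θ, reaches_trans h h1, hi⟩

include hM he in
lemma reaches_mono {m n : ℕ} (hmn : m ≤ n) {χ η : Pt A} (h : D.Reaches m χ η) :
    D.Reaches n χ η := by
  have := reaches_trans hM he D h (reaches_self hM he D (reaches_ev hM he D h).2 (n - m))
  rwa [Nat.add_sub_cancel' hmn] at this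

include hM he in
lemma reaches_symm : ∀ {n : ℕ} {χ η : Pt A}, D.Reaches n χ η → D.Reaches n η χ
  | 0, _, _, h => by
    obtain ⟨rfl, h'⟩ := (reaches_zero hM he D).1 h
    exact reaches_self hM he D h' 0
  | n + 1, χ, η, h => by
    obtain ⟨θ, h1, i, hi⟩ := (reaches_succ hM he D).1 h
    obtain ⟨j, hj⟩ := D.g_star i
    have h2 : D.Reaches 1 η θ := (reaches_succ hM he D).2
      ⟨η, reaches_self hM he D (moves_corner hM he (D.g_mem i) (D.g_corner i) hi).2 0, j,
        hj ▸ moves_star hM (D.g_mem i) hi⟩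
    have := reaches_trans hM he D h2 (reaches_symm h1)
    rwa [add_comm] at this

lemma reaches_finite (n : ℕ) (χ : Pt A) : {η | D.Reaches n χ η}.Finite :=
  (Set.finite_iUnion fun f => Set.Subsingleton.finite (s := {η | Moves (D.word n f) χ η})
    fun _ hη _ hζ => moves_unique hη hζ).subset fun _ ⟨f, hf⟩ => Set.mem_iUnion.2 ⟨f, hf⟩

/-- The points reached from `χ` by at most `n` generators. -/
noncomputable def Gen.ball (χ : Pt A) (n : ℕ) : Finset (Pt A) := (reaches_finite D n χ).toFinset

lemma mem_ball {χ η : Pt A} {n : ℕ} : η ∈ D.ball χ n ↔ D.Reaches n χ η :=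
  Set.Finite.mem_toFinset _

/-- A representative moving `χ` to `η`. -/
noncomputable def rep (M : VonNeumannAlgebra H) (χ η : Pt A) : H →L[ℂ] H :=
  if h : ∃ v, v ∈ normaliser M A ∧ Moves v χ η then h.choose else 0

include hM he in
lemma frame_ball (χ : Pt A) (n : ℕ) :
    ∀ η ∈ D.ball χ n, rep M χ η ∈ normaliser M A ∧ Moves (rep M χ η) χ η ∧ ev η e = 1 := by
  intro η hη
  have hR := (mem_ball D).1 hη
  obtain ⟨f, hf⟩ := hR
  have h : ∃ v, v ∈ normaliser M A ∧ Moves v χ η := ⟨_, word_mem hM he D n f, hf⟩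
  rw [rep, dif_pos h]
  exact ⟨h.choose_spec.1, h.choose_spec.2, (reaches_ev hM he D ⟨f, hf⟩).2⟩

end Words

/-- The matrix coefficient of the data between two representatives seen from `χ`. -/
noncomputable def coef {K : Type} [Fintype K] (a g : K → (H →L[ℂ] H)) (χ : Pt A)
    (R : Pt A → (H →L[ℂ] H)) (u v : Pt A) : ℂ :=
  ∑ i, ev u (a i) * val χ (star (R u) * g i * R v)

/-- The window matrix. -/
noncomputable def wmat {K : Type} [Fintype K] (a g : K → (H →L[ℂ] H)) (χ : Pt A)
    (R : Pt A → (H →L[ℂ] H)) (U : Finset (Pt A)) : Matrix U U ℂ :=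
  Matrix.of fun u v => coef a g χ R u v

/-- A representative for every point of a window. -/
def IsFrame (M : VonNeumannAlgebra H) (e : H →L[ℂ] H) (χ : Pt A) (U : Finset (Pt A))
    (R : Pt A → (H →L[ℂ] H)) : Prop :=
  ∀ η ∈ U, R η ∈ normaliser M A ∧ Moves (R η) χ η ∧ ev η e = 1

include hM in
lemma ev_cell_val {χ : Pt A} {w p : H →L[ℂ] H} (hw : w ∈ normaliser M A) (hp : IsPr A p)
    (hpw : p * w * p ∈ A) (h1 : ev χ p = 1) : ev χ (p * w * p) = val χ w := by
  have e1 : w * (star w * p * w * p) = p * w * p := by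
    rw [← mul_assoc, ← mul_nor hM hw hp.1]
  have hq : IsPr A (star w * p * w * p) := isPr_mul hM.2.1 (conj_pr hM hw hp) hp
  have hq1 : ev χ (star w * p * w * p) = ev χ (star w * p * w) := by
    rw [ev_mul χ (hw.2.2 p hp.1).2 hp.1, h1, mul_one]
  rcases ev_proj χ hq with h | h
  · have hz : ev χ (p * w * p) = 0 := by
      have e2 : p * w * p * (star w * p * w * p) = p * w * p := by
        rw [← e1, mul_assoc w, hq.2.isIdempotentElem.eq]
      rw [← e2, ev_mul χ hpw hq.1, h, mul_zero]
    rw [hz]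
    by_contra hne
    have hfix := moves_of_val_ne_zero hM hw (Ne.symm hne)
    rw [hq1, ← hfix.2 p hp.1, h1] at h
    exact one_ne_zero h
  · rw [val_eq hM hq h (e1 ▸ hpw), e1]

include hM in
lemma ev_monomial {χ : Pt A} {U : Finset (Pt A)} {R : Pt A → (H →L[ℂ] H)}
    (hR : IsFrame M e χ U R) {u v : Pt A} (hu : u ∈ U) (hv : v ∈ U) {a g p : H →L[ℂ] H}
    (ha : a ∈ A) (hg : g ∈ normaliser M A) (hp : IsPr A p) (h1 : ev χ p = 1)
    (hpw : p * (star (R u) * g * R v) * p ∈ A) :
    p * (star (R u) * (a * g) * R v) * p ∈ A ∧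
      ev χ (p * (star (R u) * (a * g) * R v) * p) = ev u a * val χ (star (R u) * g * R v) := by
  obtain ⟨hRu, hum, -⟩ := hR u hu
  obtain ⟨hRv, -, -⟩ := hR v hv
  have hr : R u * star (R u) ∈ A := by simpa using (hRu.2.2 1 (one_mem A)).1
  have hb : star (R u) * a * R u ∈ A := (hRu.2.2 a ha).2
  have e1 : star (R u) * (a * g) * R v = star (R u) * a * R u * (star (R u) * g * R v) := by
    calc star (R u) * (a * g) * R v
        = star (R u) * R u * star (R u) * a * g * R v := by
          rw [show star (R u) * R u * star (R u) = star (R u) by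
            simpa using (nor_star hRu).2.1]
          simp only [mul_assoc]
      _ = star (R u) * (a * (R u * star (R u))) * g * R v := by
          rw [masa_comm hM ha hr]; simp only [mul_assoc]
      _ = _ := by simp only [mul_assoc]
  have hw : star (R u) * g * R v ∈ normaliser M A :=
    nor_mul_mem hM (nor_mul_mem hM (nor_star hRu) hg) hRv
  rw [e1, ← mul_assoc p, masa_comm hM hp.1 hb, mul_assoc (star (R u) * a * R u) p,
    mul_assoc (star (R u) * a * R u) (p * _)]
  refine ⟨mul_mem hb hpw, ?_⟩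
  rw [ev_mul χ hb hpw, ev_cell_val hM hw hp hpw h1, ← hum.2 a ha]

include hM in
lemma val_frame_self {χ : Pt A} {U : Finset (Pt A)} {R : Pt A → (H →L[ℂ] H)} (he : IsPr A e)
    (hR : IsFrame M e χ U R) {u v : Pt A} (hu : u ∈ U) (hv : v ∈ U) :
    val χ (star (R u) * e * R v) = if u = v then 1 else 0 := by
  obtain ⟨hRu, hum, hue⟩ := hR u hu
  obtain ⟨hRv, hvm, -⟩ := hR v hv
  split_ifs with h
  · subst h
    rw [val_insert hM (nor_star hRu) hRu hum he hue,
      val_eq hM ⟨one_mem A, IsStarProjection.one _⟩ (ev_one χ) (by simpa using (nor_dom hRu).1),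
      mul_one, hum.1]
  · by_contra hne
    exact h (moves_fix hM he (moves_of_val hM hRu hRv (proj_mem_nor hM he) hum hvm hne))

end Vale.Agent.P078.MKS.Op
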